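import Vale.Agent.P095.Full.Tracial.Defs
import Vale.Agent.P101.Common

/-!
# P095, all amenable groups: elementary facts on sites

Membership, commutation and independence for the algebras of sites; traces kill nilpotents.
-/

noncomputable section

namespace Vale.Agent.P095.Full.Tracial

universe u v

open Vale.Agent.P101 Vale.Agent.P095.Gamma

variable {B : Type u} [CStarAlgebra B] {G : Type v} [Group G]

/-- A trace vanishes on elements of square zero. -/
theorem map_eq_zero_of_sq_zero {τ : B →ₗ[ℂ] ℂ} (hτ : IsTrace B τ) {x : B} (h : x * x = 0) :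
    τ x = 0 := by
  refine norm_le_zero_iff.1 (le_of_forall_pos_le_add fun ε hε => ?_)
  obtain ⟨u, w, hu, husa, -, hsmall⟩ := exists_local_unit x (ε := ε ^ 2) (by positivity)
  have h0 : τ (x * u) = 0 := by
    rw [hτ.comm, ← husa.star_eq, hu, star_mul, star_mul, star_star,
      show star w * (star x * x) * x = star w * star x * (x * x) by simp only [mul_assoc], h,
      mul_zero, map_zero]
  rw [show x = x * u + x * (1 - u) by rw [mul_sub, mul_one, add_sub_cancel], map_add, h0, zero_add,
    zero_add]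
  exact (hτ.norm_map_le_norm _).trans (by nlinarith [norm_nonneg (x * (1 - u))])

namespace Fam

variable (S : Fam B G)

theorem isClosed_alg (P : Set Site) : IsClosed (S.alg P : Set B) :=
  StarSubalgebra.isClosed_topologicalClosure _

instance instIsClosedAlg (P : Set Site) : IsClosed (S.alg P : Set B) := S.isClosed_alg P

theorem genSet_subset_alg (P : Set Site) : S.genSet P ⊆ S.alg P := fun _ hx =>
  StarSubalgebra.le_topologicalClosure _ (StarAlgebra.subset_adjoin ℂ _ hx)

theorem h_mem {P : Set Site} (g : G) {s : Site} (hs : s ∈ P) : S.act g (S.h s) ∈ S.alg P :=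
  S.genSet_subset_alg P ⟨g, s, hs, Or.inl rfl⟩

theorem z_mem {P : Set Site} (g : G) {s : Site} (hs : s ∈ P) (i : Fin 6) :
    S.act g (S.z s i) ∈ S.alg P :=
  S.genSet_subset_alg P ⟨g, s, hs, Or.inr ⟨i, rfl⟩⟩

theorem alg_le {P : Set Site} {K : StarSubalgebra ℂ B} (hK : IsClosed (K : Set B))
    (h : S.genSet P ⊆ K) : S.alg P ≤ K :=
  StarSubalgebra.topologicalClosure_minimal (StarAlgebra.adjoin_le h) hK

theorem alg_mono {P Q : Set Site} (h : P ⊆ Q) : S.alg P ≤ S.alg Q :=
  S.alg_le (S.isClosed_alg Q) fun _ ⟨g, s, hs, hx⟩ =>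
    S.genSet_subset_alg Q ⟨g, s, h hs, hx⟩

theorem continuous_act (g : G) : Continuous (S.act g) :=
  AddMonoidHomClass.continuous_of_bound (S.act g) 1 fun x => by
    simpa using NonUnitalStarAlgHom.norm_apply_le (S.act g) x

theorem act_mem_alg {P : Set Site} (g : G) {x : B} (hx : x ∈ S.alg P) : S.act g x ∈ S.alg P := by
  refine S.alg_le (K := (S.alg P).comap (S.act g))
    ((S.isClosed_alg P).preimage (S.continuous_act g)) ?_ hx
  rintro _ ⟨k, s, hs, rfl | ⟨i, rfl⟩⟩
  · show S.act g (S.act k (S.h s)) ∈ S.alg P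
    rw [← S.act_mul]; exact S.h_mem _ hs
  · show S.act g (S.act k (S.z s i)) ∈ S.alg P
    rw [← S.act_mul]; exact S.z_mem _ hs i

theorem norm_act_le (g : G) (x : B) : ‖S.act g x‖ ≤ ‖x‖ :=
  NonUnitalStarAlgHom.norm_apply_le (S.act g) x

theorem norm_z_le (g : G) (s : Site) (i : Fin 6) : ‖S.act g (S.z s i)‖ ≤ 1 :=
  (S.norm_act_le g _).trans (S.z_norm s i)

theorem feature_mem {P : Set Site} (g : G) {s : Site} (hs : s ∈ P) (j : Fin 6 × Bool) :
    S.feature g s j ∈ S.alg P := by
  have h := S.z_mem (P := P) g hs j.1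
  rw [Fam.feature]
  split_ifs
  · exact SMulMemClass.smul_mem _ (add_mem h (star_mem h))
  · exact SMulMemClass.smul_mem _ (sub_mem h (star_mem h))

theorem star_feature (g : G) (s : Site) (j : Fin 6 × Bool) :
    star (S.feature g s j) = S.feature g s j := by
  rw [Fam.feature]
  split_ifs
  · simp [add_comm]
  · rw [star_smul, star_sub, star_star, show star (-Complex.I / 2) = -(-Complex.I / 2) by
      simp [Complex.ext_iff]; norm_num, neg_smul, ← smul_neg, neg_sub]

theorem norm_feature_le (g : G) (s : Site) (j : Fin 6 × Bool) : ‖S.feature g s j‖ ≤ 1 := by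
  have hz := S.norm_z_le g s j.1
  rw [Fam.feature]
  split_ifs <;> rw [norm_smul]
  · have := norm_add_le (S.act g (S.z s j.1)) (star (S.act g (S.z s j.1)))
    rw [norm_star] at this
    norm_num
    linarith
  · have := norm_sub_le (S.act g (S.z s j.1)) (star (S.act g (S.z s j.1)))
    rw [norm_star] at this
    norm_num
    linarith

/-- The algebras of disjoint sets of sites *-commute. -/
theorem starCommute_alg {P Q : Set Site} (h : Disjoint P Q) {a b : B} (ha : a ∈ S.alg P)
    (hb : b ∈ S.alg Q) : StarCommute a b := by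
  have h1 : S.alg P ≤ StarSubalgebra.centralizer ℂ (S.genSet Q) := by
    refine S.alg_le (Vale.Agent.P101.isClosed_centralizer _) ?_
    rintro x ⟨g, s, hs, hx⟩
    refine mem_centralizer_of_starCommute ?_
    rintro y ⟨k, t, ht, hy⟩
    have hst : s ≠ t := h.ne_of_mem hs ht
    obtain ⟨c1, c2, c3⟩ := S.comm s t hst g k
    rcases hx with rfl | ⟨i, rfl⟩ <;> rcases hy with rfl | ⟨j, rfl⟩
    · exact c1
    · exact c2 j
    · exact StarCommute.symm ((S.comm t s hst.symm k g).2.1 i)
    · exact c3 i j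
  have h2 : S.alg Q ≤ StarSubalgebra.centralizer ℂ {a} := by
    refine S.alg_le (Vale.Agent.P101.isClosed_centralizer _) fun y hy =>
      mem_centralizer_of_starCommute ?_
    rintro _ rfl
    exact (starCommute_of_mem_centralizer (h1 ha) hy).symm
  exact (starCommute_of_mem_centralizer (h2 hb) (Set.mem_singleton a)).symm

variable {S}

/-- Disjoint sets of sites are independent. -/
theorem Good.map_mul {τ : B →ₗ[ℂ] ℂ} (hτ : S.Good τ) {P Q : Set Site} (h : Disjoint P Q)
    {d e : B} (hd : d ∈ S.alg P) (he : e ∈ S.alg Q) : τ (d * e) = τ d * τ e :=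
  hτ.indep P d hd e (S.alg_mono (fun _ hq hp => h.ne_of_mem hp hq rfl) he)

theorem Good.map_z {τ : B →ₗ[ℂ] ℂ} (hτ : S.Good τ) (g : G) (s : Site) (i : Fin 6) :
    τ (S.act g (S.z s i)) = 0 :=
  map_eq_zero_of_sq_zero hτ.trace (by rw [← _root_.map_mul, S.z_sq, map_zero])

theorem Good.map_feature {τ : B →ₗ[ℂ] ℂ} (hτ : S.Good τ) (g : G) (s : Site) (j : Fin 6 × Bool) :
    τ (S.feature g s j) = 0 := by
  have h := hτ.map_z g s j.1
  rw [Fam.feature]
  split_ifs <;>
    simp [hτ.trace.map_star, h]

end Fam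

end Vale.Agent.P095.Full.Tracial
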