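import Vale.Agent.P095.Full.Tracial.Estimate

/-!
# P095, all amenable groups: replicas in the limit

The densities of a replica have mean one, small square roots and small affinity at far translates;
hence its weights are small, and the error element of the ladder is bounded in the limit.
-/

noncomputable section

namespace Vale.Agent.P095.Full.Tracial

universe u v

open Filter Topology BoundedContinuousFunction Vale.Agent.P101 Vale.Agent.P095.Gamma
open scoped symmDiff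

local instance boundOrder {B : Type u} [CStarAlgebra B] {τ : ℕ → B →ₗ[ℂ] ℂ}
    (hτ : ∀ M, IsTrace B (τ M)) (U : Ultrafilter ℕ) : PartialOrder (LimQuot hτ U) :=
  CStarAlgebra.spectralOrder _

local instance boundOrdered {B : Type u} [CStarAlgebra B] {τ : ℕ → B →ₗ[ℂ] ℂ}
    (hτ : ∀ M, IsTrace B (τ M)) (U : Ultrafilter ℕ) : StarOrderedRing (LimQuot hτ U) :=
  CStarAlgebra.spectralOrderedRing _

theorem factorQ_zero {D : Type u} [CStarAlgebra D] (π : Signed → D) :
    factorQ π (fun _ => 0) = 1 := by simp [factorQ]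

theorem rcalc_sqrt_one {D : Type u} [CStarAlgebra D] : rcalc Real.sqrt (1 : D) = 1 := by
  rw [rcalc, ← map_one (algebraMap ℝ D), cfc_algebraMap (1 : ℝ) Real.sqrt, Real.sqrt_one]

/-- A product of real numbers below `1 - x` is below the exponential of the sum. -/
theorem prod_le_exp {n : ℕ} (a x : Fin n → ℝ) (h0 : ∀ k, 0 ≤ a k) (h : ∀ k, a k ≤ 1 - x k) :
    ∏ k, a k ≤ Real.exp (-∑ k, x k) := by
  rw [← Finset.sum_neg_distrib, Real.exp_sum]
  refine Finset.prod_le_prod (fun k _ => h0 k) fun k _ => (h k).trans ?_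
  linarith [Real.add_one_le_exp (-(x k))]

variable {B : Type u} [CStarAlgebra B] {G : Type v} [Group G] {S : Fam B G} {T : Finset G}
  {L r m : ℕ} {τ : ℕ → B →ₗ[ℂ] ℂ} {hτ : ∀ M, S.Good (τ M)} {U : Ultrafilter ℕ}
  {σ : LimQuot (fun M => (hτ M).trace) U →ₗ[ℂ] ℂ}

/-- The hypotheses under which the limit estimates hold. -/
structure Setting (S : Fam B G) (r : ℕ) (t : ℝ) : Prop where
  r_pos : 0 < r
  t_pos : 0 < t
  t_le : t ≤ 1
  sel : SelectStatement.{u, v}
  fac : FactorStatement.{u}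

namespace Parts

variable (P : Parts S T L r m) {t : ℝ} (hs : Setting S r t) (hσ : IsLim hτ U σ)
include hs hσ

theorem dist_bounds (l : Fin L) (g k : G) :
    0 ≤ P.dist hτ U σ t l g k ∧ P.dist hτ U σ t l g k ≤ 24 ∧
      (g = k → P.dist hτ U σ t l g k = 0) := by
  have _ := hs.r_pos
  have hex := (P.exact t).map (limMk (fun M => (hτ M).trace) U)
  refine ⟨?_, ?_, fun h => by simp [Parts.dist, h, hσ.trace.map_one]⟩
  · rw [Parts.dist, Complex.re_sum]
    exact Finset.sum_nonneg fun i _ => hσ.trace.re_nonneg _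
  · rw [Parts.dist, Complex.re_sum]
    refine (Finset.sum_le_card_nsmul _ _ 4 fun i _ => ?_).trans (le_of_eq (by norm_num))
    refine (Complex.re_le_norm _).trans ((hσ.trace.norm_map_le_norm _).trans ?_)
    rw [CStarRing.norm_star_mul_self]
    have hd := norm_sub_le ((P.lim hτ U t).x l g i) ((P.lim hτ U t).x l k i)
    have h1 : ‖(P.lim hτ U t).x l g i - (P.lim hτ U t).x l k i‖ ≤ 2 := by
      linarith [hex.x_norm l g i, hex.x_norm l k i]
    nlinarith [norm_nonneg ((P.lim hτ U t).x l g i - (P.lim hτ U t).x l k i)]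

/-- The translate `g` against another one or against nothing. -/
theorem q_facts (l : Fin L) (k : Fin r) (g : G) :
    0 ≤ (P.lim hτ U t).q l k g ∧ ‖(P.lim hτ U t).q l k g‖ ≤ 3 / 2 ∧
      rcalc Real.sqrt ((P.lim hτ U t).q l k g) * rcalc Real.sqrt ((P.lim hτ U t).q l k g) =
        (P.lim hτ U t).q l k g ∧
      σ ((P.lim hτ U t).q l k g) = 1 ∧
      (σ (rcalc Real.sqrt ((P.lim hτ U t).q l k g))).re ≤ 1 - 1 / 144 *
        (∑ j, σ ((P.lim hτ U t).φ l k g j * (P.lim hτ U t).φ l k g j)).re ∧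
      ∀ g', (σ (rcalc Real.sqrt ((P.lim hτ U t).q l k g) *
          rcalc Real.sqrt ((P.lim hτ U t).q l k g'))).re ≤
        1 - 1 / 144 * (∑ j, σ (((P.lim hτ U t).φ l k g j - (P.lim hτ U t).φ l k g' j) *
          ((P.lim hτ U t).φ l k g j - (P.lim hτ U t).φ l k g' j))).re := by
  obtain ⟨hlim, -⟩ := P.limit_rel hs.r_pos hs.t_pos hs.t_le hs.sel hσ
  have hex := (P.exact t).map (limMk (fun M => (hτ M).trace) U)
  obtain ⟨h1, h2, h3, h4, h5⟩ := P.factor_le hs.r_pos hs.t_pos hs.t_le hs.sel hσ hs.fac l k g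
    (fun _ => 0) fun j => ⟨star_zero _, by simp, zero_mem _, fun _ => Commute.zero_right _,
      fun _ => Commute.zero_right _, fun _ => Commute.zero_right _⟩
  refine ⟨h1, h2, h3, h4, ?_, fun g' => ?_⟩
  · simpa [factorQ_zero, rcalc_sqrt_one] using h5
  · obtain ⟨-, -, -, -, h6⟩ := P.factor_le hs.r_pos hs.t_pos hs.t_le hs.sel hσ hs.fac l k g
      ((P.lim hτ U t).φ l k g') fun j => ⟨(hex.φ_sa l k g' j).star_eq,
        (NonUnitalStarAlgHom.norm_apply_le _ _).trans ((BoundedContinuousFunction.norm_le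
          (by norm_num)).2 fun M => S.norm_phi_le t _ _ g' j),
        mem_img hτ U (P.atoms_φ_mem t l k g' j), fun s => hex.fac l k s g' j,
        fun j' => hlim.φ_comm l k g j' g' j, fun j' => hlim.φ_comm l k g' j g' j'⟩
    exact h6

theorem sqrt_q_commute (l l' : Fin L) (k k' : Fin r) (g g' : G) :
    Commute (rcalc Real.sqrt ((P.lim hτ U t).q l k g))
      (rcalc Real.sqrt ((P.lim hτ U t).q l' k' g')) := by
  obtain ⟨hlim, hπ, -⟩ := P.limit_rel hs.r_pos hs.t_pos hs.t_le hs.sel hσ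
  have hex := (P.exact t).map (limMk (fun M => (hτ M).trace) U)
  have hq : Commute ((P.lim hτ U t).q l k g) ((P.lim hτ U t).q l' k' g') := by
    rcases eq_or_ne (l, k) (l', k') with h | h
    · obtain ⟨rfl, rfl⟩ := Prod.ext_iff.1 h
      exact Atoms.commute_q (fun s => (Atoms.commute_q (fun s' => hπ l k s s')
          fun j => hex.fac l k s g j).symm)
        fun j => (Atoms.commute_q (fun s => (hex.fac l k s g' j).symm)
          fun j' => hlim.φ_comm l k g' j g j').symm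
    · exact hex.q_comm h g g'
  exact commute_rcalc _ (commute_rcalc _ hq.symm).symm

/-- The densities of a replica. -/
theorem R_facts (l : Fin L) (g : G) :
    0 ≤ (P.lim hτ U t).R l g ∧
      ‖(P.lim hτ U t).R l g * (P.lim hτ U t).R l g‖ ≤ (3 / 2 : ℝ) ^ r ∧
      σ ((P.lim hτ U t).R l g * (P.lim hτ U t).R l g) = 1 ∧
      (σ ((P.lim hτ U t).R l g)).re ≤ Real.exp (-(r * (t ^ 2 / 8 - 400 * t ^ 4)) / 144) ∧
      ∀ g', (σ ((P.lim hτ U t).R l g * (P.lim hτ U t).R l g')).re ≤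
        Real.exp (-(r * (t ^ 2 / 2 * P.dist hτ U σ t l g g' - 400 * t ^ 4)) / 144) := by
  have hq := fun (k : Fin r) (g : G) => P.q_facts hs hσ l k g
  have hc := P.sqrt_q_commute hs hσ l l
  have hnn : ∀ (k : Fin r) (g : G), 0 ≤ rcalc Real.sqrt ((P.lim hτ U t).q l k g) := fun k g =>
    cfc_nonneg fun _ _ => Real.sqrt_nonneg _
  have hmem : ∀ (k : Fin r) (g : G),
      rcalc Real.sqrt ((P.lim hτ U t).q l k g) ∈ img hτ U (facSet l k) := fun k g =>
    rcalc_mem_closed _ (P.q_mem_img l k g)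
  have hdisj : ∀ k k' : Fin r, k ≠ k' → Disjoint (facSet l k) (facSet l k') := fun k k' h =>
    Set.disjoint_left.2 fun s hs hs' => h (Fin.ext (hs.2.2.symm.trans hs'.2.2))
  have hmul : ∀ g', (P.lim hτ U t).R l g * (P.lim hτ U t).R l g' = (List.ofFn fun k =>
      rcalc Real.sqrt ((P.lim hτ U t).q l k g) *
        rcalc Real.sqrt ((P.lim hτ U t).q l k g')).prod := fun g' =>
    (prod_ofFn_mul _ _ fun k k' => hc k k' g g').symm
  have hsq : (P.lim hτ U t).R l g * (P.lim hτ U t).R l g =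
      (List.ofFn fun k => (P.lim hτ U t).q l k g).prod := by
    rw [hmul g]
    exact congrArg List.prod (congrArg List.ofFn (funext fun k => (hq k g).2.2.1))
  refine ⟨prod_nonneg_of_commute _ (fun k => hnn k g) fun k k' => hc k k' g g, ?_, ?_, ?_,
    fun g' => ?_⟩
  · rw [hsq]
    exact norm_prod_ofFn_le (by norm_num) _ fun k => (hq k g).2.1
  · rw [hsq, hσ.map_prod (fun k : Fin r => facSet l k) _ (fun k => P.q_mem_img l k g) hdisj]
    exact Finset.prod_eq_one fun k _ => (hq k g).2.2.2.1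
  · have e : σ ((P.lim hτ U t).R l g) =
        ((∏ k, (σ (rcalc Real.sqrt ((P.lim hτ U t).q l k g))).re : ℝ) : ℂ) := by
      rw [Atoms.R, hσ.map_prod (fun k : Fin r => facSet l k) _ (fun k => hmem k g) hdisj,
        Complex.ofReal_prod]
      exact Finset.prod_congr rfl fun k _ => (IsTraceMap.real_nonneg hσ.trace (hnn k g)).2
    rw [e, Complex.ofReal_re]
    refine (prod_le_exp _ _ (fun k => (IsTraceMap.real_nonneg hσ.trace (hnn k g)).1)
      fun k => (hq k g).2.2.2.2.1).trans (Real.exp_le_exp.2 ?_)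
    obtain ⟨-, -, -, -, -, -, -, -, -, h⟩ := P.limit_rel hs.r_pos hs.t_pos hs.t_le hs.sel hσ
    have h' := h l g
    rw [Complex.re_sum] at h'
    rw [← Finset.mul_sum]
    linarith
  · have h0 : ∀ k : Fin r, 0 ≤ rcalc Real.sqrt ((P.lim hτ U t).q l k g) *
        rcalc Real.sqrt ((P.lim hτ U t).q l k g') := fun k =>
      (hc k k g g').mul_nonneg (hnn k g) (hnn k g')
    have e : σ ((P.lim hτ U t).R l g * (P.lim hτ U t).R l g') =
        ((∏ k, (σ (rcalc Real.sqrt ((P.lim hτ U t).q l k g) *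
          rcalc Real.sqrt ((P.lim hτ U t).q l k g'))).re : ℝ) : ℂ) := by
      rw [hmul, hσ.map_prod (fun k : Fin r => facSet l k) _
        (fun k => mul_mem (hmem k g) (hmem k g')) hdisj, Complex.ofReal_prod]
      exact Finset.prod_congr rfl fun k _ => (IsTraceMap.real_nonneg hσ.trace (h0 k)).2
    rw [e, Complex.ofReal_re]
    refine (prod_le_exp _ _ (fun k => (IsTraceMap.real_nonneg hσ.trace (h0 k)).1)
      fun k => (hq k g).2.2.2.2.2 g').trans (Real.exp_le_exp.2 ?_)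
    obtain ⟨-, -, -, -, -, -, -, -, h, -⟩ := P.limit_rel hs.r_pos hs.t_pos hs.t_le hs.sel hσ
    have h' := h l g g'
    rw [Complex.re_sum] at h'
    rw [← Finset.mul_sum]
    linarith

variable [DecidableEq G] (hrep : ReplicaStatement.{u, v}) {K : ℕ} (hK : 0 < K) (hm : 0 < m)
  (hmr : (3 / 2 : ℝ) ^ r ≤ m) {κ η : ℝ} (hκ : 0 ≤ κ) (hη : 0 ≤ η)
  (hfar : Real.exp (-(r * (t ^ 2 / 2 * κ - 400 * t ^ 4)) / 144) ≤ η)
  (hself : Real.exp (-(r * (t ^ 2 / 8 - 400 * t ^ 4)) / 144) ≤ η)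
include hrep hK hm hmr hκ hη hfar hself

/-- The weights of a replica in the limit. -/
theorem replica_facts (l : Fin L) (F F' : Finset G) (hF : F.Nonempty) (hcard : F.card = F'.card) :
    (∀ g, 0 ≤ levelP K ((P.lim hτ U t).p l) ((P.lim hτ U t).R l) F g ∧
      levelP K ((P.lim hτ U t).p l) ((P.lim hτ U t).R l) F g ∈
        closedGen (Set.range ((P.lim hτ U t).p l) ∪ (P.lim hτ U t).R l '' ↑(F ∪ F'))) ∧
    (∑ g ∈ F, levelP K ((P.lim hτ U t).p l) ((P.lim hτ U t).R l) F g) ≤ 1 ∧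
    (σ (∑ g ∈ F, levelP K ((P.lim hτ U t).p l) ((P.lim hτ U t).R l) F g)).re ≤ 1 / m ∧
    (1 - Real.sqrt (K * F.card) * η) / m ≤
      (σ (∑ g ∈ F, levelP K ((P.lim hτ U t).p l) ((P.lim hτ U t).R l) F g)).re ∧
    (σ ((∑ g ∈ F, levelP K ((P.lim hτ U t).p l) ((P.lim hτ U t).R l) F g) -
      (∑ g ∈ F, levelP K ((P.lim hτ U t).p l) ((P.lim hτ U t).R l) F g) *
        ∑ g ∈ F, levelP K ((P.lim hτ U t).p l) ((P.lim hτ U t).R l) F g)).re ≤ 1 / (K * m) ∧
    (∑ g ∈ F, ∑ k ∈ F, P.dist hτ U σ t l g k *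
      (σ (levelP K ((P.lim hτ U t).p l) ((P.lim hτ U t).R l) F g *
        levelP K ((P.lim hτ U t).p l) ((P.lim hτ U t).R l) F k)).re) ≤
      (κ + 24 * F.card * η) / m ∧
    ∃ Mj : G → LimQuot (fun M => (hτ M).trace) U, (∀ g ∈ F ∪ F', 0 ≤ Mj g ∧
        Mj g ∈ closedGen (Set.range ((P.lim hτ U t).p l) ∪ (P.lim hτ U t).R l '' ↑(F ∪ F')) ∧
        levelP K ((P.lim hτ U t).p l) ((P.lim hτ U t).R l) F g -
            levelP K ((P.lim hτ U t).p l) ((P.lim hτ U t).R l) F' g ≤ Mj g ∧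
        levelP K ((P.lim hτ U t).p l) ((P.lim hτ U t).R l) F' g -
            levelP K ((P.lim hτ U t).p l) ((P.lim hτ U t).R l) F g ≤ Mj g) ∧
      (σ (∑ g ∈ F ∪ F', Mj g)).re ≤ 4 * ((F ∆ F').card : ℝ) / F.card / m := by
  obtain ⟨hlim, hπ, hpm, -⟩ := P.limit_rel hs.r_pos hs.t_pos hs.t_le hs.sel hσ
  have hex := (P.exact t).map (limMk (fun M => (hτ M).trace) U)
  refine hrep _ σ hσ.trace G K m hK hm ((P.lim hτ U t).p l) ((P.lim hτ U t).R l) F F'
    (P.dist hτ U σ t l) η η κ 24 hF hcard hη hκ (by norm_num) (fun a => ?_) (hlim.p_orth l)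
    (hex.p_sum l) (fun g _ => ⟨(P.R_facts hs hσ l g).1, (P.R_facts hs hσ l g).2.1.trans hmr,
      (P.R_facts hs hσ l g).2.2.1, (P.R_facts hs hσ l g).2.2.2.1.trans hself,
      fun k _ => hex.R_comm_all hlim hπ l l g k⟩)
    (fun a g _ => hex.p_R l a l g) (fun a c hc => ?_)
    fun g _ k _ => ⟨(P.dist_bounds hs hσ l g k).1, (P.dist_bounds hs hσ l g k).2.1, fun h =>
      ⟨fun e => absurd h (not_lt.2 (le_of_eq_of_le ((P.dist_bounds hs hσ l g k).2.2 e) hκ)), ?_⟩⟩
  · obtain ⟨w, hw⟩ := hex.p_pos l a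
    exact hw ▸ star_mul_self_nonneg w
  · have hp : (P.lim hτ U t).p l a ∈ img hτ U (bankSet (levelBank l)) :=
      mem_img hτ U (P.atoms_p_mem t l a)
    have hc' : c ∈ img hτ U (facAll l) := closedGen_le (isClosed_closedGen _) (by
      rintro _ ⟨g, -, rfl⟩
      exact P.R_mem_img l g) hc
    rw [hσ.map_mul (facAll_disjoint_levelBank l) hp hc', hpm l a]
    ring
  · refine ((P.R_facts hs hσ l g).2.2.2.2 k).trans (le_trans (Real.exp_le_exp.2 ?_) hfar)
    have hr : (0 : ℝ) ≤ r := Nat.cast_nonneg r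
    have ht2 : 0 ≤ t ^ 2 / 2 := by positivity
    nlinarith [mul_le_mul_of_nonneg_left h.le ht2]

end Parts

end Vale.Agent.P095.Full.Tracial
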