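import Vale.Agent.P095.Full.Tracial.Basic
import Vale.Agent.P095.Gamma.SlotData
import Vale.Agent.P095.Gamma.Product

/-!
# P095, all amenable groups: sites from commuting dimension-drop data

Translation stable commuting copies of `y, v, z, b`, generating the algebra, give sites in which
every extremal trace is good.
-/

noncomputable section

namespace Vale.Agent.P095.Full.Tracial

universe u v

open Vale.Agent.P101 Vale.Agent.P095.Gamma

/-- The labels of the elements of a site: six `z`, then `y`, `v` and `b`. -/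
abbrev Kind : Type := Fin 6 ⊕ Fin 3

/-- Commuting translation stable copies of dimension-drop data generating the algebra. -/
structure SiteData (B : Type u) [CStarAlgebra B] (G : Type v) [Group G] where
  /-- The action. -/
  act : G → B →⋆ₐ[ℂ] B
  act_one : ∀ x, act 1 x = x
  act_mul : ∀ g k x, act (g * k) x = act g (act k x)
  /-- The elements of a site. -/
  el : Site → Kind → B
  sq : ∀ s, el s (.inr 0) * el s (.inr 0) = 0
  sum : ∀ s, star (el s (.inr 1)) * el s (.inr 1) =
    1 - star (el s (.inr 0)) * el s (.inr 0) - el s (.inr 0) * star (el s (.inr 0))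
  keep : ∀ s, el s (.inr 0) * star (el s (.inr 0)) * el s (.inr 1) = el s (.inr 1)
  z_sq : ∀ s i, el s (.inl i) * el s (.inl i) = 0
  z_norm : ∀ s i, ‖el s (.inl i)‖ ≤ 1
  z_lower : ∀ s, ∑ i, star (el s (.inl i)) * el s (.inl i) =
    (1 / 4 : ℂ) • 1 + star (el s (.inr 2)) * el s (.inr 2)
  comm : ∀ s t, s ≠ t → ∀ g k p q, StarCommute (act g (el s p)) (act k (el t q))
  dense : (StarAlgebra.adjoin ℂ {x | ∃ g s p, act g (el s p) = x}).topologicalClosure = ⊤

namespace SiteData

variable {B : Type u} [CStarAlgebra B] {G : Type v} [Group G] (D : SiteData B G)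

/-- The algebra of all translates of all elements of the sites in `P`. -/
def hull (P : Set Site) : StarSubalgebra ℂ B :=
  (StarAlgebra.adjoin ℂ {x | ∃ g, ∃ s ∈ P, ∃ p, D.act g (D.el s p) = x}).topologicalClosure

theorem el_mem {P : Set Site} (g : G) {s : Site} (hs : s ∈ P) (p : Kind) :
    D.act g (D.el s p) ∈ D.hull P :=
  StarSubalgebra.le_topologicalClosure _ (StarAlgebra.subset_adjoin ℂ _ ⟨g, s, hs, p, rfl⟩)

theorem h_mem {P : Set Site} (g : G) {s : Site} (hs : s ∈ P) :
    D.act g (dropElem (D.el s (.inr 0))) ∈ D.hull P := by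
  rw [map_dropElem]
  exact sub_mem (mul_mem (star_mem (D.el_mem g hs _)) (D.el_mem g hs _))
    (mul_mem (D.el_mem g hs _) (star_mem (D.el_mem g hs _)))

theorem starCommute_hull {P Q : Set Site} (h : Disjoint P Q) {a b : B} (ha : a ∈ D.hull P)
    (hb : b ∈ D.hull Q) : StarCommute a b := by
  have h1 : D.hull P ≤ StarSubalgebra.centralizer ℂ
      {x | ∃ g, ∃ s ∈ Q, ∃ p, D.act g (D.el s p) = x} := by
    refine StarSubalgebra.topologicalClosure_minimal (StarAlgebra.adjoin_le ?_)
      (Vale.Agent.P101.isClosed_centralizer _)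
    rintro _ ⟨g, s, hs, p, rfl⟩
    refine mem_centralizer_of_starCommute ?_
    rintro _ ⟨k, t, ht, q, rfl⟩
    exact D.comm s t (h.ne_of_mem hs ht) g k p q
  have h2 : D.hull Q ≤ StarSubalgebra.centralizer ℂ {a} := by
    refine StarSubalgebra.topologicalClosure_minimal (StarAlgebra.adjoin_le fun y hy =>
      mem_centralizer_of_starCommute ?_) (Vale.Agent.P101.isClosed_centralizer _)
    rintro _ rfl
    exact (starCommute_of_mem_centralizer (h1 ha) hy).symm
  exact (starCommute_of_mem_centralizer (h2 hb) (Set.mem_singleton a)).symm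

/-- The sites of the elements `y* y - y y*` and `z`. -/
def toFam : Fam B G where
  act := D.act
  act_one := D.act_one
  act_mul := D.act_mul
  h s := dropElem (D.el s (.inr 0))
  z s i := D.el s (.inl i)
  h_sa s := star_dropElem _
  h_norm s := norm_dropElem_le (D.sq s) (D.sum s)
  z_sq := D.z_sq
  z_norm := D.z_norm
  z_lower s := ⟨_, D.z_lower s⟩
  comm s t hst g k := by
    have h : ∀ {a b : B}, a ∈ D.hull {s} → b ∈ D.hull {t} → StarCommute a b :=
      fun ha hb => D.starCommute_hull (Set.disjoint_singleton.2 hst) ha hb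
    have hs := Set.mem_singleton s
    have ht := Set.mem_singleton t
    have hh : D.act g (dropElem (D.el s (.inr 0))) ∈ D.hull {s} := D.h_mem g hs
    exact ⟨h hh (D.h_mem (P := {t}) k ht),
      fun i => h hh (D.el_mem (P := {t}) k ht (.inl i)),
      fun i j => D.comm s t hst g k (.inl i) (.inl j)⟩

theorem alg_le_hull (P : Set Site) : D.toFam.alg P ≤ D.hull P := by
  refine D.toFam.alg_le (StarSubalgebra.isClosed_topologicalClosure _) ?_
  rintro _ ⟨g, s, hs, rfl | ⟨i, rfl⟩⟩
  · exact D.h_mem g hs
  · exact D.el_mem g hs _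

/-- Every extremal trace is good. -/
theorem good_of_extremal {τ : B →ₗ[ℂ] ℂ} (hτ : IsExtremalTrace B τ) : D.toFam.Good τ where
  trace := hτ.toIsTrace
  mean g s := by
    show τ (D.act g (dropElem (D.el s (.inr 0)))) = 0
    rw [map_dropElem]
    exact hτ.toIsTrace.map_dropElem_eq_zero _
  var g s := by
    show (2 / 9 : ℝ) ≤ (τ (D.act g (dropElem (D.el s (.inr 0))) *
      D.act g (dropElem (D.el s (.inr 0))))).re
    rw [map_dropElem]
    refine hτ.toIsTrace.two_ninths_le (v := D.act g (D.el s (.inr 1))) ?_ ?_ ?_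
    · rw [← map_mul, D.sq, map_zero]
    · simp only [← map_star, ← map_mul, D.sum s, map_sub, map_one]
    · simp only [← map_star, ← map_mul, D.keep s]
  indep P d hd e he := by
    refine productStatement B τ hτ (D.hull P) (D.hull Pᶜ)
      (fun x hx z hz => (D.starCommute_hull disjoint_compl_right hx hz).1) ?_ d
      (D.alg_le_hull P hd) e (D.alg_le_hull Pᶜ he)
    refine eq_top_iff.2 (D.dense ▸ StarSubalgebra.topologicalClosure_mono
      (StarAlgebra.adjoin_le ?_))
    rintro _ ⟨g, s, p, rfl⟩
    by_cases hs : s ∈ P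
    · exact (le_sup_left : D.hull P ≤ _) (D.el_mem g hs p)
    · exact (le_sup_right : D.hull Pᶜ ≤ _) (D.el_mem g (Set.mem_compl hs) p)

end SiteData

end Vale.Agent.P095.Full.Tracial
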