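import Vale.Agent.P095.Full.Tracial.Defs
import Vale.Agent.P095.Full.Specs

/-!
# P095, all amenable groups: statements of the modules of the tracial half

See notes/P095_tracial_helper21.md.  Each statement is proved in the file named in its docstring.
-/

noncomputable section

namespace Vale.Agent.P095.Full.Tracial

universe u v

open Filter Topology BoundedContinuousFunction Vale.Agent.P101 Vale.Agent.P095.Gamma
open scoped symmDiff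

/-- `Fam.lean`: almost invariant partitions of unity inside a bank. -/
def FamPartitionStatement : Prop :=
  ∀ (B : Type u) [CStarAlgebra B] (G : Type v) [Group G] [DecidableEq G], IsFolnerGroup G →
    ∀ (S : Fam B G) (b : Bank) (k : ℕ), 0 < k → ∀ (ε : ℝ), 0 < ε → ∀ (T : Finset G),
      ∃ p : Fin k → B, (∀ a, p a ∈ S.alg (bankSet b)) ∧ (∀ a, IsPos (p a)) ∧ ∑ a, p a = 1 ∧
        (∀ a a', Commute (p a) (p a')) ∧ (∀ g ∈ T, ∀ a, ‖S.act g (p a) - p a‖ ≤ ε) ∧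
        ∀ τ : B →ₗ[ℂ] ℂ, S.Good τ →
          (∀ a, ‖τ (p a) - 1 / k‖ ≤ ε) ∧ ∀ a a', a ≠ a' → ‖τ (p a * p a')‖ ≤ ε

/-- `Rat.lean`: the bounded substitute for the identity. -/
def RatStatement : Prop :=
  ∀ (B : Type u) [CStarAlgebra B] (a : B), star a = a →
    ‖rcalc ratFn a‖ ≤ 1 / 2 ∧ star (rcalc ratFn a) = rcalc ratFn a ∧
      (∀ c : B, ‖c * rcalc ratFn a - rcalc ratFn a * c‖ ≤ ‖c * a - a * c‖) ∧
      ∀ τ : B →ₗ[ℂ] ℂ, IsTrace B τ →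
        l2 τ (rcalc ratFn a - a) ≤ l2 τ (a * a) / 2 ∧
          ∀ b : B, star b = b →
            l2 τ (rcalc ratFn a * rcalc ratFn b - rcalc ratFn b * rcalc ratFn a) ≤
              l2 τ (a * b - b * a)

/-- `Moments.lean`: sums over independent sites. -/
def MomentStatement : Prop :=
  ∀ (B : Type u) [CStarAlgebra B] (G : Type v) [Group G] (S : Fam B G) (τ : B →ₗ[ℂ] ℂ),
    S.Good τ → ∀ (M : ℕ), 0 < M → ∀ (site : Fin M → Site), Function.Injective site →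
      ∀ (C : ℝ) (a b : Fin M → B),
        (∀ n, a n ∈ S.alg {site n} ∧ ‖a n‖ ≤ C ∧ b n ∈ S.alg {site n} ∧ ‖b n‖ ≤ C) →
          l2 τ ((M : ℂ)⁻¹ • ∑ n, a n - ((M : ℂ)⁻¹ * ∑ n, τ (a n)) • (1 : B)) ≤
              2 * C / Real.sqrt M ∧
          l2 τ (((M : ℂ)⁻¹) • ((∑ n, a n) * (∑ n, b n) - (∑ n, b n) * (∑ n, a n))) ≤
              2 * C ^ 2 / Real.sqrt M ∧
          ((∀ n, τ (a n) = 0) →
            τ ((M : ℂ)⁻¹ • (star (∑ n, a n) * ∑ n, a n)) =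
                (M : ℂ)⁻¹ * ∑ n, τ (star (a n) * a n) ∧
              ((∀ n, star (a n) = a n) →
                l2 τ ((M : ℂ)⁻¹ • ((∑ n, a n) * ∑ n, a n)) ≤ 2 * C ^ 2))

/-- `Select.lean`: the selected families and the bounded sums of features over growing banks. -/
def SelectStatement : Prop :=
  ∀ (B : Type u) [CStarAlgebra B] (G : Type v) [Group G] (S : Fam B G) (τ : ℕ → B →ₗ[ℂ] ℂ),
    (∀ M, S.Good (τ M)) → ∀ (r : ℕ), 0 < r → ∀ (bp : Fin r → Bank) (bs : Bank),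
      Function.Injective bp → (∀ k, bp k ≠ bs) →
      ∀ (ω : ∀ M : ℕ, Fin r × Fin (M + 1) → B),
        (∀ M s, ω M s ∈ S.alg (bankSet bs)) → (∀ M s, IsPos (ω M s)) →
        (∀ M, ∑ s, ω M s = 1) → (∀ M s s', Commute (ω M s) (ω M s')) →
        (∀ M s, ‖τ M (ω M s) - 1 / ((r * (M + 1) : ℕ) : ℂ)‖ ≤
          (1 / ((r * (M + 1) : ℕ) : ℝ)) ^ 8) →
        (∀ M s s', s ≠ s' → ‖τ M (ω M s * ω M s')‖ ≤ (1 / ((r * (M + 1) : ℕ) : ℝ)) ^ 8) →
        ∀ (t : ℝ), 0 < t → t ≤ 1 →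
        ∀ (x : G → Fin 6 → ℕ → B), (∀ g i M, x g i M = S.sel bp (M + 1) (ω M) g i) →
        ∀ (φ : Fin r → G → Fin 6 × Bool → ℕ → B),
          (∀ k g j M, φ k g j M = S.phi t (bp k) (M + 1) g j) →
          (∀ g i M, ‖x g i M‖ ≤ 1 ∧ x g i M ∈ S.alg {s | s.1 = bs ∨ ∃ k, s.1 = bp k}) ∧
          (∀ k g j M, ‖φ k g j M‖ ≤ 1 / 2 ∧ star (φ k g j M) = φ k g j M ∧
            φ k g j M ∈ S.alg (bankSet (bp k))) ∧
          (∀ g i k h j,
            Tendsto (fun M => ‖x g i M * φ k h j M - φ k h j M * x g i M‖) atTop (𝓝 0)) ∧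
          (∀ k g j k' g' j', Tendsto (fun M => l2 (τ M)
            (φ k g j M * φ k' g' j' M - φ k' g' j' M * φ k g j M)) atTop (𝓝 0)) ∧
          (∀ g i, Tendsto (fun M => l2 (τ M) (x g i M * x g i M)) atTop (𝓝 0)) ∧
          (∀ g, ∃ w : ℕ → B, (∃ C, ∀ M, ‖w M‖ ≤ C) ∧ Tendsto (fun M => l2 (τ M)
            (∑ i, star (x g i M) * x g i M - ((1 / 4 : ℂ) • 1 + star (w M) * w M)))
              atTop (𝓝 0)) ∧
          (∀ c : ℕ → B, (∃ C, ∀ M, ‖c M‖ ≤ C) → (∀ M, c M ∈ S.alg (bankSet bs)ᶜ) →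
            ∀ g g' i, Tendsto (fun M =>
              τ M (c M * (star (x g i M - x g' i M) * (x g i M - x g' i M))) -
                τ M (c M) * τ M (star (x g i M - x g' i M) * (x g i M - x g' i M)))
              atTop (𝓝 0)) ∧
          (∀ g g', ∀ ε : ℝ, 0 < ε → ∀ᶠ M in atTop,
            r * (t ^ 2 / 2 *
                (∑ i, τ M (star (x g i M - x g' i M) * (x g i M - x g' i M))).re - 400 * t ^ 4) ≤
              (∑ k, ∑ j, τ M ((φ k g j M - φ k g' j M) * (φ k g j M - φ k g' j M))).re + ε) ∧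
          ∀ g M, r * (t ^ 2 / 8 - 400 * t ^ 4) ≤
            (∑ k, ∑ j, τ M (φ k g j M * φ k g j M)).re

/-- `Limit.lean`: the trace on the limit, its positivity and its independence. -/
def LimitStatement : Prop :=
  ∀ (B : Type u) [CStarAlgebra B] (G : Type v) [Group G] (S : Fam B G) (τ : ℕ → B →ₗ[ℂ] ℂ)
    (hτ : ∀ M, S.Good (τ M)) (U : Ultrafilter ℕ),
      ∃ σ : LimQuot (fun M => (hτ M).trace) U →ₗ[ℂ] ℂ, IsTrace _ σ ∧
        (∀ f : ℕ →ᵇ B, Tendsto (fun M => τ M (f M)) U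
          (𝓝 (σ (limMk (fun M => (hτ M).trace) U f)))) ∧
        (∀ f : ℕ →ᵇ B, (∀ M, IsPos (f M)) → IsPos (limMk (fun M => (hτ M).trace) U f)) ∧
        ∀ P Q : ℕ → Set Site, (∀ M, Disjoint (P M) (Q M)) →
          ∀ d ∈ closedGen (limMk (fun M => (hτ M).trace) U '' (S.seqAlg P : Set (ℕ →ᵇ B))),
            ∀ e ∈ closedGen (limMk (fun M => (hτ M).trace) U '' (S.seqAlg Q : Set (ℕ →ᵇ B))),
              σ (d * e) = σ d * σ e

/-- `Factor.lean`: affinity of the densities of a factor. -/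
def FactorStatement : Prop :=
  ∀ (D : Type u) [CStarAlgebra D] [PartialOrder D] [StarOrderedRing D] (σ : D →ₗ[ℂ] ℂ),
    IsTrace D σ → ∀ (π : (Fin 6 × Bool) × Bool → D) (φ φ' : Fin 6 × Bool → D),
      (∀ s, 0 ≤ π s) → (∀ s s', s ≠ s' → π s * π s' = 0) → ∑ s, π s = 1 →
      (∀ j, star (φ j) = φ j ∧ star (φ' j) = φ' j ∧ ‖φ j‖ ≤ 1 / 2 ∧ ‖φ' j‖ ≤ 1 / 2) →
      (∀ s j, Commute (π s) (φ j) ∧ Commute (π s) (φ' j)) →
      (∀ j j', Commute (φ j) (φ j') ∧ Commute (φ j) (φ' j') ∧ Commute (φ' j) (φ' j')) →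
      (∀ s, ∀ c ∈ closedGen (Set.range φ ∪ Set.range φ'), σ (π s * c) = σ c / 24) →
      0 ≤ factorQ π φ ∧ factorQ π φ ≤ (3 / 2 : ℝ) • 1 ∧
        rcalc Real.sqrt (factorQ π φ) * rcalc Real.sqrt (factorQ π φ) = factorQ π φ ∧
        σ (factorQ π φ) = 1 ∧
        (σ (rcalc Real.sqrt (factorQ π φ) * rcalc Real.sqrt (factorQ π φ'))).re ≤
          1 - 1 / 144 * (∑ j, σ ((φ j - φ' j) * (φ j - φ' j))).re

/-- `Replica.lean`: the weights of one replica. -/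
def ReplicaStatement : Prop :=
  ∀ (D : Type u) [CStarAlgebra D] [PartialOrder D] [StarOrderedRing D] (σ : D →ₗ[ℂ] ℂ),
    IsTrace D σ → ∀ (ι : Type v) [DecidableEq ι] (K m : ℕ), 0 < K → 0 < m →
    ∀ (p : Fin m → D) (R : ι → D) (F F' : Finset ι) (d : ι → ι → ℝ) (η₀ η κ Dd : ℝ),
      F.Nonempty → F.card = F'.card → 0 ≤ η → 0 ≤ κ → 0 ≤ Dd →
      (∀ a, 0 ≤ p a) → (∀ a a', a ≠ a' → p a * p a' = 0) → ∑ a, p a = 1 →
      (∀ g ∈ F ∪ F', 0 ≤ R g ∧ ‖R g * R g‖ ≤ m ∧ σ (R g * R g) = 1 ∧ (σ (R g)).re ≤ η₀ ∧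
        ∀ k ∈ F ∪ F', Commute (R g) (R k)) →
      (∀ a, ∀ g ∈ F ∪ F', Commute (p a) (R g)) →
      (∀ a, ∀ c ∈ closedGen (R '' ↑(F ∪ F')), σ (p a * c) = σ c / m) →
      (∀ g ∈ F ∪ F', ∀ k ∈ F ∪ F', 0 ≤ d g k ∧ d g k ≤ Dd ∧
        (κ < d g k → g ≠ k ∧ (σ (R g * R k)).re ≤ η)) →
      (∀ g, 0 ≤ levelP K p R F g ∧
        levelP K p R F g ∈ closedGen (Set.range p ∪ R '' ↑(F ∪ F'))) ∧
      (∑ g ∈ F, levelP K p R F g) ≤ 1 ∧
      (σ (∑ g ∈ F, levelP K p R F g)).re ≤ 1 / m ∧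
      (1 - Real.sqrt (K * F.card) * η₀) / m ≤ (σ (∑ g ∈ F, levelP K p R F g)).re ∧
      (σ ((∑ g ∈ F, levelP K p R F g) -
        (∑ g ∈ F, levelP K p R F g) * ∑ g ∈ F, levelP K p R F g)).re ≤ 1 / (K * m) ∧
      (∑ g ∈ F, ∑ k ∈ F, d g k * (σ (levelP K p R F g * levelP K p R F k)).re) ≤
        (κ + Dd * F.card * η) / m ∧
      ∃ Mj : ι → D, (∀ g ∈ F ∪ F', 0 ≤ Mj g ∧
          Mj g ∈ closedGen (Set.range p ∪ R '' ↑(F ∪ F')) ∧
          levelP K p R F g - levelP K p R F' g ≤ Mj g ∧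
          levelP K p R F' g - levelP K p R F g ≤ Mj g) ∧
        (σ (∑ g ∈ F ∪ F', Mj g)).re ≤ 4 * ((F ∆ F').card : ℝ) / F.card / m

/-- `Ladder.lean`: the ladder of replicas is invariant, almost square-zero and almost full. -/
def LadderStatement : Prop :=
  ∀ (D : Type u) [CStarAlgebra D] [PartialOrder D] [StarOrderedRing D] (σ : D →ₗ[ℂ] ℂ),
    IsTrace D σ → ∀ (ι : Type v) [DecidableEq ι] (L : ℕ) (U : Finset ι)
    (P P' Mj : Fin L → ι → D) (x : Fin L → ι → Fin 6 → D) (W : Set D) (a b c c' e : ℝ),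
      (∀ l, ∀ g ∈ U, P l g ∈ W ∧ P' l g ∈ W ∧ Mj l g ∈ W) →
      (∀ z ∈ W, ∀ z' ∈ W, Commute z z') →
      (∀ z ∈ W, ∀ l, ∀ g ∈ U, ∀ i, Commute z (x l g i)) →
      (∀ l, ∀ g ∈ U, 0 ≤ P l g ∧ 0 ≤ P' l g ∧ 0 ≤ Mj l g ∧ P l g - P' l g ≤ Mj l g ∧
        P' l g - P l g ≤ Mj l g) →
      (∀ l, ∑ g ∈ U, P l g ≤ 1 ∧ ∑ g ∈ U, P' l g ≤ 1) →
      (∀ l, ∀ g ∈ U, (∀ i, ‖x l g i‖ ≤ 1 ∧ x l g i * x l g i = 0) ∧
        algebraMap ℝ D (1 / 4) ≤ ∑ i, (star (x l g i) * x l g i + x l g i * star (x l g i))) →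
      0 ≤ a → 0 ≤ b → 0 ≤ c → 0 ≤ c' →
      (∀ l, (∑ i, ∑ g ∈ U, ∑ k ∈ U, σ ((P l g * P l k) *
        (star (x l g i - x l k i) * (x l g i - x l k i)))).re ≤ a) →
      (∀ l m, l < m → (σ (((∑ g ∈ U, P l g) - (∑ g ∈ U, P l g) * ∑ g ∈ U, P l g) *
        ∑ g ∈ U, P m g)).re ≤ b) →
      (∀ l, (σ (∑ g ∈ U, Mj l g)).re ≤ c) →
      (∀ l m, m < l → (σ ((∑ g ∈ U, P l g) * ∑ g ∈ U, Mj m g)).re ≤ c') →
      (σ (ladderRest fun l => ∑ g ∈ U, P l g)).re ≤ e →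
      (∀ i, ‖ladderY U P x i‖ ≤ 1 ∧
        (σ (star (ladderY U P x i - ladderY U P' x i) *
          (ladderY U P x i - ladderY U P' x i))).re ≤ 8 * (L * c + L ^ 2 * c') ∧
        (σ (star (ladderY U P x i * ladderY U P x i) *
          (ladderY U P x i * ladderY U P x i))).re ≤ 4 * (L * a + 48 * L ^ 2 * b)) ∧
      (σ (cfc (posCut 0) (algebraMap ℝ D (1 / 4) - ∑ i,
        (star (ladderY U P x i) * ladderY U P x i + ladderY U P x i * star (ladderY U P x i))))).re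
          ≤ 2 * e + 4 * (L * a + 48 * L ^ 2 * b)

/-- `Main.lean`: invariant, almost square-zero, almost full families among the sites. -/
def CoreStatement : Prop :=
  ∀ (B : Type u) [CStarAlgebra B] (G : Type v) [Group G] [DecidableEq G], IsFolnerGroup G →
    ∀ (S : Fam B G) (T : Finset G) (ε : ℝ), 0 < ε →
      ∃ Y : Fin 6 → B, (∀ i, ‖Y i‖ ≤ 1) ∧
        ∀ τ : B →ₗ[ℂ] ℂ, S.Good τ → ‖τ (errElem S.act T Y)‖ ≤ ε

/-- `Build.lean`: from sites to a separable algebra with central dimension drop. -/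
def BuildStatement : Prop :=
  CoreStatement.{u, v} → TracialStatement.{u, v}

end Vale.Agent.P095.Full.Tracial
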