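import Vale.Agent.P101.Drop.Final

/-!
# P095, all amenable groups: a square-zero family in the dimension drop algebra

Six multiples `z` of the square-zero elements with `1/4 ≤ ∑ z* z ≤ 1`, both bounds witnessed by
squares inside the algebra.
-/

noncomputable section

namespace Vale.Agent.P095.Full.Tracial

open Vale.Agent.P101

/-- The matrices at a point of `[0,1]`. -/
abbrev M6 : Type := Matrix (Fin 3 × Fin 2) (Fin 3 × Fin 2) ℂ

/-- A function of the weights, as a diagonal element of `Z_{2,3}`. -/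
def dropDiag (φ : ℝ → ℝ) (hφ : Continuous φ) : dropAlg23 :=
  ⟨{ toFun := fun t => Matrix.diagonal fun p => ((φ (dropWeight t p.1) : ℝ) : ℂ)
     continuous_toFun := by
       refine continuous_matrix fun p q => ?_
       by_cases h : p = q
       · subst h
         simp only [Matrix.diagonal_apply_eq]
         refine Complex.continuous_ofReal.comp (hφ.comp ?_)
         unfold dropWeight
         fun_prop
       · simp only [Matrix.diagonal_apply_ne _ h]
         exact continuous_const },
    ⟨(φ 1 : ℂ) • 1, by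
      ext ⟨a, k⟩ ⟨b, l⟩
      by_cases h1 : a = b <;> by_cases h2 : k = l <;>
        simp [h1, h2, dropWeight, Matrix.diagonal]⟩,
    ⟨Matrix.diagonal fun a => ((φ (dropWeight 1 a) : ℝ) : ℂ), by
      ext ⟨a, k⟩ ⟨b, l⟩
      by_cases h1 : a = b <;> by_cases h2 : k = l <;>
        simp [h1, h2, Matrix.diagonal]⟩⟩

theorem sum_dropGens_apply (t : ↥(Set.Icc (0 : ℝ) 1)) :
    ((∑ i, star (dropGens i) * dropGens i : dropAlg23) :
      C(↥(Set.Icc (0 : ℝ) 1), Matrix (Fin 3 × Fin 2) (Fin 3 × Fin 2) ℂ)) t =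
      Matrix.diagonal fun p => ((dropWeight t p.1 : ℝ) : ℂ) := by
  simp only [Fin.sum_univ_six, dropGens, Matrix.cons_val_zero, Matrix.cons_val_one, Matrix.cons_val]
  simp only [AddMemClass.coe_add, MulMemClass.coe_mul, StarMemClass.coe_star]
  simp only [ContinuousMap.coe_add, Pi.add_apply, star_lowFun_mul_apply,
    star_highFun_mul_apply, star_single_mul_single]
  ext ⟨a, k⟩ ⟨b, l⟩
  simp only [Matrix.add_apply, Matrix.smul_apply, Matrix.kronecker, Matrix.kroneckerMap_apply,
    Matrix.single_apply, Matrix.one_apply, Matrix.diagonal_apply, Prod.mk.injEq, smul_eq_mul]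
  fin_cases a <;> fin_cases b <;> fin_cases k <;> fin_cases l <;>
    simp [dropWeight] <;> ring

theorem sum_dropGens : ∑ i, star (dropGens i) * dropGens i = dropDiag id continuous_id :=
  Subtype.ext (ContinuousMap.ext sum_dropGens_apply)

theorem dropWeight_bounds (t : ↥(Set.Icc (0 : ℝ) 1)) (a : Fin 3) :
    1 / 2 ≤ dropWeight t a ∧ dropWeight t a ≤ 2 := by
  obtain ⟨t, h0, h1⟩ := t
  unfold dropWeight
  split <;> constructor <;> nlinarith [sq_nonneg (2 * t - 1), sq_nonneg t]

theorem dropDiag_congr {φ ψ : ℝ → ℝ} (hφ : Continuous φ) (hψ : Continuous ψ)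
    (h : ∀ w, 1 / 2 ≤ w → w ≤ 2 → φ w = ψ w) : dropDiag φ hφ = dropDiag ψ hψ := by
  refine Subtype.ext (ContinuousMap.ext fun t => ?_)
  show (Matrix.diagonal _ : M6) = (Matrix.diagonal _ : M6)
  simp only [h _ (dropWeight_bounds t _).1 (dropWeight_bounds t _).2]

theorem star_dropDiag_mul {φ : ℝ → ℝ} (hφ : Continuous φ) :
    star (dropDiag φ hφ) * dropDiag φ hφ = dropDiag (fun w => φ w * φ w) (hφ.mul hφ) := by
  refine Subtype.ext (ContinuousMap.ext fun t => ?_)
  show star (Matrix.diagonal _ : M6) * (Matrix.diagonal _ : M6) = (Matrix.diagonal _ : M6)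
  simp [Matrix.star_eq_conjTranspose, Matrix.diagonal_mul_diagonal]

theorem dropDiag_add {φ ψ : ℝ → ℝ} (hφ : Continuous φ) (hψ : Continuous ψ) :
    dropDiag φ hφ + dropDiag ψ hψ = dropDiag (fun w => φ w + ψ w) (hφ.add hψ) := by
  refine Subtype.ext (ContinuousMap.ext fun t => ?_)
  show (Matrix.diagonal _ : M6) + (Matrix.diagonal _ : M6) = (Matrix.diagonal _ : M6)
  simp [Matrix.diagonal_add]

theorem smul_dropDiag (r : ℝ) {φ : ℝ → ℝ} (hφ : Continuous φ) :
    (r : ℂ) • dropDiag φ hφ = dropDiag (fun w => r * φ w) (continuous_const.mul hφ) := by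
  refine Subtype.ext (ContinuousMap.ext fun t => ?_)
  show (r : ℂ) • (Matrix.diagonal _ : M6) = (Matrix.diagonal _ : M6)
  rw [← Matrix.diagonal_smul]
  congr 1
  ext p
  simp

theorem dropDiag_one : dropDiag (fun _ => 1) continuous_const = 1 := by
  refine Subtype.ext (ContinuousMap.ext fun t => ?_)
  show (Matrix.diagonal _ : M6) = (1 : M6)
  simp

/-- Square-zero elements `z` with `∑ z* z = 1/4 + b* b` and `∑ z* z + c* c = 1`. -/
theorem exists_dropWitness : ∃ (z : Fin 6 → dropAlg23) (b c : dropAlg23),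
    (∀ i, z i * z i = 0) ∧ ∑ i, star (z i) * z i = (1 / 4 : ℂ) • 1 + star b * b ∧
      (∑ i, star (z i) * z i) + star c * c = 1 := by
  set k : ℂ := (1 + Complex.I) / 2 with hk
  have hkk : star k * k = ((1 / 2 : ℝ) : ℂ) := by
    rw [hk]
    apply Complex.ext <;> simp <;> norm_num
  have hc1 : Continuous fun w : ℝ => Real.sqrt (w / 2 - 1 / 4) := by fun_prop
  have hc2 : Continuous fun w : ℝ => Real.sqrt (1 - w / 2) := by fun_prop
  have hs : ∑ i, star (k • dropGens i) * (k • dropGens i) =
      dropDiag (fun w => 1 / 2 * w) (continuous_const.mul continuous_id) := by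
    simp only [star_smul, smul_mul_smul_comm, hkk, ← Finset.smul_sum, sum_dropGens, smul_dropDiag,
      id_eq]
  refine ⟨fun i => k • dropGens i, dropDiag _ hc1, dropDiag _ hc2, fun i => ?_, ?_, ?_⟩
  · rw [smul_mul_smul_comm, dropGens_sq, smul_zero]
  · rw [hs, star_dropDiag_mul, show (1 / 4 : ℂ) = ((1 / 4 : ℝ) : ℂ) by push_cast; rfl, ← dropDiag_one,
      smul_dropDiag, dropDiag_add]
    refine dropDiag_congr _ _ fun w h1 _ => ?_
    rw [Real.mul_self_sqrt (by linarith)]
    ring
  · rw [hs, star_dropDiag_mul, dropDiag_add, ← dropDiag_one]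
    refine dropDiag_congr _ _ fun w _ h2 => ?_
    rw [Real.mul_self_sqrt (by linarith)]
    ring

end Vale.Agent.P095.Full.Tracial
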