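import Vale.Agent.P101.Drop.Bridge
import Vale.Agent.P101.Drop.Data
import Vale.Agent.P095.Gamma.Outer
import Vale.Agent.P095.Full.Tracial.Specs
import Vale.Agent.P095.Full.Tracial.SiteData
import Vale.Agent.P095.Full.Tracial.Witness

/-!
# P095, all amenable groups: from sites to the tracial half

Reindexed copies of central dimension-drop data, with all their translates, generate an algebra of
sequences in which the copies are sites.  The bound on `errElem` passes from extremal traces to all
traces of this algebra, hence to all traces of late levels.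
-/

noncomputable section

namespace Vale.Agent.P095.Full.Tracial

universe u v

open Filter Topology BoundedContinuousFunction Vale.Agent.P101 Vale.Agent.P095.Gamma

section Err

variable {B C : Type u} [CStarAlgebra B] [CStarAlgebra C] {G : Type v}

theorem hom_algebraMap_real (φ : B →⋆ₐ[ℂ] C) (r : ℝ) :
    φ (algebraMap ℝ B r) = algebraMap ℝ C r := by
  rw [IsScalarTower.algebraMap_apply ℝ ℂ B, IsScalarTower.algebraMap_apply ℝ ℂ C]
  exact φ.toAlgHom.commutes _

/-- Equivariant homomorphisms map errors to errors. -/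
theorem map_errElem_of_comm (φ : B →⋆ₐ[ℂ] C) (act : G → B →⋆ₐ[ℂ] B) (act' : G → C →⋆ₐ[ℂ] C)
    (h : ∀ g x, φ (act g x) = act' g (φ x)) (T : Finset G) (Y : Fin 6 → B) :
    φ (errElem act T Y) = errElem act' T (fun i => φ (Y i)) := by
  have hsa : IsSelfAdjoint (algebraMap ℝ B (1 / 4) -
      ∑ i, (star (Y i) * Y i + Y i * star (Y i))) :=
    (IsSelfAdjoint.all (1 / 4 : ℝ)).algebraMap B |>.sub
      (isSelfAdjoint_sum _ fun i _ =>
        (IsSelfAdjoint.star_mul_self _).add (IsSelfAdjoint.mul_star_self _))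
  simp only [errElem, map_add, map_sum, map_mul, map_star, map_sub, h]
  congr 1
  show φ (rcfc (posCut 0) _) = rcfc (posCut 0) _
  rw [map_rcfc φ (posCut 0) (by unfold posCut; fun_prop) hsa]
  simp only [map_sub, map_sum, map_add, map_mul, map_star, hom_algebraMap_real]

/-- A small error bounds each of its three parts in every trace. -/
theorem errElem_bound (act : G → B →⋆ₐ[ℂ] B) (T : Finset G) (Y : Fin 6 → B) {τ : B →ₗ[ℂ] ℂ}
    (hτ : IsTrace B τ) {r : ℝ} (h : ‖τ (errElem act T Y)‖ ≤ r) :
    (∀ i, ∀ g ∈ T, l2 τ (act g (Y i) - Y i) ^ 2 ≤ r) ∧ (∀ i, l2 τ (Y i * Y i) ^ 2 ≤ r) ∧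
      (τ (cfc (posCut 0) (algebraMap ℝ B (1 / 4) -
        ∑ i, (star (Y i) * Y i + Y i * star (Y i))))).re ≤ r := by
  set a : G → Fin 6 → ℝ := fun g i => l2 τ (act g (Y i) - Y i) ^ 2 with ha
  set b : Fin 6 → ℝ := fun i => l2 τ (Y i * Y i) ^ 2 with hb
  set c := (τ (cfc (posCut 0) (algebraMap ℝ B (1 / 4) -
    ∑ i, (star (Y i) * Y i + Y i * star (Y i))))).re with hc
  have h0 : (∑ g ∈ T, ∑ i, a g i) + (∑ i, b i) + c ≤ r := by
    refine le_trans (le_of_eq ?_) (((Complex.re_le_norm _)).trans h)
    simp only [ha, hb, hc, errElem, map_add, map_sum, Complex.add_re, Complex.re_sum, hτ.l2_sq]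
  have ha0 : ∀ g i, 0 ≤ a g i := fun g i => sq_nonneg _
  have hb0 : ∀ i, 0 ≤ b i := fun i => sq_nonneg _
  have hA : 0 ≤ ∑ g ∈ T, ∑ i, a g i := Finset.sum_nonneg fun g _ => Finset.sum_nonneg fun i _ => ha0 g i
  have hB : 0 ≤ ∑ i, b i := Finset.sum_nonneg fun i _ => hb0 i
  have hC : 0 ≤ c := by
    obtain ⟨w, hw⟩ := exists_cfc_eq_star_mul_self (posCut 0) (by unfold posCut; fun_prop)
      (fun x => le_max_right _ _) (algebraMap ℝ B (1 / 4) -
        ∑ i, (star (Y i) * Y i + Y i * star (Y i)))
    rw [hc, show cfc (posCut 0) _ = star w * w from hw]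
    exact hτ.re_nonneg w
  refine ⟨fun i g hg => ?_, fun i => ?_, ?_⟩
  · have h1 := Finset.single_le_sum (fun i _ => ha0 g i) (Finset.mem_univ i)
    have h2 := Finset.single_le_sum (f := fun g => ∑ i, a g i)
      (fun g _ => Finset.sum_nonneg fun i _ => ha0 g i) hg
    show a g i ≤ r
    linarith
  · have h1 := Finset.single_le_sum (fun i _ => hb0 i) (Finset.mem_univ i)
    show b i ≤ r
    linarith
  · linarith

end Err

section Build

variable {A : Type u} [CStarAlgebra A]

/-- The closed algebra of a set of classes of sequences. -/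
def siteAlg (gens : Set (SeqQuot A (atTop : Filter ℕ))) :
    StarSubalgebra ℂ (SeqQuot A (atTop : Filter ℕ)) :=
  (StarAlgebra.adjoin ℂ gens).topologicalClosure

instance siteAlg.isClosed (gens : Set (SeqQuot A (atTop : Filter ℕ))) :
    IsClosed (siteAlg gens : Set (SeqQuot A (atTop : Filter ℕ))) :=
  StarSubalgebra.isClosed_topologicalClosure _

instance siteAlg.instCStarAlgebra (gens : Set (SeqQuot A (atTop : Filter ℕ))) :
    CStarAlgebra (siteAlg gens) := StarSubalgebra.cstarAlgebra _

theorem subset_siteAlg (gens : Set (SeqQuot A (atTop : Filter ℕ))) : gens ⊆ siteAlg gens :=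
  fun _ hx => StarSubalgebra.le_topologicalClosure _ (StarAlgebra.subset_adjoin ℂ _ hx)

theorem adjoin_siteAlg_eq_top (gens : Set (SeqQuot A (atTop : Filter ℕ)))
    (s : Set (siteAlg gens))
    (hs : ∀ x : siteAlg gens, (x : SeqQuot A atTop) ∈ gens → x ∈ s) :
    (StarAlgebra.adjoin ℂ s).topologicalClosure = ⊤ := by
  refine eq_top_iff.2 fun x _ => ?_
  show x ∈ closure ((StarAlgebra.adjoin ℂ s : StarSubalgebra ℂ (siteAlg gens)) : Set (siteAlg gens))
  rw [closure_subtype]
  refine closure_mono ?_ x.2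
  have h : StarAlgebra.adjoin ℂ gens ≤
      (StarAlgebra.adjoin ℂ s).map (siteAlg gens).subtype :=
    StarAlgebra.adjoin_le fun z hz =>
      ⟨⟨z, subset_siteAlg gens hz⟩, StarAlgebra.subset_adjoin ℂ _ (hs _ hz), rfl⟩
  exact h

/-- Central dimension drop gives the six central square-zero contractions and their lower witness. -/
theorem exists_central_data (hdd : HasCentralDimensionDrop A) :
    ∃ K : Kind → ℕ →ᵇ A, (∀ p, seqMk A atTop (K p) ∈ centSub A atTop) ∧
      (∀ i n, ‖K (.inl i) n‖ ≤ 1) ∧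
      seqMk A atTop (K (.inr 0) * K (.inr 0)) = 0 ∧
      seqMk A atTop (star (K (.inr 1)) * K (.inr 1) -
        (1 - star (K (.inr 0)) * K (.inr 0) - K (.inr 0) * star (K (.inr 0)))) = 0 ∧
      seqMk A atTop (K (.inr 0) * star (K (.inr 0)) * K (.inr 1) - K (.inr 1)) = 0 ∧
      (∀ i, seqMk A atTop (K (.inl i) * K (.inl i)) = 0) ∧
      seqMk A atTop ((∑ i, star (K (.inl i)) * K (.inl i)) -
        ((1 / 4 : ℂ) • 1 + star (K (.inr 2)) * K (.inr 2))) = 0 := by
  obtain ⟨y₀, v₀, hy₀, hv₀, h1, h2, h3⟩ := hdd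
  obtain ⟨Y, rfl, hY⟩ := exists_rep_of_isCentralSeq hy₀
  obtain ⟨V, rfl, hV⟩ := exists_rep_of_isCentralSeq hv₀
  let _ := centOrder (A := A) (F := (atTop : Filter ℕ))
  have : StarOrderedRing (centSub A (atTop : Filter ℕ)) := CStarAlgebra.spectralOrderedRing _
  obtain ⟨T, X, N, M, d⟩ := exists_dropData (B := centSub A (atTop : Filter ℕ)) ⟨_, hY⟩ ⟨_, hV⟩
    (Subtype.ext (by
      push_cast
      rw [← map_mul]
      exact seqMk_eq_zero.2 h1))
    (Subtype.ext (by
      push_cast
      simp only [← map_star, ← map_mul, ← map_one (seqMk A atTop), ← map_sub]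
      exact seqMk_eq_iff.2 h2))
    (Subtype.ext (by
      push_cast
      exact seqMk_eq_iff.2 h3))
  obtain ⟨ψ⟩ := d.exists_hom
  let Φ := ψ.comp (StarSubalgebra.inclusion dropAlg23_le)
  obtain ⟨z, b, c, hsq, hlow, hup⟩ := exists_dropWitness
  have hn : ∀ i, ‖Φ (z i)‖ ≤ 1 := by
    intro i
    have e := congrArg Φ hup
    simp only [map_add, map_sum, map_mul, map_star, map_one] at e
    have hle : star (Φ (z i)) * Φ (z i) ≤ 1 := by
      rw [← e]
      exact le_add_of_le_of_nonneg
        (Finset.single_le_sum (f := fun i => star (Φ (z i)) * Φ (z i))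
          (fun j _ => star_mul_self_nonneg (Φ (z j))) (Finset.mem_univ i))
        (star_mul_self_nonneg _)
    have h := (CStarAlgebra.norm_le_one_iff_of_nonneg _ (star_mul_self_nonneg (Φ (z i)))).2 hle
    rw [CStarRing.norm_star_mul_self] at h
    nlinarith [norm_nonneg (Φ (z i))]
  choose Z hZ hZn using fun i =>
    exists_contraction_rep (x := (Φ (z i) : SeqQuot A (atTop : Filter ℕ))) (hn i)
  obtain ⟨W, hW⟩ := seqMk_surjective (Φ b : SeqQuot A (atTop : Filter ℕ))
  refine ⟨Sum.elim Z ![Y, V, W], ?_, hZn, ?_, ?_, ?_, fun i => ?_, ?_⟩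
  · rintro (i | j)
    · show seqMk A atTop (Z i) ∈ centSub A atTop
      rw [hZ i]
      exact (Φ (z i)).2
    · fin_cases j
      · exact hY
      · exact hV
      · show seqMk A atTop W ∈ centSub A atTop
        rw [hW]
        exact (Φ b).2
  · exact seqMk_eq_zero.2 h1
  · exact seqMk_eq_zero.2 h2
  · exact seqMk_eq_zero.2 h3
  · show seqMk A atTop (Z i * Z i) = 0
    rw [map_mul, hZ]
    have e := congrArg (fun x => (Φ x : SeqQuot A (atTop : Filter ℕ))) (hsq i)
    simpa using e
  · show seqMk A atTop ((∑ i, star (Z i) * Z i) - ((1 / 4 : ℂ) • 1 + star W * W)) = 0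
    rw [map_sub, sub_eq_zero]
    simp only [map_sum, map_mul, map_star, map_add, map_smul, map_one, hZ, hW]
    have e := congrArg (fun x => (Φ x : SeqQuot A (atTop : Filter ℕ))) hlow
    simpa [map_sum, map_add, map_mul, map_star] using e

theorem buildStatement : BuildStatement.{u, v} := by
  intro hcore
  refine ⟨1 / 4, by norm_num, by norm_num, ?_⟩
  intro A _ _ _ hdd G _ _ _ hG α T X ε hε
  classical
  obtain ⟨K, hKc, hKn, hr1, hr2, hr3, hr4, hr5⟩ := exists_central_data hdd
  let F : G × Kind → ℕ →ᵇ A := fun p => seqComp (α p.1).toStarAlgHom (K p.2)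
  have hF : ∀ i, seqMk A atTop (F i) ∈ centSub A atTop := by
    rintro ⟨g, p⟩
    rw [mem_centSub]
    intro a
    refine squeeze_zero (fun n => norm_nonneg _) (fun n => ?_)
      (mem_centSub.1 (hKc p) ((α g).symm a))
    show ‖a * α g (K p n) - α g (K p n) * a‖ ≤ _
    have h := NonUnitalStarAlgHom.norm_apply_le (α g).toStarAlgHom
      ((α g).symm a * K p n - K p n * (α g).symm a)
    simpa using h
  let R : Fin 6 ⊕ Fin 4 → ℕ →ᵇ A := Sum.elim (fun i => K (.inl i) * K (.inl i))
    ![K (.inr 0) * K (.inr 0),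
      star (K (.inr 1)) * K (.inr 1) -
        (1 - star (K (.inr 0)) * K (.inr 0) - K (.inr 0) * star (K (.inr 0))),
      K (.inr 0) * star (K (.inr 0)) * K (.inr 1) - K (.inr 1),
      (∑ i, star (K (.inl i)) * K (.inl i)) - ((1 / 4 : ℂ) • 1 + star (K (.inr 2)) * K (.inr 2))]
  have hR : ∀ i, seqMk A atTop (R i) = 0 := by
    rintro (i | j)
    · exact hr4 i
    · fin_cases j <;> assumption
  obtain ⟨k, hkF, hkR, hkC⟩ := exists_reindex_seq F hF R hR
  let β : G → SeqQuot A (atTop : Filter ℕ) →⋆ₐ[ℂ] SeqQuot A atTop :=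
    fun g => seqAct atTop (α g).toStarAlgHom
  have hβ1 : ∀ x, β 1 x = x := fun x => by
    obtain ⟨f, rfl⟩ := seqMk_surjective x
    show seqMk A atTop (seqComp (α 1).toStarAlgHom f) = _
    congr 1
    ext n
    simp
  have hβmul : ∀ g h x, β (g * h) x = β g (β h x) := fun g h x => by
    obtain ⟨f, rfl⟩ := seqMk_surjective x
    show seqMk A atTop (seqComp (α (g * h)).toStarAlgHom f) =
      seqMk A atTop (seqComp (α g).toStarAlgHom (seqComp (α h).toStarAlgHom f))
    congr 1
    ext n
    simp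
  let e₀ : Site → Kind → SeqQuot A (atTop : Filter ℕ) :=
    fun s p => reMk (k (Encodable.encode s)) (K p)
  have he₀ : ∀ g s p, β g (e₀ s p) = reMk (k (Encodable.encode s)) (F (g, p)) := fun g s p => rfl
  let gens : Set (SeqQuot A (atTop : Filter ℕ)) := {x | ∃ g s p, β g (e₀ s p) = x}
  have hβpres : ∀ g, ∀ x : siteAlg gens, β g x ∈ siteAlg gens := by
    rintro g ⟨x, hx⟩
    have hle : StarAlgebra.adjoin ℂ gens ≤ (siteAlg gens).comap (β g) := by
      refine StarAlgebra.adjoin_le ?_
      rintro _ ⟨h, s, p, rfl⟩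
      show β g _ ∈ siteAlg gens
      rw [← hβmul]
      exact subset_siteAlg gens ⟨g * h, s, p, rfl⟩
    exact (siteAlg.isClosed gens).closure_subset
      (map_mem_closure (continuous_starAlgHom (β g)) hx hle)
  let act : G → siteAlg gens →⋆ₐ[ℂ] siteAlg gens := fun g =>
    StarAlgHom.codRestrict ((β g).comp (siteAlg gens).subtype) (siteAlg gens) (hβpres g)
  let e : Site → Kind → siteAlg gens := fun s p =>
    ⟨e₀ s p, subset_siteAlg gens ⟨1, s, p, hβ1 _⟩⟩
  let D : SiteData (siteAlg gens) G :=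
    { act := act
      act_one := fun x => Subtype.ext (hβ1 _)
      act_mul := fun g h x => Subtype.ext (hβmul g h _)
      el := e
      sq := fun s => Subtype.ext (by
        show reMk _ (K (.inr 0)) * reMk _ (K (.inr 0)) = 0
        rw [← map_mul]
        exact hkR _ (.inr 0))
      sum := fun s => Subtype.ext (by
        show star (reMk _ (K (.inr 1))) * reMk _ (K (.inr 1)) =
          1 - star (reMk _ (K (.inr 0))) * reMk _ (K (.inr 0)) -
            reMk _ (K (.inr 0)) * star (reMk _ (K (.inr 0)))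
        rw [← sub_eq_zero]
        simp only [← map_one (reMk (A := A) (k (Encodable.encode s))), ← map_star, ← map_mul,
          ← map_sub]
        exact hkR _ (.inr 1))
      keep := fun s => Subtype.ext (by
        show reMk _ (K (.inr 0)) * star (reMk _ (K (.inr 0))) * reMk _ (K (.inr 1)) =
          reMk _ (K (.inr 1))
        rw [← sub_eq_zero]
        simp only [← map_star, ← map_mul, ← map_sub]
        exact hkR _ (.inr 2))
      z_sq := fun s i => Subtype.ext (by
        show reMk _ (K (.inl i)) * reMk _ (K (.inl i)) = 0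
        rw [← map_mul]
        exact hkR _ (.inl i))
      z_norm := fun s i => norm_reMk_le _ _ zero_le_one (hKn i)
      z_lower := fun s => by
        have h := hkR (Encodable.encode s) (.inr 3)
        simp only [R, Sum.elim_inr, Matrix.cons_val, map_sub, map_sum, map_add, map_mul, map_star,
          map_smul, map_one, sub_eq_zero] at h
        refine Subtype.ext ?_
        push_cast
        exact h
      comm := fun s t hst g h p q => by
        have c := hkC _ _ (fun e => hst (Encodable.encode_injective e)) (g, p) (h, q)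
        exact ⟨Subtype.ext c.1, Subtype.ext c.2⟩
      dense := adjoin_siteAlg_eq_top gens _ (by
        rintro x ⟨g, s, p, hx⟩
        exact ⟨g, s, p, Subtype.ext hx⟩) }
  have hcent : siteAlg gens ≤ centSub A atTop := by
    refine StarSubalgebra.topologicalClosure_minimal (StarAlgebra.adjoin_le ?_)
      (centSub.isClosed (A := A))
    rintro _ ⟨g, s, p, rfl⟩
    rw [he₀]
    exact hkF _ _
  set r := min ε (ε ^ 2) with hr
  have hr0 : 0 < r := lt_min hε (by positivity)
  obtain ⟨Y, hYn, hYerr⟩ := hcore (siteAlg gens) G hG D.toFam T (r / 2) (half_pos hr0)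
  choose W hW hWn using fun i =>
    exists_contraction_rep (x := ((Y i : siteAlg gens) : SeqQuot A (atTop : Filter ℕ))) (hYn i)
  let αh : G → A →⋆ₐ[ℂ] A := fun g => (α g).toStarAlgHom
  let E : ℕ →ᵇ A := errElem (fun g => seqComp (αh g)) T W
  have hEn : ∀ n, E n = errElem αh T (fun i => W i n) := fun n =>
    map_errElem_of_comm (evalAt n) (fun g => seqComp (αh g)) αh (fun g x => rfl) T W
  have hEmk : seqMk A atTop E = ((errElem act T Y : siteAlg gens) : SeqQuot A atTop) := by
    rw [map_errElem_of_comm (seqMk A atTop) (fun g => seqComp (αh g)) β (fun g x => rfl) T W,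
      show ((errElem act T Y : siteAlg gens) : SeqQuot A atTop) =
        (siteAlg gens).subtype (errElem act T Y) from rfl,
      map_errElem_of_comm (siteAlg gens).subtype act β (fun g x => rfl) T Y,
      funext hW]
    rfl
  have hev : ∀ᶠ n in atTop, ∀ τ : A →ₗ[ℂ] ℂ, IsTrace A τ → ‖τ (E n)‖ ≤ r := by
    refine eventually_trace_le E (half_lt_self hr0) fun σ hσ => ?_
    rw [hEmk]
    exact extremalStatement (siteAlg gens) (errElem act T Y) (r / 2)
      (fun ρ hρ => hYerr ρ (D.good_of_extremal hρ))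
      (σ.comp (siteAlg gens).subtype.toAlgHom.toLinearMap)
      ⟨fun b => hσ.nonneg (b : SeqQuot A atTop), hσ.map_one,
        fun b c => hσ.comm (b : SeqQuot A atTop) c⟩
  have hWc : ∀ i, seqMk A atTop (W i) ∈ centSub A atTop := fun i => hW i ▸ hcent (Y i).2
  have hevX : ∀ i, ∀ x ∈ X, ∀ᶠ n in atTop,
      ‖x * W i n - W i n * x‖ ≤ ε ∧ ‖x * star (W i n) - star (W i n) * x‖ ≤ ε := fun i x _ =>
    (((mem_centSub.1 (hWc i)) x).eventually (gt_mem_nhds hε) |>.mono fun n hn => hn.le).and
      (((mem_centSub.1 (show seqMk A atTop (star (W i)) ∈ centSub A atTop by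
        rw [map_star]; exact star_mem (hWc i))) x).eventually (gt_mem_nhds hε) |>.mono
          fun n hn => hn.le)
  obtain ⟨n, hn, hnX⟩ := (hev.and (eventually_all.2 fun i => X.eventually_all.2 (hevX i))).exists
  refine ⟨fun i => W i n, fun i => hWn i n, hnX, fun τ hτ => ?_⟩
  have hb := hn τ hτ
  rw [hEn] at hb
  obtain ⟨b1, b2, b3⟩ := errElem_bound αh T (fun i => W i n) hτ hb
  have key : ∀ a : A, l2 τ a ^ 2 ≤ r → l2 τ a ≤ ε := fun a ha =>
    (pow_le_pow_iff_left₀ (hτ.l2_nonneg a) hε.le two_ne_zero).1 (ha.trans (min_le_right _ _))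
  exact ⟨fun i g hg => key _ (b1 i g hg), fun i => key _ (b2 i), b3.trans (min_le_left _ _)⟩

theorem tracialStatement_of (hcore : CoreStatement.{u, v}) : TracialStatement.{u, v} :=
  buildStatement hcore

end Build

end Vale.Agent.P095.Full.Tracial
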