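import Vale.Agent.P095.Full.Tracial.Ladders

/-!
# P095, all amenable groups: invariant, almost square-zero, almost full families among the sites

The choice of the parameters, and the passage from the bound in every limit of good traces to a
bound at some finite level, uniformly in good traces.
-/

noncomputable section

namespace Vale.Agent.P095.Full.Tracial

universe u v

open Filter Topology BoundedContinuousFunction Vale.Agent.P101 Vale.Agent.P095.Gamma
open scoped symmDiff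

theorem exp_neg_le_inv {x : ℝ} (hx : 0 < x) : Real.exp (-x) ≤ 1 / x := by
  rw [Real.exp_neg, one_div]
  exact inv_anti₀ hx (by linarith [Real.add_one_le_exp x])

/-- The parameters, in the order `C; K, κ, s; F; η; r; m`. -/
theorem exists_params {G : Type v} [Group G] [DecidableEq G] (hG : IsFolnerGroup G) (T : Finset G)
    {ε : ℝ} (hε : 0 < ε) :
    ∃ (L r m K : ℕ) (F : Finset G) (t κ η s : ℝ), 0 < K ∧ 0 < m ∧ 0 < r ∧ 0 < t ∧ t ≤ 1 ∧
      (3 / 2 : ℝ) ^ r ≤ m ∧ 0 ≤ κ ∧ 0 ≤ η ∧ 0 ≤ s ∧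
      Real.exp (-(r * (t ^ 2 / 2 * κ - 400 * t ^ 4)) / 144) ≤ η ∧
      Real.exp (-(r * (t ^ 2 / 8 - 400 * t ^ 4)) / 144) ≤ η ∧ F.Nonempty ∧
      (∀ g ∈ T, ((F.image (g * ·) ∆ F).card : ℝ) ≤ s * F.card) ∧
      Real.sqrt (K * F.card) * η ≤ 1 / 2 ∧
      T.card * (6 * (8 * (L * (4 * s / m) + L ^ 2 * (1 / m * (4 * s / m))))) +
        6 * (4 * (L * ((κ + 24 * F.card * η) / m) + 48 * L ^ 2 * (1 / (K * m) * (1 / m)))) +
        (2 * Real.exp (-(L / (2 * m : ℝ))) +
          4 * (L * ((κ + 24 * F.card * η) / m) + 48 * L ^ 2 * (1 / (K * m) * (1 / m)))) ≤ ε := by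
  set e := ε / 8 with he
  have he0 : 0 < e := by positivity
  obtain ⟨C, hC⟩ := exists_nat_ge (4 / e + 1)
  have hC1 : (1 : ℝ) ≤ C := le_trans (le_add_of_nonneg_left (by positivity)) hC
  obtain ⟨K, hK⟩ := exists_nat_ge (1344 * (C : ℝ) ^ 2 / e + 1)
  have hK1 : (1 : ℝ) ≤ K := le_trans (le_add_of_nonneg_left (by positivity)) hK
  set κ := min (1 / 4) (e / (28 * (C : ℝ))) with hκ
  have hκ0 : 0 < κ := lt_min (by norm_num) (by positivity)
  set s := e / (192 * ((T.card : ℝ) + 1) * ((C : ℝ) + (C : ℝ) ^ 2)) with hs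
  have hs0 : 0 < s := by positivity
  obtain ⟨F, hF, hFs⟩ := hG T s hs0
  have hFc : (0 : ℝ) < F.card := Nat.cast_pos.2 hF.card_pos
  set η := min (e / (672 * (C : ℝ) * F.card)) (1 / (2 * Real.sqrt (K * F.card))) with hη
  have hη0 : 0 < η := lt_min (by positivity) (by positivity)
  obtain ⟨r, hr⟩ := exists_nat_ge (1440000 / (κ ^ 2 * η) + 1)
  have hr1 : (1 : ℝ) ≤ r := le_trans (le_add_of_nonneg_left (by positivity)) hr
  obtain ⟨m, hm⟩ := exists_nat_ge ((3 / 2 : ℝ) ^ r)
  have hm0 : (0 : ℝ) < m := lt_of_lt_of_le (by positivity) hm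
  set t := Real.sqrt (κ / 4000) with ht
  have ht2 : t ^ 2 = κ / 4000 := Real.sq_sqrt (by positivity)
  have hκ4 : κ ≤ 1 / 4 := min_le_left _ _
  have hexp : Real.exp (-(r * (κ ^ 2 / 10000)) / 144) ≤ η := by
    rw [show -(r * (κ ^ 2 / 10000)) / 144 = -((r : ℝ) * (κ ^ 2 / 1440000)) by ring]
    refine (exp_neg_le_inv (by positivity)).trans ?_
    rw [div_le_iff₀ (by positivity)]
    have h2 : 1440000 / (κ ^ 2 * η) ≤ (r : ℝ) := le_trans (le_add_of_nonneg_right zero_le_one) hr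
    rw [div_le_iff₀ (by positivity)] at h2
    nlinarith
  refine ⟨C * m, r, m, K, F, t, κ, η, s, Nat.cast_pos.1 (lt_of_lt_of_le one_pos hK1),
    Nat.cast_pos.1 hm0, Nat.cast_pos.1 (lt_of_lt_of_le one_pos hr1), Real.sqrt_pos.2 (by positivity),
    Real.sqrt_le_one.2 (by linarith), hm, hκ0.le, hη0.le, hs0.le, le_trans (Real.exp_le_exp.2 ?_)
    hexp, le_trans (Real.exp_le_exp.2 ?_) hexp, hF, hFs, ?_, ?_⟩
  · rw [show t ^ 4 = (t ^ 2) ^ 2 by ring, ht2]
    refine div_le_div_of_nonneg_right ?_ (by norm_num)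
    rw [neg_le_neg_iff]
    exact mul_le_mul_of_nonneg_left (le_of_eq (by ring)) (Nat.cast_nonneg r)
  · rw [show t ^ 4 = (t ^ 2) ^ 2 by ring, ht2]
    refine div_le_div_of_nonneg_right ?_ (by norm_num)
    rw [neg_le_neg_iff]
    exact mul_le_mul_of_nonneg_left (by nlinarith) (Nat.cast_nonneg r)
  · have hsq : 0 < Real.sqrt (K * F.card) := Real.sqrt_pos.2 (by positivity)
    calc Real.sqrt (K * F.card) * η
        ≤ Real.sqrt (K * F.card) * (1 / (2 * Real.sqrt (K * F.card))) :=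
          mul_le_mul_of_nonneg_left (min_le_right _ _) hsq.le
      _ = 1 / 2 := by field_simp
  · have e1 : (T.card : ℝ) * (6 * (8 * ((C : ℝ) * (4 * s) + (C : ℝ) ^ 2 * (4 * s)))) ≤ e := by
      have h1 : s * (192 * ((T.card : ℝ) + 1) * ((C : ℝ) + (C : ℝ) ^ 2)) = e := by
        rw [hs]; exact div_mul_cancel₀ e (by positivity)
      have h2 : 0 ≤ s * ((C : ℝ) + (C : ℝ) ^ 2) := by positivity
      linarith
    have e2 : 28 * ((C : ℝ) * κ) ≤ e := by
      have h1 : κ ≤ e / (28 * (C : ℝ)) := min_le_right _ _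
      rw [le_div_iff₀ (by positivity)] at h1
      linarith
    have e3 : 672 * ((C : ℝ) * F.card * η) ≤ e := by
      have h1 : η ≤ e / (672 * (C : ℝ) * F.card) := min_le_left _ _
      rw [le_div_iff₀ (by positivity)] at h1
      linarith
    have e4 : 1344 * ((C : ℝ) ^ 2 * (1 / K)) ≤ e := by
      have h1 : 1344 * (C : ℝ) ^ 2 / e ≤ K := le_trans (le_add_of_nonneg_right zero_le_one) hK
      rw [div_le_iff₀ he0] at h1
      rw [mul_one_div, ← mul_div_assoc, div_le_iff₀ (by positivity)]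
      linarith
    have e5 : 2 * Real.exp (-((C : ℝ) / 2)) ≤ e := by
      have h2 : 4 / e ≤ (C : ℝ) := le_trans (le_add_of_nonneg_right zero_le_one) hC
      rw [div_le_iff₀ he0] at h2
      have h3 := exp_neg_le_inv (x := (C : ℝ) / 2) (by positivity)
      have h4 : 1 / ((C : ℝ) / 2) ≤ e / 2 := by
        rw [div_le_iff₀ (by positivity)]
        nlinarith
      linarith
    have hK0 : (K : ℝ) ≠ 0 := by positivity
    push_cast
    rw [show (C : ℝ) * m * (4 * s / m) = C * (4 * s) by field_simp,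
      show ((C : ℝ) * m) ^ 2 * (1 / m * (4 * s / m)) = C ^ 2 * (4 * s) by field_simp,
      show (C : ℝ) * m * ((κ + 24 * F.card * η) / m) = C * κ + 24 * (C * F.card * η) by
        field_simp,
      show 48 * ((C : ℝ) * m) ^ 2 * (1 / (K * m) * (1 / m)) = 48 * (C ^ 2 * (1 / K)) by
        field_simp,
      show (C : ℝ) * m / (2 * m) = C / 2 by field_simp]
    linarith

theorem coreStatement_of (hpart : FamPartitionStatement.{u, v}) (hsel : SelectStatement.{u, v})
    (hlim : LimitStatement.{u, v}) (hfac : FactorStatement.{u})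
    (hrep : ReplicaStatement.{u, v}) (hlad : LadderStatement.{u, v}) : CoreStatement.{u, v} := by
  intro B _ G _ _ hG S T ε hε
  obtain ⟨L, r, m, K, F, t, κ, η, s, hK, hm, hr, ht, ht1, hmr, hκ, hη, hs, hfar, hself, hF, hFs,
    hhalf, hbound⟩ := exists_params hG T (half_pos hε)
  obtain ⟨P⟩ := exists_parts S hpart hG T L hr hm
  let Y : ℕ → Fin 6 → B := fun M i => (P.atoms t).value K F i M
  have hnorm : ∀ M i, ‖Y M i‖ ≤ 1 := fun M i => by
    let _ : PartialOrder (ℕ →ᵇ B) := CStarAlgebra.spectralOrder _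
    let _ : StarOrderedRing (ℕ →ᵇ B) := CStarAlgebra.spectralOrderedRing _
    exact (((P.atoms t).value K F i).norm_coe_le_norm M).trans ((P.exact t).norm_value_le hK F i)
  by_contra hne
  have hbad : ∀ M, ∃ τ : B →ₗ[ℂ] ℂ, S.Good τ ∧ ε < ‖τ (errElem S.act T (Y M))‖ := fun M => by
    by_contra h
    push Not at h
    exact hne ⟨Y M, hnorm M, h⟩
  choose τ hτ hbig using hbad
  have hU : ((Filter.hyperfilter ℕ : Ultrafilter ℕ) : Filter ℕ) ≤ atTop :=
    Nat.cofinite_eq_atTop ▸ Filter.hyperfilter_le_cofinite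
  obtain ⟨σ, hσ1, hσ2, -, hσ4⟩ := hlim B G S τ hτ (Filter.hyperfilter ℕ)
  have hσ : IsLim hτ (Filter.hyperfilter ℕ) σ := ⟨hσ1, hU, hσ2, hσ4⟩
  have hle := P.error_le (t := t) ⟨hr, ht, ht1, hsel, hfac⟩ hσ hrep hlad hK hm hmr hκ hη hs hfar
    hself F hF hFs hhalf
  have hev : ∀ M, errElem (fun g => seqComp (S.act g)) T (fun i => (P.atoms t).value K F i) M =
      errElem S.act T (Y M) := fun M => map_errElem (evalAt M) _ T _
  have hge : ε ≤ ‖σ (limMk (fun M => (hτ M).trace) (Filter.hyperfilter ℕ)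
      (errElem (fun g => seqComp (S.act g)) T fun i => (P.atoms t).value K F i))‖ :=
    ge_of_tendsto (hσ2 _).norm (Eventually.of_forall fun M => by rw [hev M]; exact (hbig M).le)
  linarith [hle.trans hbound]

end Vale.Agent.P095.Full.Tracial
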