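import Vale.Agent.P095.Full.Tracial.Specs
import Vale.Agent.P095.Full.Tracial.Basic

/-!
# P095, all amenable groups: affinity of the densities of one factor

`q = 1 + ∑ⱼ (π_{j+} - π_{j-}) φⱼ` lies in `[1/2, 3/2]`, has trace one, and
`(√q - √q')² (√q + √q')² = (q - q')²` with `(√q + √q')² ≤ 6` gives the affinity bound.
-/

noncomputable section

namespace Vale.Agent.P095.Full.Tracial

universe u

open Vale.Agent.P095.Gamma

variable {D : Type u} [CStarAlgebra D]

theorem signed_commute {π : (Fin 6 × Bool) × Bool → D} {x : D} (h : ∀ s, Commute (π s) x)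
    (j : Fin 6 × Bool) : Commute (π (j, true) - π (j, false)) x :=
  (h _).sub_left (h _)

/-- Signed pieces of orthogonal projections separate the features. -/
theorem signed_sum_sq {π : (Fin 6 × Bool) × Bool → D} {ψ : Fin 6 × Bool → D}
    (ho : ∀ s s', s ≠ s' → π s * π s' = 0) (hp : ∀ s, π s * π s = π s)
    (hc : ∀ s j, Commute (π s) (ψ j)) :
    (∑ j, (π (j, true) - π (j, false)) * ψ j) * (∑ j, (π (j, true) - π (j, false)) * ψ j) =
      ∑ j, (π (j, true) + π (j, false)) * (ψ j * ψ j) := by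
  rw [Finset.sum_mul_sum]
  refine Finset.sum_congr rfl fun j _ => ?_
  rw [Finset.sum_eq_single j]
  · rw [(signed_commute (fun s => hc s j) j).symm.mul_mul_mul_comm]
    congr 1
    simp [sub_mul, mul_sub, hp, ho (j, true) (j, false), ho (j, false) (j, true)]
  · intro k _ hk
    rw [(signed_commute (fun s => hc s j) k).symm.mul_mul_mul_comm]
    have hne : ∀ x y : Bool, ((j, x) : (Fin 6 × Bool) × Bool) ≠ (k, y) := fun x y h =>
      hk (congrArg Prod.fst h).symm
    simp [sub_mul, mul_sub, ho _ _ (hne _ _)]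
  · exact fun h => absurd (Finset.mem_univ j) h

theorem sum_signed_pieces (π : (Fin 6 × Bool) × Bool → D) :
    ∑ j, (π (j, true) + π (j, false)) = ∑ s, π s := by
  simp only [Fintype.sum_prod_type π, Fintype.sum_bool]

theorem commute_factorQ {π : (Fin 6 × Bool) × Bool → D} {φ φ' : Fin 6 × Bool → D}
    (hππ : ∀ s t, Commute (π s) (π t)) (hc : ∀ s j, Commute (π s) (φ j) ∧ Commute (π s) (φ' j))
    (hcc : ∀ j k, Commute (φ j) (φ' k)) : Commute (factorQ π φ) (factorQ π φ') := by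
  unfold factorQ
  refine (Commute.one_left _).add_left (Commute.sum_left _ _ _ fun j _ => ?_)
  refine (Commute.one_right _).add_right (Commute.sum_right _ _ _ fun k _ => ?_)
  refine Commute.mul_left (Commute.mul_right ?_ (signed_commute (fun s => (hc s k).2) j))
    (Commute.mul_right (signed_commute (fun s => (hc s j).1) k).symm (hcc j k))
  exact signed_commute (fun s => (hππ s _).sub_right (hππ s _)) j

theorem map_factorQ {σ : D →ₗ[ℂ] ℂ} (hσ : IsTrace D σ) {π : (Fin 6 × Bool) × Bool → D}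
    {S : StarSubalgebra ℂ D} (hσπ : ∀ s, ∀ c ∈ S, σ (π s * c) = σ c / 24)
    {χ : Fin 6 × Bool → D} (hχ : ∀ j, χ j ∈ S) : σ (factorQ π χ) = 1 := by
  rw [factorQ, map_add, hσ.map_one, map_sum,
    Finset.sum_eq_zero fun j _ => by rw [sub_mul, map_sub, hσπ _ _ (hχ j), hσπ _ _ (hχ j), sub_self],
    add_zero]

variable [PartialOrder D] [StarOrderedRing D]

theorem re_map_mono {σ : D →ₗ[ℂ] ℂ} (hσ : IsTrace D σ) {a b : D} (h : a ≤ b) :
    (σ a).re ≤ (σ b).re := by
  obtain ⟨d, hd⟩ := CStarAlgebra.nonneg_iff_eq_star_mul_self.1 (sub_nonneg.2 h)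
  have h0 := hσ.re_nonneg d
  rw [← hd, map_sub, Complex.sub_re] at h0
  linarith

theorem rcalc_sqrt_mul_self {x : D} (hx : 0 ≤ x) :
    rcalc Real.sqrt x * rcalc Real.sqrt x = x := by
  have hsa : IsSelfAdjoint x := hx.isSelfAdjoint
  unfold rcalc
  rw [← cfc_mul Real.sqrt Real.sqrt x Real.continuous_sqrt.continuousOn
    Real.continuous_sqrt.continuousOn]
  conv_rhs => rw [← cfc_id' ℝ x hsa]
  exact cfc_congr fun t ht => Real.mul_self_sqrt (spectrum_nonneg_of_nonneg hx ht)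

theorem feature_bounds {x : D} (hx : star x = x) (hn : ‖x‖ ≤ 1 / 2) :
    -((1 / 2 : ℝ) • (1 : D)) ≤ x ∧ x ≤ (1 / 2 : ℝ) • (1 : D) := by
  have hsa : IsSelfAdjoint x := hx
  have h : algebraMap ℝ D ‖x‖ ≤ (1 / 2 : ℝ) • (1 : D) := by
    rw [Algebra.algebraMap_eq_smul_one]
    exact smul_le_smul_of_nonneg_right hn zero_le_one
  exact ⟨(neg_le_neg h).trans hsa.neg_algebraMap_norm_le_self,
    hsa.le_algebraMap_norm_self.trans h⟩

theorem piece_bounds {p x : D} (hp : p * p = p) (hsa : star p = p) (hc : Commute p x)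
    (hb : -((1 / 2 : ℝ) • (1 : D)) ≤ x ∧ x ≤ (1 / 2 : ℝ) • (1 : D)) :
    -((1 / 2 : ℝ) • p) ≤ p * x ∧ p * x ≤ (1 / 2 : ℝ) • p := by
  have e : star p * x * p = p * x := by rw [hsa, mul_assoc, ← hc.eq, ← mul_assoc, hp]
  have e1 : star p * ((1 / 2 : ℝ) • (1 : D)) * p = (1 / 2 : ℝ) • p := by
    rw [hsa, mul_smul_comm, mul_one, smul_mul_assoc, hp]
  have l := star_left_conjugate_le_conjugate hb.1 p
  have r := star_left_conjugate_le_conjugate hb.2 p
  rw [mul_neg, neg_mul, e, e1] at l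
  rw [e, e1] at r
  exact ⟨l, r⟩

theorem factorQ_bounds {π : (Fin 6 × Bool) × Bool → D} {χ : Fin 6 × Bool → D}
    (hp : ∀ s, π s * π s = π s) (hsa : ∀ s, star (π s) = π s) (h1 : ∑ s, π s = 1)
    (hχ : ∀ j, star (χ j) = χ j ∧ ‖χ j‖ ≤ 1 / 2) (hc : ∀ s j, Commute (π s) (χ j)) :
    0 ≤ factorQ π χ ∧ factorQ π χ ≤ (3 / 2 : ℝ) • 1 := by
  have hs : ∀ s j, -((1 / 2 : ℝ) • π s) ≤ π s * χ j ∧ π s * χ j ≤ (1 / 2 : ℝ) • π s :=
    fun s j => piece_bounds (hp s) (hsa s) (hc s j) (feature_bounds (hχ j).1 (hχ j).2)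
  have hterm : ∀ j, -((1 / 2 : ℝ) • (π (j, true) + π (j, false))) ≤
        (π (j, true) - π (j, false)) * χ j ∧
      (π (j, true) - π (j, false)) * χ j ≤ (1 / 2 : ℝ) • (π (j, true) + π (j, false)) := by
    intro j
    rw [sub_mul, smul_add, neg_add, sub_eq_add_neg]
    refine ⟨add_le_add (hs (j, true) j).1 (neg_le_neg (hs (j, false) j).2), ?_⟩
    have := add_le_add (hs (j, true) j).2 (neg_le_neg (hs (j, false) j).1)
    rwa [neg_neg] at this
  have l := Finset.sum_le_sum fun j (_ : j ∈ Finset.univ) => (hterm j).1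
  have r := Finset.sum_le_sum fun j (_ : j ∈ Finset.univ) => (hterm j).2
  rw [Finset.sum_neg_distrib, ← Finset.smul_sum, sum_signed_pieces, h1] at l
  rw [← Finset.smul_sum, sum_signed_pieces, h1] at r
  unfold factorQ
  constructor
  · refine le_trans ?_ (add_le_add le_rfl l)
    rw [show (1 : D) + -((1 / 2 : ℝ) • 1) = (1 / 2 : ℝ) • 1 by
      rw [← sub_eq_add_neg, sub_eq_iff_eq_add, ← add_smul]; norm_num]
    exact smul_nonneg (by norm_num) zero_le_one
  · refine (add_le_add le_rfl r).trans (le_of_eq ?_)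
    rw [show (3 / 2 : ℝ) = 1 + 1 / 2 by norm_num, add_smul, one_smul]

/-- `σ((q - q')²) ≤ 6 σ((√q - √q')²)` for commuting `0 ≤ q, q' ≤ 3/2`. -/
theorem sqrt_separation {σ : D →ₗ[ℂ] ℂ} (hσ : IsTrace D σ) {q q' : D} (hc : Commute q q')
    (hq : 0 ≤ q ∧ q ≤ (3 / 2 : ℝ) • 1) (hq' : 0 ≤ q' ∧ q' ≤ (3 / 2 : ℝ) • 1) :
    (σ ((q - q') * (q - q'))).re ≤
      6 * ((σ q).re + (σ q').re - 2 * (σ (rcalc Real.sqrt q * rcalc Real.sqrt q')).re) := by
  set A := rcalc Real.sqrt q with hA
  set A' := rcalc Real.sqrt q' with hA'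
  have hAA : Commute A A' := ((hc.cfc_real Real.sqrt).symm.cfc_real Real.sqrt).symm
  have hAsa : star A = A := (cfc_predicate Real.sqrt q : IsSelfAdjoint _)
  have hA'sa : star A' = A' := (cfc_predicate Real.sqrt q' : IsSelfAdjoint _)
  have eA : A * A = q := rcalc_sqrt_mul_self hq.1
  have eA' : A' * A' = q' := rcalc_sqrt_mul_self hq'.1
  have hdiff : q - q' = (A - A') * (A + A') := by
    rw [sub_mul, mul_add, mul_add, eA, eA', hAA.eq]; abel
  have hsum : (A + A') * (A + A') ≤ (6 : ℝ) • (1 : D) := by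
    have hd := star_mul_self_nonneg (A - A')
    rw [star_sub, hAsa, hA'sa] at hd
    calc (A + A') * (A + A') ≤ (A + A') * (A + A') + (A - A') * (A - A') :=
          le_add_of_nonneg_right hd
      _ = (2 : ℝ) • q + (2 : ℝ) • q' := by
          rw [two_smul, two_smul, ← eA, ← eA']
          simp only [add_mul, mul_add, sub_mul, mul_sub, hAA.eq]
          abel
      _ ≤ (2 : ℝ) • ((3 / 2 : ℝ) • (1 : D)) + (2 : ℝ) • ((3 / 2 : ℝ) • (1 : D)) :=
          add_le_add (smul_le_smul_of_nonneg_left hq.2 (by norm_num))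
            (smul_le_smul_of_nonneg_left hq'.2 (by norm_num))
      _ = (6 : ℝ) • (1 : D) := by rw [smul_smul, ← add_smul]; norm_num
  have hu : Commute (A - A') (A + A') :=
    ((Commute.refl A).add_right hAA).sub_left (hAA.symm.add_right (Commute.refl A'))
  have h := re_map_mono hσ (star_left_conjugate_le_conjugate hsum (A - A'))
  rw [star_sub, hAsa, hA'sa, mul_smul_comm, mul_one, smul_mul_assoc, ← Complex.coe_smul, map_smul,
    smul_eq_mul, Complex.re_ofReal_mul] at h
  have e : (q - q') * (q - q') = (A - A') * ((A + A') * (A + A')) * (A - A') := by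
    rw [hdiff, hu.symm.mul_mul_mul_comm, mul_assoc (A - A') ((A + A') * (A + A')),
      ← (hu.mul_right hu).eq, ← mul_assoc (A - A') (A - A')]
  have hexp : (σ ((A - A') * (A - A'))).re = (σ q).re + (σ q').re - 2 * (σ (A * A')).re := by
    rw [sub_mul, mul_sub, mul_sub, eA, eA', map_sub, map_sub, map_sub, hσ.comm A' A]
    simp only [Complex.sub_re]
    ring
  rw [e, ← hexp]
  exact h

/-- **Affinity of a factor.** -/
theorem factorStatement : FactorStatement.{u} := by
  intro D _ _ _ σ hσ π φ φ' h0 ho h1 hφ hc hcc hσπ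
  have hp : ∀ s, π s * π s = π s := by
    intro s
    calc π s * π s = ∑ t, π s * π t :=
          (Finset.sum_eq_single s (fun t _ ht => ho s t ht.symm) (by simp)).symm
      _ = π s := by rw [← Finset.mul_sum, h1, mul_one]
  have hsa : ∀ s, star (π s) = π s := fun s => (h0 s).isSelfAdjoint.star_eq
  have hQ := factorQ_bounds hp hsa h1 (fun j => ⟨(hφ j).1, (hφ j).2.2.1⟩) fun s j => (hc s j).1
  have hQ' := factorQ_bounds hp hsa h1 (fun j => ⟨(hφ j).2.1, (hφ j).2.2.2⟩) fun s j => (hc s j).2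
  have hm : ∀ j, φ j ∈ closedGen (Set.range φ ∪ Set.range φ') ∧
      φ' j ∈ closedGen (Set.range φ ∪ Set.range φ') := fun j =>
    ⟨StarSubalgebra.le_topologicalClosure _ (StarAlgebra.subset_adjoin ℂ _ (Or.inl ⟨j, rfl⟩)),
      StarSubalgebra.le_topologicalClosure _ (StarAlgebra.subset_adjoin ℂ _ (Or.inr ⟨j, rfl⟩))⟩
  have e1 := map_factorQ hσ hσπ fun j => (hm j).1
  have e1' := map_factorQ hσ hσπ fun j => (hm j).2
  have hππ : ∀ s t, Commute (π s) (π t) := by
    intro s t
    rcases eq_or_ne s t with rfl | h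
    · exact Commute.refl _
    · exact (ho s t h).trans (ho t s h.symm).symm
  refine ⟨hQ.1, hQ.2, rcalc_sqrt_mul_self hQ.1, e1, ?_⟩
  have h := sqrt_separation hσ (commute_factorQ hππ hc fun j k => (hcc j k).2.1) hQ hQ'
  have e : factorQ π φ - factorQ π φ' = ∑ j, (π (j, true) - π (j, false)) * (φ j - φ' j) := by
    simp only [factorQ, mul_sub, Finset.sum_sub_distrib]
    abel
  have hexp : ∀ j, σ ((π (j, true) + π (j, false)) * ((φ j - φ' j) * (φ j - φ' j))) =
      (1 / 12 : ℂ) * σ ((φ j - φ' j) * (φ j - φ' j)) := by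
    intro j
    have hd := sub_mem (hm j).1 (hm j).2
    rw [add_mul, map_add, hσπ _ _ (mul_mem hd hd), hσπ _ _ (mul_mem hd hd)]
    ring
  rw [e, signed_sum_sq ho hp (fun s j => (hc s j).1.sub_right (hc s j).2), map_sum,
    Finset.sum_congr rfl fun j _ => hexp j, ← Finset.mul_sum, e1, e1'] at h
  norm_num [Complex.mul_re] at h
  rw [Complex.re_sum]
  linarith

end Vale.Agent.P095.Full.Tracial
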