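import Vale.Agent.P095.Full.Tracial.Specs
import Vale.Agent.P095.Full.Tracial.Basic
import Vale.Agent.P095.Gamma.Eta
import Vale.Agent.P095.Gamma.Pool
import Vale.Agent.P095.Gamma.Phase
import Vale.Agent.P095.Gamma.Variance

/-!
# P095, all amenable groups: almost invariant partitions of unity inside a bank

The distinguished elements of a bank form a slot system over the scalars; its partition is the
Gamma partition.
-/

noncomputable section

namespace Vale.Agent.P095.Full.Tracial

universe u v

open Vale.Agent.P101 Vale.Agent.P095.Gamma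

variable {B : Type u} [CStarAlgebra B] {G : Type v} [Group G]

namespace Fam

variable (S : Fam B G) (b : Bank)

/-- The distinguished elements of a bank as a slot system over the scalars. -/
def bankSystem : SlotSystem B G where
  act := S.act
  act_one := S.act_one
  act_mul := S.act_mul
  base := ⊥
  act_base g a ha := by
    obtain ⟨c, rfl⟩ := StarSubalgebra.mem_bot.1 ha
    rw [AlgHomClass.commutes]
    exact StarSubalgebra.algebraMap_mem _ c
  h n := S.h (b, n)
  h_sa n := S.h_sa _
  h_norm n := S.h_norm _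
  comm g k m n hmn := ((S.comm (b, m) (b, n) (by simpa using hmn) g k).1).1
  comm_base g n a ha := by
    obtain ⟨c, rfl⟩ := StarSubalgebra.mem_bot.1 ha
    exact (Algebra.commutes c _).symm

theorem bankSystem_gen_le (P : Set ℕ) :
    (S.bankSystem b).gen P ≤ S.alg {s | s.1 = b ∧ s.2 ∈ P} := by
  refine StarSubalgebra.topologicalClosure_minimal (StarAlgebra.adjoin_le ?_) (S.isClosed_alg _)
  rintro _ ⟨g, n, hn, rfl⟩
  exact S.h_mem g ⟨rfl, hn⟩

theorem bankSystem_genBase_le (P : Set ℕ) :
    (S.bankSystem b).genBase P ≤ S.alg {s | s.1 = b ∧ s.2 ∈ P} := by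
  refine StarSubalgebra.topologicalClosure_minimal (StarAlgebra.adjoin_le ?_) (S.isClosed_alg _)
  rintro x (hx | ⟨g, n, hn, rfl⟩)
  · exact (bot_le : (⊥ : StarSubalgebra ℂ B) ≤ _) hx
  · exact S.h_mem g ⟨rfl, hn⟩

variable {S}

theorem Good.bankSystem {τ : B →ₗ[ℂ] ℂ} (hτ : S.Good τ) : (S.bankSystem b).Good τ where
  trace := hτ.trace
  indep P d hd e he := by
    have hsub : {s : Site | s.1 = b ∧ s.2 ∈ Pᶜ} ⊆ {s : Site | s.1 = b ∧ s.2 ∈ P}ᶜ :=
      fun s hs hs' => hs.2 hs'.2
    have he' : e ∈ S.alg {s : Site | s.1 = b ∧ s.2 ∈ P}ᶜ :=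
      S.alg_mono hsub (S.bankSystem_genBase_le b Pᶜ he)
    exact hτ.indep _ d (S.bankSystem_gen_le b P hd) e he'
  mean g n := hτ.mean g (b, n)
  var g n := hτ.var g (b, n)

end Fam

/-- Almost invariant partitions of unity inside a bank. -/
theorem famPartitionStatement : FamPartitionStatement.{u, v} := by
  intro B _ G _ _ hG S b k hk ε hε T
  obtain ⟨Z, hZ, hZsa, f, hfc, hf0, hf1, hinv, hτs⟩ :=
    partitionStatement_of (varianceStatement_of (etaStatement_of poolStatement)) B G hG
      (S.bankSystem b) k hk ε hε T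
  have hZb : Z ∈ S.alg (bankSet b) :=
    S.alg_mono (fun _ hs => hs.1) (S.bankSystem_gen_le b Set.univ hZ)
  refine ⟨fun a => cfc (f a) Z, fun a => cfc_mem (hs := S.isClosed_alg _) _ hZb, fun a => ?_, ?_,
    fun a a' => cfc_commute_cfc _ _ _, fun g hg a => hinv a g hg, fun τ hτ => ⟨fun a => ?_, ?_⟩⟩
  · refine ⟨cfc (fun x => Real.sqrt (f a x)) Z, ?_⟩
    rw [(cfc_predicate (fun x => Real.sqrt (f a x)) Z : IsSelfAdjoint _).star_eq,
      ← cfc_mul _ _ Z (hfc a).sqrt.continuousOn (hfc a).sqrt.continuousOn]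
    exact cfc_congr fun x _ => (Real.mul_self_sqrt (hf0 a x)).symm
  · rw [← cfc_sum _ Z _ (fun a _ => (hfc a).continuousOn)]
    exact (cfc_congr fun x _ => by rw [Finset.sum_apply]; exact hf1 x).trans (cfc_const_one ℝ Z)
  · have h := ((hτs τ (hτ.bankSystem b)).1 a) 1 (one_mem _)
    rw [mul_one, hτ.trace.map_one] at h
    have hn : ‖(1 : B)‖ ≤ 1 := by
      cases subsingleton_or_nontrivial B with
      | inl h' => simp [Subsingleton.elim (1 : B) 0]
      | inr h' => exact CStarRing.norm_one.le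
    exact h.trans (mul_le_of_le_one_right hε.le hn)
  · exact (hτs τ (hτ.bankSystem b)).2

end Vale.Agent.P095.Full.Tracial
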