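import Vale.Agent.P095.Full.Tracial.LadderTools

/-!
# P095, all amenable groups: the ladder of replicas

The weights of the ladder add up to one up to the rest of the ladder, so the weighted sums are
contractions; their squares and their defect from fullness are controlled by the spread of the
selected elements, and their variation by the variation of the weights.
-/

noncomputable section

namespace Vale.Agent.P095.Full.Tracial

universe u v

open Vale.Agent.P095.Gamma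

/-- The spread of a family of elements with weights. -/
def spread {D : Type u} [CStarAlgebra D] {κ : Type*} (s : Finset κ) (w y : κ → D) : D :=
  ∑ p ∈ s, ∑ q ∈ s, w p * w q * (star (y p - y q) * (y p - y q))

/-- The weight of a member of a level of the ladder. -/
def ladderW {D : Type u} [CStarAlgebra D] {ι : Type v} {L : ℕ} (U : Finset ι)
    (P : Fin L → ι → D) (p : Fin L × ι) : D :=
  ladderZ (fun m => ∑ k ∈ U, P m k) p.1 * P p.1 p.2

theorem ladderY_eq {D : Type u} [CStarAlgebra D] {ι : Type v} {L : ℕ} (U : Finset ι)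
    (P : Fin L → ι → D) (x : Fin L → ι → Fin 6 → D) (i : Fin 6) :
    ladderY U P x i = ∑ p ∈ Finset.univ ×ˢ U, ladderW U P p * x p.1 p.2 i := by
  rw [Finset.sum_product]
  rfl

variable {D : Type u} [CStarAlgebra D] [PartialOrder D] [StarOrderedRing D]
  {A C : Subalgebra ℝ D} (hAC : A ≤ C) (hcomm : ∀ a ∈ A, ∀ y ∈ C, Commute a y)
include hAC hcomm

section Weighted

variable {κ : Type*} {s : Finset κ} {w y : κ → D} (hw : ∀ p ∈ s, w p ∈ A ∧ 0 ≤ w p)
  (hCs : ∀ y ∈ C, star y ∈ C) (hy : ∀ p ∈ s, y p ∈ C)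
include hw hCs hy

theorem weighted_gram :
    spread s w y + (star (∑ p ∈ s, w p * y p) * ∑ p ∈ s, w p * y p +
        star (∑ p ∈ s, w p * y p) * ∑ p ∈ s, w p * y p) =
      (∑ p ∈ s, w p) * (∑ p ∈ s, w p * (star (y p) * y p)) +
        (∑ p ∈ s, w p) * (∑ p ∈ s, w p * (star (y p) * y p)) :=
  gram_identity s w y (fun p hp => (IsSelfAdjoint.of_nonneg (hw p hp).2).star_eq)
    (fun p hp q hq => hcomm _ (hw p hp).1 _ (hAC (hw q hq).1))
    fun p hp q hq => hcomm _ (hw p hp).1 _ (hCs _ (hy q hq))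

theorem spread_nonneg : 0 ≤ spread s w y := by
  refine Finset.sum_nonneg fun p hp => Finset.sum_nonneg fun q hq => ?_
  have hd : y p - y q ∈ C := C.sub_mem (hy p hp) (hy q hq)
  exact (hcomm _ (A.mul_mem (hw p hp).1 (hw q hq).1) _
    (C.mul_mem (hCs _ hd) hd)).mul_nonneg
    ((hcomm _ (hw p hp).1 _ (hAC (hw q hq).1)).mul_nonneg (hw p hp).2 (hw q hq).2)
    (star_mul_self_nonneg _)

theorem weighted_norm_le (hsum : ∑ p ∈ s, w p ≤ 1) (hy1 : ∀ p ∈ s, ‖y p‖ ≤ 1) :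
    ‖∑ p ∈ s, w p * y p‖ ≤ 1 := by
  set Y := ∑ p ∈ s, w p * y p
  set S := ∑ p ∈ s, w p
  have hSA : S ∈ A := A.sum_mem fun p hp => (hw p hp).1
  have hS0 : 0 ≤ S := Finset.sum_nonneg fun p hp => (hw p hp).2
  have hQC : ∑ p ∈ s, w p * (star (y p) * y p) ∈ C := C.sum_mem fun p hp =>
    C.mul_mem (hAC (hw p hp).1) (C.mul_mem (hCs _ (hy p hp)) (hy p hp))
  have hQS : ∑ p ∈ s, w p * (star (y p) * y p) ≤ S := by
    refine Finset.sum_le_sum fun p hp => ?_
    have h := mul_le_mul_left_comm (hw p hp).2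
      ((star_mul_self_le_algebraMap (hy1 p hp)).trans_eq (by rw [one_mul, map_one]))
      (hcomm _ (hw p hp).1 _ (C.mul_mem (hCs _ (hy p hp)) (hy p hp))) (Commute.one_right _)
    rwa [mul_one] at h
  have hSQ : S * ∑ p ∈ s, w p * (star (y p) * y p) ≤ 1 :=
    ((mul_le_mul_left_comm hS0 hQS (hcomm _ hSA _ hQC) (Commute.refl S)).trans
      (mul_le_of_le_one_comm hsum hS0 (Commute.refl S))).trans hsum
  have hg := weighted_gram hAC hcomm hw hCs hy
  have hR := spread_nonneg hAC hcomm hw hCs hy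
  have h2 : star Y * Y + star Y * Y ≤ 1 + 1 := by
    calc star Y * Y + star Y * Y ≤ spread s w y + (star Y * Y + star Y * Y) :=
          le_add_of_nonneg_left hR
      _ ≤ 1 + 1 := hg.trans_le (add_le_add hSQ hSQ)
  have h3 : star Y * Y ≤ 1 := by
    have h4 := smul_le_smul_of_nonneg_left h2 (show (0 : ℝ) ≤ 1 / 2 by norm_num)
    simpa [← two_smul ℝ, smul_smul] using h4
  have h5 := (CStarAlgebra.norm_le_one_iff_of_nonneg (star Y * Y) (star_mul_self_nonneg Y)).2 h3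
  rw [CStarRing.norm_star_mul_self] at h5
  nlinarith [norm_nonneg Y]

variable {σ : D →ₗ[ℂ] ℂ} (hσ : IsTrace D σ)
include hσ

omit hAC hCs [StarOrderedRing D] in
theorem trace_spread_star :
    (σ (spread s w fun p => star (y p))).re = (σ (spread s w y)).re := by
  simp only [spread, map_sum, Complex.re_sum]
  refine Finset.sum_congr rfl fun p hp => Finset.sum_congr rfl fun q hq => ?_
  congr 1
  rw [← star_sub, star_star, ← mul_assoc _ (y p - y q),
    (hcomm _ (A.mul_mem (hw p hp).1 (hw q hq).1) _ (C.sub_mem (hy p hp) (hy q hq))).eq,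
    mul_assoc, hσ.comm, mul_assoc]

theorem weighted_square_le (hy0 : ∀ p ∈ s, y p * y p = 0)
    (hY : ‖∑ p ∈ s, w p * y p‖ ≤ 1) :
    2 * (σ (star ((∑ p ∈ s, w p * y p) * ∑ p ∈ s, w p * y p) *
      ((∑ p ∈ s, w p * y p) * ∑ p ∈ s, w p * y p))).re ≤ (σ (spread s w y)).re := by
  set Y := ∑ p ∈ s, w p * y p
  have hYC : Y ∈ C := C.sum_mem fun p hp => C.mul_mem (hAC (hw p hp).1) (hy p hp)
  set V := Y * Y
  have hVC : V ∈ C := C.mul_mem hYC hYC
  have hV1 : ‖V‖ ≤ 1 := (norm_mul_le Y Y).trans (mul_le_one₀ hY (norm_nonneg _) hY)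
  have hsq := square_identity s w y (fun p hp q hq => hcomm _ (hw p hp).1 _ (hAC (hw q hq).1))
    (fun p hp q hq => hcomm _ (hw p hp).1 _ (hy q hq)) hy0
  have h2 : star V * V + star V * V =
      -∑ p ∈ s, ∑ q ∈ s, star V * (w p * w q * ((y p - y q) * (y p - y q))) := by
    simp only [← Finset.mul_sum, ← mul_neg, ← eq_neg_of_add_eq_zero_right hsq, mul_add, V, Y]
  have h3 := congrArg (fun z => (σ z).re) h2
  simp only [map_add, map_neg, map_sum, Complex.add_re, Complex.neg_re, Complex.re_sum] at h3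
  rw [two_mul, h3, ← Finset.sum_neg_distrib]
  simp only [spread, map_sum, Complex.re_sum]
  refine Finset.sum_le_sum fun p hp => ?_
  rw [← Finset.sum_neg_distrib]
  refine Finset.sum_le_sum fun q hq => ?_
  set c := w p * w q
  set d := y p - y q
  have hcA : c ∈ A := A.mul_mem (hw p hp).1 (hw q hq).1
  have hc0 : 0 ≤ c :=
    (hcomm _ (hw p hp).1 _ (hAC (hw q hq).1)).mul_nonneg (hw p hp).2 (hw q hq).2
  have hdC : d ∈ C := C.sub_mem (hy p hp) (hy q hq)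
  have hK : 0 ≤ c * (d * star d) :=
    (hcomm _ hcA _ (C.mul_mem hdC (hCs _ hdC))).mul_nonneg hc0 (mul_star_self_nonneg d)
  have hp1 := abs_trace_re_weight_le hσ hc0 (hcomm _ hcA _ (C.mul_mem (hCs _ hVC) hdC))
    (hcomm _ hcA _ hdC)
  have e1 : c * (star V * d * star (star V * d)) = star V * (c * (d * star d)) * V := by
    rw [star_mul (star V) d, star_star, ← mul_assoc (star V) c, ← (hcomm _ hcA _ (hCs _ hVC)).eq]
    simp only [mul_assoc]
  have e2 : star V * (c * (d * d)) = c * (star V * d * d) := by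
    rw [← mul_assoc, ← (hcomm _ hcA _ (hCs _ hVC)).eq]
    simp only [mul_assoc]
  have e3 : (σ (c * (d * star d))).re = (σ (c * (star d * d))).re := by
    rw [← mul_assoc c d, (hcomm _ hcA _ hdC).eq, mul_assoc, hσ.comm, mul_assoc]
  have hp2 := trace_re_conj_le hσ hK hV1
  rw [e1] at hp1
  rw [e2]
  have hp3 := neg_abs_le (σ (c * (star V * d * d))).re
  linarith

theorem weighted_sub_le {w' N : κ → D} (hw' : ∀ p ∈ s, w' p ∈ A ∧ 0 ≤ w' p)
    (hN : ∀ p ∈ s, N p ∈ A ∧ w p - w' p ≤ N p ∧ w' p - w p ≤ N p)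
    (hy1 : ∀ p ∈ s, ‖y p‖ ≤ 1) (hY : ‖∑ p ∈ s, w p * y p‖ ≤ 1)
    (hY' : ‖∑ p ∈ s, w' p * y p‖ ≤ 1) :
    2 * (σ (star (∑ p ∈ s, w p * y p - ∑ p ∈ s, w' p * y p) *
      (∑ p ∈ s, w p * y p - ∑ p ∈ s, w' p * y p))).re ≤ 5 * ∑ p ∈ s, (σ (N p)).re := by
  set Δ := ∑ p ∈ s, w p * y p - ∑ p ∈ s, w' p * y p with hΔ
  have hΔC : Δ ∈ C := C.sub_mem (C.sum_mem fun p hp => C.mul_mem (hAC (hw p hp).1) (hy p hp))
    (C.sum_mem fun p hp => C.mul_mem (hAC (hw' p hp).1) (hy p hp))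
  have hΔ2 : ‖Δ‖ ≤ 2 := (norm_sub_le _ _).trans ((add_le_add hY hY').trans (by norm_num))
  have he : star Δ * Δ + star Δ * Δ =
      ∑ p ∈ s, ((N p + (w p - w' p)) * (star Δ * y p) -
        (N p - (w p - w' p)) * (star Δ * y p)) := by
    nth_rw 2 [hΔ]
    nth_rw 3 [hΔ]
    rw [← Finset.sum_sub_distrib, Finset.mul_sum, ← Finset.sum_add_distrib]
    refine Finset.sum_congr rfl fun p hp => ?_
    rw [← sub_mul, ← mul_assoc (star Δ),
      ← (hcomm _ (A.sub_mem (hw p hp).1 (hw' p hp).1) _ (hCs _ hΔC)).eq]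
    noncomm_ring
  have h2 := congrArg (fun z => (σ z).re) he
  simp only [map_add, Complex.add_re, map_sum, Complex.re_sum, map_sub, Complex.sub_re] at h2
  rw [two_mul, h2, Finset.mul_sum]
  refine Finset.sum_le_sum fun p hp => ?_
  have hbd : ∀ c ∈ A, 0 ≤ c → |(σ (c * (star Δ * y p))).re| ≤ 5 / 2 * (σ c).re := by
    intro c hcA hc0
    have h := abs_trace_re_weight_le hσ hc0 (hcomm _ hcA _ (hCs _ hΔC)) (hcomm _ hcA _ (hy p hp))
    rw [star_star] at h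
    have hΔ' : c * (star Δ * Δ) = c * (star Δ * Δ) := rfl
    have h1 := trace_re_mul_le hσ hc0 (star_mul_self_le_algebraMap hΔ2)
      (hcomm _ hcA _ (C.mul_mem (hCs _ hΔC) hΔC))
    have h3 := trace_re_mul_le hσ hc0 (star_mul_self_le_algebraMap (hy1 p hp))
      (hcomm _ hcA _ (C.mul_mem (hCs _ (hy p hp)) (hy p hp)))
    linarith
  obtain ⟨hNA, hN1, hN2⟩ := hN p hp
  have hdA : w p - w' p ∈ A := A.sub_mem (hw p hp).1 (hw' p hp).1
  have hplus : 0 ≤ N p + (w p - w' p) := by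
    rw [show N p + (w p - w' p) = N p - (w' p - w p) by abel]
    exact sub_nonneg.2 hN2
  have b1 := (le_abs_self _).trans (hbd _ (A.add_mem hNA hdA) hplus)
  have b2 := (neg_le_abs _).trans (hbd _ (A.sub_mem hNA hdA) (sub_nonneg.2 hN1))
  simp only [map_add, map_sub, Complex.add_re, Complex.sub_re] at b1 b2
  linarith

end Weighted

section Levels

variable {ι : Type v} {L : ℕ} {U : Finset ι} {P : Fin L → ι → D}
  (hP : ∀ l, ∀ g ∈ U, P l g ∈ A ∧ 0 ≤ P l g) (hP1 : ∀ l, ∑ g ∈ U, P l g ≤ 1)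
include hP hP1

theorem ladderZ_bounds (l : Fin L) :
    ladderZ (fun m => ∑ g ∈ U, P m g) l ∈ A ∧ 0 ≤ ladderZ (fun m => ∑ g ∈ U, P m g) l ∧
      ladderZ (fun m => ∑ g ∈ U, P m g) l ≤ 1 ∧
      ∀ m < l, ladderZ (fun m => ∑ g ∈ U, P m g) l ≤ 1 - ∑ g ∈ U, P m g := by
  obtain ⟨h1, h2, h3, h4⟩ := prod_ofFn_bounds A (fun a ha b hb => hcomm a ha b (hAC hb))
    (fun m => if m < l then 1 - ∑ g ∈ U, P m g else 1) fun m => by
      have hEA : ∑ g ∈ U, P m g ∈ A := A.sum_mem fun g hg => (hP m g hg).1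
      split_ifs
      · exact ⟨A.sub_mem A.one_mem hEA, sub_nonneg.2 (hP1 m),
          sub_le_self 1 (Finset.sum_nonneg fun g hg => (hP m g hg).2)⟩
      · exact ⟨A.one_mem, zero_le_one, le_rfl⟩
  exact ⟨h1, h2, h3, fun m hm => (h4 m).trans_eq (if_pos hm)⟩

theorem ladderW_mem {p : Fin L × ι} (hp : p ∈ (Finset.univ : Finset (Fin L)) ×ˢ U) :
    ladderW U P p ∈ A ∧ 0 ≤ ladderW U P p := by
  obtain ⟨h1, h2, -, -⟩ := ladderZ_bounds hAC hcomm hP hP1 p.1
  obtain ⟨g1, g2⟩ := hP p.1 p.2 (Finset.mem_product.1 hp).2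
  exact ⟨A.mul_mem h1 g1, (hcomm _ h1 _ (hAC g1)).mul_nonneg h2 g2⟩

theorem ladder_total :
    ∑ p ∈ Finset.univ ×ˢ U, ladderW U P p = 1 - ladderRest (fun l => ∑ g ∈ U, P l g) ∧
      0 ≤ ladderRest (fun l => ∑ g ∈ U, P l g) ∧
      ladderRest (fun l => ∑ g ∈ U, P l g) ∈ A := by
  obtain ⟨h1, h2, -, -⟩ := prod_ofFn_bounds A (fun a ha b hb => hcomm a ha b (hAC hb))
    (fun m => 1 - ∑ g ∈ U, P m g) fun m =>
      ⟨A.sub_mem A.one_mem (A.sum_mem fun g hg => (hP m g hg).1), sub_nonneg.2 (hP1 m),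
        sub_le_self 1 (Finset.sum_nonneg fun g hg => (hP m g hg).2)⟩
  refine ⟨?_, h2, h1⟩
  rw [Finset.sum_product]
  simp only [ladderW, ← Finset.mul_sum, sum_ladderZ_mul]

theorem ladderW_sub_le {P' Mj : Fin L → ι → D} (hP' : ∀ l, ∀ g ∈ U, P' l g ∈ A ∧ 0 ≤ P' l g)
    (hP'1 : ∀ l, ∑ g ∈ U, P' l g ≤ 1)
    (hM : ∀ l, ∀ g ∈ U, Mj l g ∈ A ∧ 0 ≤ Mj l g ∧ P l g - P' l g ≤ Mj l g ∧
      P' l g - P l g ≤ Mj l g)
    {p : Fin L × ι} (hp : p ∈ (Finset.univ : Finset (Fin L)) ×ˢ U) :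
    (∑ m, if m < p.1 then ∑ g ∈ U, Mj m g else 0) * P p.1 p.2 + Mj p.1 p.2 ∈ A ∧
      ladderW U P p - ladderW U P' p ≤
        (∑ m, if m < p.1 then ∑ g ∈ U, Mj m g else 0) * P p.1 p.2 + Mj p.1 p.2 ∧
      ladderW U P' p - ladderW U P p ≤
        (∑ m, if m < p.1 then ∑ g ∈ U, Mj m g else 0) * P p.1 p.2 + Mj p.1 p.2 := by
  obtain ⟨l, g⟩ := p
  have hg : g ∈ U := (Finset.mem_product.1 hp).2
  set H := ∑ m, if m < l then ∑ g ∈ U, Mj m g else 0
  have hHm : ∀ m, (if m < l then ∑ g ∈ U, Mj m g else 0) ∈ A ∧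
      0 ≤ if m < l then ∑ g ∈ U, Mj m g else 0 := by
    intro m
    split_ifs
    · exact ⟨A.sum_mem fun g hg => (hM m g hg).1, Finset.sum_nonneg fun g hg => (hM m g hg).2.1⟩
    · exact ⟨A.zero_mem, le_rfl⟩
  have hH : H ∈ A := A.sum_mem fun m _ => (hHm m).1
  have hAA : ∀ a ∈ A, ∀ b ∈ A, Commute a b := fun a ha b hb => hcomm a ha b (hAC hb)
  have hfac : ∀ (Q : Fin L → ι → D), (∀ l, ∀ g ∈ U, Q l g ∈ A ∧ 0 ≤ Q l g) →
      (∀ l, ∑ g ∈ U, Q l g ≤ 1) → ∀ m, (if m < l then 1 - ∑ g ∈ U, Q m g else 1) ∈ A ∧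
        0 ≤ (if m < l then 1 - ∑ g ∈ U, Q m g else 1) ∧
        (if m < l then 1 - ∑ g ∈ U, Q m g else 1) ≤ 1 := by
    intro Q hQ hQ1 m
    split_ifs
    · exact ⟨A.sub_mem A.one_mem (A.sum_mem fun g hg => (hQ m g hg).1), sub_nonneg.2 (hQ1 m),
        sub_le_self 1 (Finset.sum_nonneg fun g hg => (hQ m g hg).2)⟩
    · exact ⟨A.one_mem, zero_le_one, le_rfl⟩
  have hdiff : ∀ (Q Q' : Fin L → ι → D), (∀ l, ∀ g ∈ U, Q l g ∈ A ∧ 0 ≤ Q l g) →
      (∀ l, ∑ g ∈ U, Q l g ≤ 1) → (∀ l, ∀ g ∈ U, Q' l g ∈ A ∧ 0 ≤ Q' l g) →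
      (∀ l, ∑ g ∈ U, Q' l g ≤ 1) → (∀ l, ∀ g ∈ U, Q' l g - Q l g ≤ Mj l g) →
      ladderZ (fun m => ∑ g ∈ U, Q m g) l - ladderZ (fun m => ∑ g ∈ U, Q' m g) l ≤ H := by
    intro Q Q' hQ hQ1 hQ' hQ'1 hd
    refine prod_ofFn_sub_le A hAA _ _ _ (hfac Q hQ hQ1) (hfac Q' hQ' hQ'1)
      fun m => ⟨(hHm m).1, (hHm m).2, ?_⟩
    split_ifs
    · rw [sub_sub_sub_cancel_left, ← Finset.sum_sub_distrib]
      exact Finset.sum_le_sum fun g hg => hd m g hg
    · rw [sub_self]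
  obtain ⟨z1, z2, z3, -⟩ := ladderZ_bounds hAC hcomm hP hP1 l
  obtain ⟨z1', z2', z3', -⟩ := ladderZ_bounds hAC hcomm hP' hP'1 l
  have d1 := hdiff P P' hP hP1 hP' hP'1 fun l g hg => (hM l g hg).2.2.2
  have d2 := hdiff P' P hP' hP'1 hP hP1 fun l g hg => (hM l g hg).2.2.1
  obtain ⟨hPA, hP0⟩ := hP l g hg
  obtain ⟨hP'A, -⟩ := hP' l g hg
  obtain ⟨hMA, hM0, hM1, hM2⟩ := hM l g hg
  refine ⟨A.add_mem (A.mul_mem hH hPA) hMA, ?_, ?_⟩
  · simp only [ladderW]
    set Z := ladderZ (fun m => ∑ g ∈ U, P m g) l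
    set Z' := ladderZ (fun m => ∑ g ∈ U, P' m g) l
    rw [show Z * P l g - Z' * P' l g = (Z - Z') * P l g + Z' * (P l g - P' l g) by noncomm_ring]
    exact add_le_add
      (mul_le_mul_right_comm hP0 d1 (hAA _ hPA _ (A.sub_mem z1 z1')) (hAA _ hPA _ hH))
      ((mul_le_mul_left_comm z2' hM1 (hAA _ z1' _ (A.sub_mem hPA hP'A)) (hAA _ z1' _ hMA)).trans
        (mul_le_of_le_one_comm z3' hM0 (hAA _ z1' _ hMA)))
  · simp only [ladderW]
    set Z := ladderZ (fun m => ∑ g ∈ U, P m g) l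
    set Z' := ladderZ (fun m => ∑ g ∈ U, P' m g) l
    rw [show Z' * P' l g - Z * P l g = (Z' - Z) * P l g + Z' * (P' l g - P l g) by noncomm_ring]
    exact add_le_add
      (mul_le_mul_right_comm hP0 d2 (hAA _ hPA _ (A.sub_mem z1' z1)) (hAA _ hPA _ hH))
      ((mul_le_mul_left_comm z2' hM2 (hAA _ z1' _ (A.sub_mem hP'A hPA)) (hAA _ z1' _ hMA)).trans
        (mul_le_of_le_one_comm z3' hM0 (hAA _ z1' _ hMA)))

variable (hCs : ∀ y ∈ C, star y ∈ C) {σ : D →ₗ[ℂ] ℂ} (hσ : IsTrace D σ)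
include hCs hσ

theorem ladder_spread_le {x : Fin L → ι → Fin 6 → D} {a b : ℝ}
    (hx : ∀ l, ∀ g ∈ U, ∀ i, x l g i ∈ C ∧ ‖x l g i‖ ≤ 1) (hb : 0 ≤ b)
    (hRa : ∀ l, (∑ i, ∑ g ∈ U, ∑ k ∈ U, σ ((P l g * P l k) *
        (star (x l g i - x l k i) * (x l g i - x l k i)))).re ≤ a)
    (hRb : ∀ l m, l < m → (σ (((∑ g ∈ U, P l g) - (∑ g ∈ U, P l g) * ∑ g ∈ U, P l g) *
        ∑ g ∈ U, P m g)).re ≤ b) :
    ∑ i, (σ (spread (Finset.univ ×ˢ U) (ladderW U P) fun p => x p.1 p.2 i)).re ≤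
      L * a + 24 * L ^ 2 * b := by
  have hAA : ∀ a ∈ A, ∀ b ∈ A, Commute a b := fun a ha b hb => hcomm a ha b (hAC hb)
  let T : Fin 6 → Fin L → Fin L → ℝ := fun i l m => ∑ g ∈ U, ∑ k ∈ U,
    (σ (ladderW U P (l, g) * ladderW U P (m, k) *
      (star (x l g i - x m k i) * (x l g i - x m k i)))).re
  let R : Fin 6 → Fin L → ℝ := fun i l => ∑ g ∈ U, ∑ k ∈ U, (σ ((P l g * P l k) *
        (star (x l g i - x l k i) * (x l g i - x l k i)))).re
  have hT : ∀ i, (σ (spread (Finset.univ ×ˢ U) (ladderW U P) fun p => x p.1 p.2 i)).re =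
      ∑ l, ∑ m, T i l m := by
    intro i
    simp only [spread, map_sum, Complex.re_sum, Finset.sum_product, T]
    exact Finset.sum_congr rfl fun l _ => Finset.sum_comm
  have hsymm : ∀ i l m, T i l m = T i m l := by
    intro i l m
    simp only [T]
    rw [Finset.sum_comm]
    refine Finset.sum_congr rfl fun k hk => Finset.sum_congr rfl fun g hg => ?_
    have hp : ∀ n j, j ∈ U → (n, j) ∈ (Finset.univ : Finset (Fin L)) ×ˢ U := fun n j hj =>
      Finset.mem_product.2 ⟨Finset.mem_univ n, hj⟩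
    rw [(hAA _ (ladderW_mem hAC hcomm hP hP1 (hp l g hg)).1 _
      (ladderW_mem hAC hcomm hP hP1 (hp m k hk)).1).eq]
    congr 3
    rw [← neg_sub (x m k i), star_neg, neg_mul, mul_neg, neg_neg]
  have hlt : ∀ i l m, l < m → T i l m ≤ 4 * b := by
    intro i l m hlm
    obtain ⟨z1, z2, z3, -⟩ := ladderZ_bounds hAC hcomm hP hP1 l
    obtain ⟨y1, y2, -, y4⟩ := ladderZ_bounds hAC hcomm hP hP1 m
    set E := ∑ g ∈ U, P l g with hE
    have hEA : E ∈ A := A.sum_mem fun g hg => (hP l g hg).1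
    have hsum : ∑ g ∈ U, ∑ k ∈ U, (σ ((1 - E) * (P l g * P m k))).re =
        (σ (((∑ g ∈ U, P l g) - (∑ g ∈ U, P l g) * ∑ g ∈ U, P l g) * ∑ g ∈ U, P m g)).re := by
      simp only [← Complex.re_sum, ← map_sum, ← Finset.mul_sum, ← Finset.sum_mul]
      congr 2
      rw [hE]
      noncomm_ring
    refine le_trans ?_ (mul_le_mul_of_nonneg_left (hsum.trans_le (hRb l m hlm)) (by norm_num))
    simp only [T, Finset.mul_sum]
    refine Finset.sum_le_sum fun g hg => Finset.sum_le_sum fun k hk => ?_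
    obtain ⟨g1, g2⟩ := hP l g hg
    obtain ⟨k1, k2⟩ := hP m k hk
    have hd : x l g i - x m k i ∈ C := C.sub_mem (hx l g hg i).1 (hx m k hk i).1
    have hn : ‖x l g i - x m k i‖ ≤ 2 := (norm_sub_le _ _).trans
      ((add_le_add (hx l g hg i).2 (hx m k hk i).2).trans (by norm_num))
    have hw : ladderW U P (l, g) * ladderW U P (m, k) ≤ (1 - E) * (P l g * P m k) := by
      simp only [ladderW]
      rw [(hAA _ g1 _ y1).mul_mul_mul_comm]
      exact mul_le_mul_right_comm ((hAA _ g1 _ k1).mul_nonneg g2 k2)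
        ((mul_le_of_le_one_comm z3 y2 (hAA _ z1 _ y1)).trans (y4 l hlm))
        (hAA _ (A.mul_mem g1 k1) _ (A.mul_mem z1 y1))
        (hAA _ (A.mul_mem g1 k1) _ (A.sub_mem A.one_mem hEA))
    have hwA : ladderW U P (l, g) * ladderW U P (m, k) ∈ A :=
      A.mul_mem (A.mul_mem z1 g1) (A.mul_mem y1 k1)
    have hw0 : 0 ≤ ladderW U P (l, g) * ladderW U P (m, k) :=
      (hAA _ (A.mul_mem z1 g1) _ (A.mul_mem y1 k1)).mul_nonneg
        ((hAA _ z1 _ g1).mul_nonneg z2 g2) ((hAA _ y1 _ k1).mul_nonneg y2 k2)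
    have h1 := trace_re_mul_le hσ hw0 (star_mul_self_le_algebraMap hn)
      (hcomm _ hwA _ (C.mul_mem (hCs _ hd) hd))
    refine h1.trans ?_
    norm_num
    exact trace_re_mono hσ hw
  have heq : ∀ i l, T i l l ≤ R i l := by
    intro i l
    obtain ⟨z1, z2, z3, -⟩ := ladderZ_bounds hAC hcomm hP hP1 l
    refine Finset.sum_le_sum fun g hg => Finset.sum_le_sum fun k hk => trace_re_mono hσ ?_
    obtain ⟨g1, g2⟩ := hP l g hg
    obtain ⟨k1, k2⟩ := hP l k hk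
    have hd : x l g i - x l k i ∈ C := C.sub_mem (hx l g hg i).1 (hx l k hk i).1
    have hwA : ladderW U P (l, g) * ladderW U P (l, k) ∈ A :=
      A.mul_mem (A.mul_mem z1 g1) (A.mul_mem z1 k1)
    refine mul_le_mul_right_comm (star_mul_self_nonneg _) ?_
      (hcomm _ hwA _ (C.mul_mem (hCs _ hd) hd)).symm
      (hcomm _ (A.mul_mem g1 k1) _ (C.mul_mem (hCs _ hd) hd)).symm
    simp only [ladderW]
    rw [(hAA _ g1 _ z1).mul_mul_mul_comm]
    exact mul_le_of_le_one_comm ((mul_le_of_le_one_comm z3 z2 (Commute.refl _)).trans z3)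
      ((hAA _ g1 _ k1).mul_nonneg g2 k2) (hAA _ (A.mul_mem z1 z1) _ (A.mul_mem g1 k1))
  have hle : ∀ i l m, T i l m ≤ (if l = m then R i l else 0) + 4 * b := by
    intro i l m
    rcases lt_trichotomy l m with h | h | h
    · rw [if_neg h.ne, zero_add]
      exact hlt i l m h
    · subst h
      rw [if_pos rfl]
      linarith [heq i l]
    · rw [if_neg h.ne', zero_add, hsymm i l m]
      exact hlt i m l h
  calc ∑ i, (σ (spread (Finset.univ ×ˢ U) (ladderW U P) fun p => x p.1 p.2 i)).re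
      = ∑ i, ∑ l, ∑ m, T i l m := Finset.sum_congr rfl fun i _ => hT i
    _ ≤ ∑ i : Fin 6, ∑ l, ∑ m, ((if l = m then R i l else 0) + 4 * b) :=
        Finset.sum_le_sum fun i _ => Finset.sum_le_sum fun l _ =>
          Finset.sum_le_sum fun m _ => hle i l m
    _ = (∑ l, ∑ i, R i l) + 24 * (L : ℝ) ^ 2 * b := by
        simp only [Finset.sum_add_distrib, Finset.sum_ite_eq, Finset.mem_univ, if_true,
          Finset.sum_const, Finset.card_univ, Fintype.card_fin, nsmul_eq_mul]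
        rw [Finset.sum_comm]
        push_cast
        ring
    _ ≤ L * a + 24 * (L : ℝ) ^ 2 * b := by
        refine add_le_add ?_ le_rfl
        have h := Finset.sum_le_sum fun l (_ : l ∈ (Finset.univ : Finset (Fin L))) => hRa l
        simp only [Complex.re_sum] at h
        simpa [R] using h

omit hAC hcomm hP hP1 hCs [PartialOrder D] [StarOrderedRing D] in
theorem ladder_variation_le {Mj : Fin L → ι → D} {c c' : ℝ} (hc' : 0 ≤ c')
    (hRc : ∀ l, (σ (∑ g ∈ U, Mj l g)).re ≤ c)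
    (hRc' : ∀ l m, m < l → (σ ((∑ g ∈ U, P l g) * ∑ g ∈ U, Mj m g)).re ≤ c') :
    ∑ p ∈ Finset.univ ×ˢ U,
      (σ ((∑ m, if m < p.1 then ∑ g ∈ U, Mj m g else 0) * P p.1 p.2 + Mj p.1 p.2)).re ≤
      L * c + (L : ℝ) ^ 2 * c' := by
  rw [Finset.sum_product]
  have hl : ∀ l, ∑ g ∈ U,
      (σ ((∑ m, if m < l then ∑ k ∈ U, Mj m k else 0) * P l g + Mj l g)).re ≤
        c + L * c' := by
    intro l
    simp only [← Complex.re_sum, ← map_sum, Finset.sum_add_distrib, ← Finset.mul_sum]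
    rw [map_add, Complex.add_re, Finset.sum_mul, map_sum, Complex.re_sum, add_comm]
    refine add_le_add (hRc l) ?_
    refine (Finset.sum_le_sum (g := fun _ => c') fun m _ => ?_).trans_eq (by simp)
    split_ifs with h
    · rw [hσ.comm]
      exact hRc' l m h
    · simpa using hc'
  refine (Finset.sum_le_sum fun l _ => hl l).trans_eq ?_
  simp only [Finset.sum_const, Finset.card_univ, Fintype.card_fin, nsmul_eq_mul]
  ring

theorem ladder_defect_le {x : Fin L → ι → Fin 6 → D}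
    (hx : ∀ l, ∀ g ∈ U, ∀ i, x l g i ∈ C)
    (hlow : ∀ l, ∀ g ∈ U,
      algebraMap ℝ D (1 / 4) ≤ ∑ i, (star (x l g i) * x l g i + x l g i * star (x l g i))) :
    (σ (cfc (posCut 0) (algebraMap ℝ D (1 / 4) - ∑ i,
      (star (ladderY U P x i) * ladderY U P x i + ladderY U P x i * star (ladderY U P x i))))).re
      ≤ (σ (ladderRest fun l => ∑ g ∈ U, P l g)).re / 2 +
        ∑ i, (σ (spread (Finset.univ ×ˢ U) (ladderW U P) fun p => x p.1 p.2 i)).re := by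
  obtain ⟨hS, hr0, hrA⟩ := ladder_total hAC hcomm hP hP1
  set s := (Finset.univ : Finset (Fin L)) ×ˢ U
  set Rest := ladderRest fun l => ∑ g ∈ U, P l g
  set w := ladderW U P
  have hw : ∀ p ∈ s, w p ∈ A ∧ 0 ≤ w p := fun p hp => ladderW_mem hAC hcomm hP hP1 hp
  have hmem : ∀ p ∈ s, p.2 ∈ U := fun p hp => (Finset.mem_product.1 hp).2
  have hy : ∀ i, ∀ p ∈ s, x p.1 p.2 i ∈ C := fun i p hp => hx p.1 p.2 (hmem p hp) i
  have hy' : ∀ i, ∀ p ∈ s, star (x p.1 p.2 i) ∈ C := fun i p hp => hCs _ (hy i p hp)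
  let F : Fin 6 → D := fun i => spread s w fun p => x p.1 p.2 i
  let G : Fin 6 → D := fun i => spread s w fun p => star (x p.1 p.2 i)
  set YY := ∑ i, (star (ladderY U P x i) * ladderY U P x i +
    ladderY U P x i * star (ladderY U P x i)) with hYY
  set Q := ∑ p ∈ s, w p * ∑ i, (star (x p.1 p.2 i) * x p.1 p.2 i +
    x p.1 p.2 i * star (x p.1 p.2 i)) with hQ
  set S := ∑ p ∈ s, w p with hSdef
  have hadj : ∀ i, star (∑ p ∈ s, w p * x p.1 p.2 i) = ∑ p ∈ s, w p * star (x p.1 p.2 i) := by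
    intro i
    rw [star_sum]
    refine Finset.sum_congr rfl fun p hp => ?_
    rw [star_mul, (IsSelfAdjoint.of_nonneg (hw p hp).2).star_eq,
      (hcomm _ (hw p hp).1 _ (hy' i p hp)).eq]
  have hid : ((∑ i, F i) + ∑ i, G i) + (YY + YY) = S * Q + S * Q := by
    have h1 : ∀ i, F i + G i + ((star (ladderY U P x i) * ladderY U P x i +
        ladderY U P x i * star (ladderY U P x i)) + (star (ladderY U P x i) * ladderY U P x i +
        ladderY U P x i * star (ladderY U P x i))) =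
        (S * ∑ p ∈ s, w p * (star (x p.1 p.2 i) * x p.1 p.2 i +
          x p.1 p.2 i * star (x p.1 p.2 i))) +
        (S * ∑ p ∈ s, w p * (star (x p.1 p.2 i) * x p.1 p.2 i +
          x p.1 p.2 i * star (x p.1 p.2 i))) := by
      intro i
      have g1 := weighted_gram hAC hcomm hw hCs (hy i)
      have g2 := weighted_gram hAC hcomm hw hCs (hy' i)
      simp only [star_star, ← hadj] at g2
      simp only [mul_add, Finset.sum_add_distrib, ladderY_eq, F, G]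
      calc _ = (spread s w (fun p => x p.1 p.2 i) +
            (star (∑ p ∈ s, w p * x p.1 p.2 i) * ∑ p ∈ s, w p * x p.1 p.2 i +
              star (∑ p ∈ s, w p * x p.1 p.2 i) * ∑ p ∈ s, w p * x p.1 p.2 i)) +
            (spread s w (fun p => star (x p.1 p.2 i)) +
            ((∑ p ∈ s, w p * x p.1 p.2 i) * star (∑ p ∈ s, w p * x p.1 p.2 i) +
              (∑ p ∈ s, w p * x p.1 p.2 i) * star (∑ p ∈ s, w p * x p.1 p.2 i))) := by
            simp only [s, w]; abel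
        _ = _ := by rw [g1, g2]; abel
    have hQ' : Q = ∑ i, ∑ p ∈ s, w p * (star (x p.1 p.2 i) * x p.1 p.2 i +
        x p.1 p.2 i * star (x p.1 p.2 i)) := by
      rw [hQ, Finset.sum_comm]
      simp only [Finset.mul_sum]
    rw [hQ', hYY, Finset.mul_sum, ← Finset.sum_add_distrib, ← Finset.sum_add_distrib,
      ← Finset.sum_add_distrib, ← Finset.sum_add_distrib]
    exact Finset.sum_congr rfl fun i _ => h1 i
  have hSA : S ∈ A := A.sum_mem fun p hp => (hw p hp).1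
  have hS0 : 0 ≤ S := Finset.sum_nonneg fun p hp => (hw p hp).2
  have hBC : ∀ p ∈ s, ∑ i, (star (x p.1 p.2 i) * x p.1 p.2 i +
      x p.1 p.2 i * star (x p.1 p.2 i)) ∈ C := fun p hp => C.sum_mem fun i _ =>
    C.add_mem (C.mul_mem (hy' i p hp) (hy i p hp)) (C.mul_mem (hy i p hp) (hy' i p hp))
  have hQle : (1 / 4 : ℝ) • S ≤ Q := by
    rw [Algebra.smul_def, Algebra.commutes, hSdef, Finset.sum_mul]
    exact Finset.sum_le_sum fun p hp => mul_le_mul_left_comm (hw p hp).2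
      (hlow p.1 p.2 (hmem p hp)) (Algebra.commute_algebraMap_right _ _)
      (hcomm _ (hw p hp).1 _ (hBC p hp))
  have hSQ : (1 / 4 : ℝ) • (S * S) ≤ S * Q := by
    rw [← mul_smul_comm]
    exact mul_le_mul_left_comm hS0 hQle ((Commute.refl S).smul_right _)
      (hcomm _ hSA _ (C.sum_mem fun p hp => C.mul_mem (hAC (hw p hp).1) (hBC p hp)))
  have hR0 : 0 ≤ Rest * Rest := (Commute.refl Rest).mul_nonneg hr0 hr0
  set T := (1 / 2 : ℝ) • (Rest + ((∑ i, F i) + ∑ i, G i)) with hT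
  have hT0 : 0 ≤ T := smul_nonneg (by norm_num) (add_nonneg hr0 (add_nonneg
    (Finset.sum_nonneg fun i _ => spread_nonneg hAC hcomm hw hCs (hy i))
    (Finset.sum_nonneg fun i _ => spread_nonneg hAC hcomm hw hCs (hy' i))))
  have hle : algebraMap ℝ D (1 / 4) - YY ≤ T := by
    have hSS : S * S = 1 - Rest - Rest + Rest * Rest := by
      rw [hS]
      noncomm_ring
    have he : T - (algebraMap ℝ D (1 / 4) - YY) =
        (1 / 4 : ℝ) • (Rest * Rest) + (S * Q - (1 / 4 : ℝ) • (S * S)) := by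
      rw [hT, eq_sub_of_add_eq hid, hSS, Algebra.algebraMap_eq_smul_one]
      module
    rw [← sub_nonneg, he]
    exact add_nonneg (smul_nonneg (by norm_num) hR0) (sub_nonneg.2 hSQ)
  have hsa : IsSelfAdjoint (algebraMap ℝ D (1 / 4) - YY) := by
    refine (IsSelfAdjoint.algebraMap D (by rfl)).sub (IsSelfAdjoint.of_nonneg ?_)
    exact Finset.sum_nonneg fun i _ =>
      add_nonneg (star_mul_self_nonneg _) (mul_star_self_nonneg _)
  refine (trace_re_posCut_le hσ hsa hT0 hle).trans_eq ?_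
  have hG : ∀ i, (σ (G i)).re = (σ (F i)).re := fun i =>
    trace_spread_star hcomm hw (hy i) hσ
  simp only [hT, trace_re_smul, map_add, map_sum, Complex.add_re, Complex.re_sum, hG, F]
  ring

end Levels

omit hAC hcomm in
/-- The ladder of replicas is invariant, almost square-zero and almost full. -/
theorem ladderStatement : LadderStatement.{u, v} := by
  intro D _ _ _ σ hσ ι _ L U P P' Mj x W a b c c' e hW hWW hWx hpos hsum hx ha0 hb0 hc0 hc0'
    hRa hRb hRc hRc' hRe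
  let W₀ : Set D := {z | ∃ l, ∃ g ∈ U, z = P l g ∨ z = P' l g ∨ z = Mj l g}
  let C := Subalgebra.centralizer ℝ W₀
  let A := Subalgebra.centralizer ℝ (C : Set D)
  have hW₀ : ∀ z ∈ W₀, z ∈ W ∧ star z = z := by
    rintro z ⟨l, g, hg, rfl | rfl | rfl⟩
    · exact ⟨(hW l g hg).1, (IsSelfAdjoint.of_nonneg (hpos l g hg).1).star_eq⟩
    · exact ⟨(hW l g hg).2.1, (IsSelfAdjoint.of_nonneg (hpos l g hg).2.1).star_eq⟩
    · exact ⟨(hW l g hg).2.2, (IsSelfAdjoint.of_nonneg (hpos l g hg).2.2.1).star_eq⟩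
  have hW₀C : W₀ ⊆ C := fun z hz =>
    Subalgebra.mem_centralizer_iff ℝ |>.2 fun z' hz' => (hWW z' (hW₀ z' hz').1 z (hW₀ z hz).1).eq
  have hcomm : ∀ a ∈ A, ∀ y ∈ C, Commute a y := fun a ha y hy =>
    ((Subalgebra.mem_centralizer_iff ℝ).1 ha y hy).symm
  have hAC : A ≤ C := fun a ha =>
    (Subalgebra.mem_centralizer_iff ℝ).2 fun z hz => ((hcomm a ha z (hW₀C hz)).eq).symm
  have hW₀A : ∀ z ∈ W₀, z ∈ A := fun z hz => (Subalgebra.mem_centralizer_iff ℝ).2 fun y hy =>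
    ((Subalgebra.mem_centralizer_iff ℝ).1 hy z hz).symm
  have hCs : ∀ y ∈ C, star y ∈ C := fun y hy => (Subalgebra.mem_centralizer_iff ℝ).2 fun z hz => by
    have h := congrArg star ((Subalgebra.mem_centralizer_iff ℝ).1 hy z hz)
    rw [star_mul, star_mul, (hW₀ z hz).2] at h
    exact h.symm
  have hxC : ∀ l, ∀ g ∈ U, ∀ i, x l g i ∈ C := fun l g hg i =>
    (Subalgebra.mem_centralizer_iff ℝ).2 fun z hz => (hWx z (hW₀ z hz).1 l g hg i).eq
  have hP : ∀ l, ∀ g ∈ U, P l g ∈ A ∧ 0 ≤ P l g := fun l g hg =>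
    ⟨hW₀A _ ⟨l, g, hg, .inl rfl⟩, (hpos l g hg).1⟩
  have hP' : ∀ l, ∀ g ∈ U, P' l g ∈ A ∧ 0 ≤ P' l g := fun l g hg =>
    ⟨hW₀A _ ⟨l, g, hg, .inr (.inl rfl)⟩, (hpos l g hg).2.1⟩
  have hM : ∀ l, ∀ g ∈ U, Mj l g ∈ A ∧ 0 ≤ Mj l g ∧ P l g - P' l g ≤ Mj l g ∧
      P' l g - P l g ≤ Mj l g := fun l g hg =>
    ⟨hW₀A _ ⟨l, g, hg, .inr (.inr rfl)⟩, (hpos l g hg).2.2⟩
  have hP1 := fun l => (hsum l).1
  have hP'1 := fun l => (hsum l).2
  set s := (Finset.univ : Finset (Fin L)) ×ˢ U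
  have hmem : ∀ p ∈ s, p.2 ∈ U := fun p hp => (Finset.mem_product.1 hp).2
  have hw : ∀ p ∈ s, ladderW U P p ∈ A ∧ 0 ≤ ladderW U P p := fun p hp =>
    ladderW_mem hAC hcomm hP hP1 hp
  have hw' : ∀ p ∈ s, ladderW U P' p ∈ A ∧ 0 ≤ ladderW U P' p := fun p hp =>
    ladderW_mem hAC hcomm hP' hP'1 hp
  have hyC : ∀ i, ∀ p ∈ s, x p.1 p.2 i ∈ C := fun i p hp => hxC p.1 p.2 (hmem p hp) i
  have hy1 : ∀ i, ∀ p ∈ s, ‖x p.1 p.2 i‖ ≤ 1 := fun i p hp => ((hx p.1 p.2 (hmem p hp)).1 i).1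
  have hy0 : ∀ i, ∀ p ∈ s, x p.1 p.2 i * x p.1 p.2 i = 0 := fun i p hp =>
    ((hx p.1 p.2 (hmem p hp)).1 i).2
  have hS1 : ∑ p ∈ s, ladderW U P p ≤ 1 := by
    obtain ⟨h, h0, -⟩ := ladder_total hAC hcomm hP hP1
    exact h.trans_le (sub_le_self 1 h0)
  have hS1' : ∑ p ∈ s, ladderW U P' p ≤ 1 := by
    obtain ⟨h, h0, -⟩ := ladder_total hAC hcomm hP' hP'1
    exact h.trans_le (sub_le_self 1 h0)
  have hspread := ladder_spread_le hAC hcomm hP hP1 hCs hσ
    (fun l g hg i => ⟨hxC l g hg i, ((hx l g hg).1 i).1⟩) hb0 hRa hRb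
  have hL0 : (0 : ℝ) ≤ L * a := mul_nonneg (Nat.cast_nonneg L) ha0
  have hLb : (0 : ℝ) ≤ L ^ 2 * b := mul_nonneg (by positivity) hb0
  refine ⟨fun i => ?_, ?_⟩
  · have hY := weighted_norm_le hAC hcomm hw hCs (hyC i) hS1 (hy1 i)
    have hY' := weighted_norm_le hAC hcomm hw' hCs (hyC i) hS1' (hy1 i)
    have h1 := weighted_square_le hAC hcomm hw hCs (hyC i) hσ (hy0 i) hY
    have h2 := weighted_sub_le hAC hcomm hw hCs (hyC i) hσ hw'
      (fun p hp => ladderW_sub_le hAC hcomm hP hP1 hP' hP'1 hM hp) (hy1 i) hY hY'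
    have h3 := ladder_variation_le hσ hc0' hRc hRc'
    have h4 : (σ (spread s (ladderW U P) fun p => x p.1 p.2 i)).re ≤
        L * a + 24 * L ^ 2 * b :=
      (Finset.single_le_sum (fun j _ => trace_re_nonneg hσ
        (spread_nonneg hAC hcomm hw hCs (hyC j))) (Finset.mem_univ i)).trans hspread
    have h5 : (0 : ℝ) ≤ L * c + L ^ 2 * c' := by positivity
    rw [ladderY_eq, ladderY_eq]
    exact ⟨hY, by linarith, by linarith⟩
  · have h := ladder_defect_le hAC hcomm hP hP1 hCs hσ hxC fun l g hg => (hx l g hg).2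
    have h0 := trace_re_nonneg hσ (ladder_total hAC hcomm hP hP1).2.1
    linarith

end Vale.Agent.P095.Full.Tracial
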