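import Vale.Agent.P095.Full.Tracial.Specs
import Vale.Agent.P095.Full.Tracial.Basic

/-!
# P095, all amenable groups: the trace on the limit

The limit along an ultrafilter of good traces, as a trace on the limit of the `L²`-completions.
-/

noncomputable section

namespace Vale.Agent.P095.Full.Tracial

universe u v

open Filter Topology BoundedContinuousFunction Vale.Agent.P101 Vale.Agent.P095.Gamma
open scoped ComplexOrder

variable {B : Type u} [CStarAlgebra B] {τ : ℕ → B →ₗ[ℂ] ℂ}

/-- The values of the traces on a bounded sequence converge along an ultrafilter. -/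
theorem exists_tendsto_map (hτ : ∀ M, IsTrace B (τ M)) (U : Ultrafilter ℕ) (f : ℕ →ᵇ B) :
    ∃ z : ℂ, Tendsto (fun M => τ M (f M)) U (𝓝 z) := by
  have h : ((U.map fun M => τ M (f M) : Ultrafilter ℂ) : Filter ℂ) ≤
      𝓟 (Metric.closedBall 0 ‖f‖) := by
    rw [Ultrafilter.coe_map, le_principal_iff, Filter.mem_map]
    refine Filter.univ_mem' fun M => ?_
    simpa using ((hτ M).norm_map_le_norm _).trans (f.norm_coe_le_norm M)
  obtain ⟨z, -, hz⟩ := (isCompact_closedBall (0 : ℂ) ‖f‖).ultrafilter_le_nhds _ h
  exact ⟨z, hz⟩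

/-- Multiplicativity on two star subalgebras passes from their images to the closed algebras they
generate. -/
theorem map_mul_closedGen {C : Type*} [CStarAlgebra C] {D : Type*} [CStarAlgebra D]
    {σ : D →ₗ[ℂ] ℂ} (hc : Continuous σ) (q : C →⋆ₐ[ℂ] D) (K K' : StarSubalgebra ℂ C)
    (h : ∀ f ∈ K, ∀ g ∈ K', σ (q f * q g) = σ (q f) * σ (q g)) :
    ∀ d ∈ closedGen (q '' (K : Set C)), ∀ e ∈ closedGen (q '' (K' : Set C)),
      σ (d * e) = σ d * σ e := by
  have hle : ∀ K : StarSubalgebra ℂ C, (closedGen (q '' (K : Set C)) : Set D) ⊆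
      closure (q '' (K : Set C)) := by
    intro K x hx
    have h1 : closedGen (q '' (K : Set C)) ≤ (K.map q).topologicalClosure :=
      StarSubalgebra.topologicalClosure_mono (StarAlgebra.adjoin_le fun y hy => hy)
    exact h1 hx
  intro d hd e he
  have h1 : ∀ e ∈ q '' (K' : Set C), σ (d * e) = σ d * σ e := by
    rintro _ ⟨g, hg, rfl⟩
    refine Set.EqOn.closure (f := fun d => σ (d * q g)) (g := fun d => σ d * σ (q g))
      ?_ (hc.comp (continuous_id.mul continuous_const)) (hc.mul continuous_const) (hle K hd)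
    rintro _ ⟨f, hf, rfl⟩
    exact h f hf g hg
  exact Set.EqOn.closure (f := fun e => σ (d * e)) (g := fun e => σ d * σ e)
    h1 (hc.comp (continuous_const.mul continuous_id)) (continuous_const.mul hc) (hle K' he)

variable {G : Type v} [Group G]

/-- The trace on the limit, its positivity and its independence. -/
theorem limitStatement : LimitStatement.{u, v} := by
  intro B _ G _ S τ hτ U
  have hT : ∀ M, IsTrace B (τ M) := fun M => (hτ M).trace
  set q := limMk hT U with hq
  have hsurj : Function.Surjective q := quotStar_surjective _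
  choose l hl using exists_tendsto_map hT U
  have huniq : ∀ {f : ℕ →ᵇ B} {z : ℂ}, Tendsto (fun M => τ M (f M)) U (𝓝 z) → l f = z :=
    fun h => tendsto_nhds_unique (hl _) h
  have hadd : ∀ f g, l (f + g) = l f + l g := fun f g =>
    huniq (((hl f).add (hl g)).congr fun M => by simp)
  have hsmul : ∀ (c : ℂ) f, l (c • f) = c * l f := fun c f =>
    huniq (((hl f).const_mul c).congr fun M => by simp)
  have hker : ∀ {f g}, q f = q g → l f = l g := by
    intro f g h
    have hm : f - g ∈ limIdeal hT U :=
      (quotStar_eq_zero (limIdeal hT U)).1 (by rw [map_sub]; exact sub_eq_zero.2 h)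
    have h0 : Tendsto (fun M => τ M (f M) - τ M (g M)) U (𝓝 0) := by
      refine squeeze_zero_norm (fun M => ?_)
        (show Tendsto (fun M => l2 (τ M) ((f - g) M)) U (𝓝 0) from hm)
      rw [← map_sub]
      exact (hT M).norm_map_le _
    exact sub_eq_zero.1 (tendsto_nhds_unique ((hl f).sub (hl g)) h0)
  let σ : LimQuot hT U →ₗ[ℂ] ℂ :=
    { toFun := fun x => l (Function.surjInv hsurj x)
      map_add' := fun x y => by
        rw [← hadd]
        exact hker (by simp [Function.surjInv_eq])
      map_smul' := fun c x => by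
        rw [RingHom.id_apply, smul_eq_mul, ← hsmul]
        exact hker (by simp [Function.surjInv_eq]) }
  have hσ : ∀ f, σ (q f) = l f := fun f => hker (Function.surjInv_eq hsurj _)
  have htr : IsTrace (LimQuot hT U) σ := by
    refine ⟨fun x => ?_, ?_, fun x y => ?_⟩
    · obtain ⟨f, rfl⟩ := hsurj x
      rw [← map_star, ← map_mul, hσ]
      exact ge_of_tendsto' (hl _) fun M => (hT M).nonneg (f M)
    · rw [← map_one q, hσ]
      exact huniq (by simp [(hT _).map_one])
    · obtain ⟨f, rfl⟩ := hsurj x
      obtain ⟨g, rfl⟩ := hsurj y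
      rw [← map_mul, ← map_mul, hσ, hσ]
      exact huniq ((hl (g * f)).congr fun M => by
        rw [BoundedContinuousFunction.mul_apply, BoundedContinuousFunction.mul_apply]
        exact (hT M).comm _ _)
  refine ⟨σ, htr, fun f => (hσ f).symm ▸ hl f, fun f hf => ?_, fun P Q hPQ => ?_⟩
  · choose w hw using hf
    refine ⟨q (ofNormedAddCommGroupDiscrete w (‖f‖ + 1) fun M => ?_), ?_⟩
    · have h1 : ‖w M‖ * ‖w M‖ ≤ ‖f‖ := by
        rw [← CStarRing.norm_star_mul_self, ← hw M]
        exact f.norm_coe_le_norm M
      nlinarith [norm_nonneg (w M), norm_nonneg f]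
    · rw [← map_star, ← map_mul]
      congr 1
      ext M
      simpa using hw M
  · refine map_mul_closedGen htr.continuous q (S.seqAlg P) (S.seqAlg Q) fun f hf g hg => ?_
    rw [← map_mul, hσ, hσ, hσ]
    exact huniq (((hl f).mul (hl g)).congr fun M =>
      ((hτ M).map_mul (hPQ M) (hf M) (hg M)).symm)

end Vale.Agent.P095.Full.Tracial
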