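import Vale.Agent.P095.Full.Tracial.Specs
import Vale.Agent.P095.Full.Tracial.Basic

/-!
# P095, all amenable groups: sums over independent sites

Law of large numbers in the `L²` seminorm, smallness of the normalised commutator of two sums, and
second and fourth moments of sums of centred elements of distinct sites.
-/

noncomputable section

namespace Vale.Agent.P095.Full.Tracial

universe u v

open Finset Vale.Agent.P101 Vale.Agent.P095.Gamma

variable {B : Type u} [CStarAlgebra B] {G : Type v} [Group G]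

namespace Fam

variable (S : Fam B G) {τ : B →ₗ[ℂ] ℂ} {ι : Type*} {site : ι → Site}

theorem sum_mem_alg {a : ι → B} (ha : ∀ n, a n ∈ S.alg {site n}) (s : Finset ι) :
    ∑ n ∈ s, a n ∈ S.alg (site '' s) :=
  sum_mem fun n hn => S.alg_mono (Set.singleton_subset_iff.2 (Set.mem_image_of_mem site hn)) (ha n)

theorem commute_site (hinj : Function.Injective site) {a b : ι → B}
    (ha : ∀ n, a n ∈ S.alg {site n}) (hb : ∀ n, b n ∈ S.alg {site n}) {m n : ι} (h : m ≠ n) :
    Commute (a m) (b n) :=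
  (S.starCommute_alg (Set.disjoint_singleton.2 fun e => h (hinj e)) (ha m) (hb n)).1

variable {S}

/-- Sums over distinct sites are orthogonal. -/
theorem Good.map_sum_mul (hτ : S.Good τ) (hinj : Function.Injective site) {a b : ι → B}
    (ha : ∀ n, a n ∈ S.alg {site n}) (hb : ∀ n, b n ∈ S.alg {site n}) (h0 : ∀ n, τ (a n) = 0)
    (s : Finset ι) : τ ((∑ n ∈ s, a n) * ∑ n ∈ s, b n) = ∑ n ∈ s, τ (a n * b n) := by
  rw [sum_mul_sum, map_sum]
  refine sum_congr rfl fun m hm => ?_
  rw [map_sum, sum_eq_single_of_mem m hm]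
  intro n _ hnm
  rw [hτ.map_mul (Set.disjoint_singleton.2 fun e => hnm (hinj e).symm) (ha m) (hb n), h0,
    zero_mul]

/-- The `L²` seminorm of a sum of centred elements of distinct sites. -/
theorem Good.l2_sum_sq (hτ : S.Good τ) (hinj : Function.Injective site) {a : ι → B}
    (ha : ∀ n, a n ∈ S.alg {site n}) (h0 : ∀ n, τ (a n) = 0) (s : Finset ι) :
    l2 τ (∑ n ∈ s, a n) ^ 2 = ∑ n ∈ s, l2 τ (a n) ^ 2 := by
  rw [hτ.trace.l2_sq, star_sum, hτ.map_sum_mul hinj (fun n => star_mem (ha n)) ha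
    (fun n => by rw [hτ.trace.map_star, h0, map_zero]), Complex.re_sum]
  exact sum_congr rfl fun n _ => (hτ.trace.l2_sq _).symm

/-- A bound from the `L²` seminorms of the summands. -/
theorem Good.l2_sum_le_sqrt (hτ : S.Good τ) (hinj : Function.Injective site) {a : ι → B}
    (ha : ∀ n, a n ∈ S.alg {site n}) (h0 : ∀ n, τ (a n) = 0) {K : ℝ}
    (hK : ∀ n, l2 τ (a n) ≤ K) (hK0 : 0 ≤ K) (s : Finset ι) :
    l2 τ (∑ n ∈ s, a n) ≤ Real.sqrt s.card * K := by
  refine (sq_le_sq₀ (hτ.trace.l2_nonneg _) (by positivity)).1 ?_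
  rw [hτ.l2_sum_sq hinj ha h0, mul_pow, Real.sq_sqrt (Nat.cast_nonneg _)]
  refine (sum_le_sum fun n _ => pow_le_pow_left₀ (hτ.trace.l2_nonneg _) (hK n) 2).trans ?_
  simp

/-- The fourth moment of a sum of centred self-adjoint elements of distinct sites. -/
theorem Good.fourth_moment [DecidableEq ι] (hτ : S.Good τ) (hinj : Function.Injective site)
    {a : ι → B} (ha : ∀ n, a n ∈ S.alg {site n}) (h0 : ∀ n, τ (a n) = 0) {C : ℝ}
    (hC : ∀ n, ‖a n‖ ≤ C) (s : Finset ι) :
    ‖τ ((∑ n ∈ s, a n) * (∑ n ∈ s, a n) * ((∑ n ∈ s, a n) * ∑ n ∈ s, a n))‖ ≤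
      4 * (s.card : ℝ) ^ 2 * C ^ 4 := by
  induction s using Finset.induction_on with
  | empty => simp
  | insert i s hi ih =>
    rw [sum_insert hi, card_insert_of_notMem hi]
    set A := ∑ n ∈ s, a n with hA
    set w := a i with hw
    have hC0 : 0 ≤ C := (norm_nonneg _).trans (hC i)
    have hAm : A ∈ S.alg (site '' s) := S.sum_mem_alg ha s
    have hwm : w ∈ S.alg {site i} := ha i
    have hd : Disjoint (site '' s) {site i} := by
      rw [Set.disjoint_singleton_right]
      rintro ⟨n, hn, e⟩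
      exact hi (hinj e ▸ hn)
    have hc : w * A = A * w := (S.starCommute_alg hd hAm hwm).1.eq.symm
    have hc' : ∀ c, w * (A * c) = A * (w * c) := fun c => by rw [← mul_assoc, hc, mul_assoc]
    have m := fun x y (hx : x ∈ S.alg (site '' s)) (hy : y ∈ S.alg {site i}) =>
      hτ.map_mul hd hx hy
    have e : (w + A) * (w + A) * ((w + A) * (w + A)) =
        A * A * (A * A) + (4 : ℂ) • (A * A * A * w) + (6 : ℂ) • (A * A * (w * w)) +
          (4 : ℂ) • (A * (w * w * w)) + w * w * (w * w) := by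
      simp only [add_mul, mul_add, mul_assoc, hc, hc']
      module
    have hAA := mul_mem hAm hAm
    have hww := mul_mem hwm hwm
    have hτA : τ A = 0 := by rw [hA, map_sum]; simp [h0]
    rw [e]
    simp only [map_add, map_smul, smul_eq_mul, m _ _ (mul_mem hAA hAm) hwm, m _ _ hAA hww,
      m _ _ hAm (mul_mem hww hwm), hτA, show τ w = 0 from h0 i, mul_zero, zero_mul, add_zero]
    have h2 : ‖τ (A * A)‖ ≤ s.card * C ^ 2 := by
      rw [hA, hτ.map_sum_mul hinj ha ha h0]
      refine (norm_sum_le _ _).trans ((sum_le_sum fun n _ => ?_).trans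
        (by rw [sum_const, nsmul_eq_mul]))
      exact ((hτ.trace.norm_map_le_norm _).trans (norm_mul_le _ _)).trans
        (by rw [sq]; exact mul_le_mul (hC n) (hC n) (norm_nonneg _) hC0)
    have hw2 : ‖w * w‖ ≤ C ^ 2 := (norm_mul_le _ _).trans
      (by rw [sq]; exact mul_le_mul (hC i) (hC i) (norm_nonneg _) hC0)
    have hw2' : ‖τ (w * w)‖ ≤ C ^ 2 := (hτ.trace.norm_map_le_norm _).trans hw2
    have hw4 : ‖τ (w * w * (w * w))‖ ≤ C ^ 4 :=
      ((hτ.trace.norm_map_le_norm _).trans (norm_mul_le _ _)).trans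
        (by rw [show C ^ 4 = C ^ 2 * C ^ 2 by ring]
            exact mul_le_mul hw2 hw2 (norm_nonneg _) (sq_nonneg C))
    refine (norm_add_le _ _).trans ((add_le_add (norm_add_le _ _) hw4).trans ?_)
    rw [norm_mul, norm_mul, show ‖(6 : ℂ)‖ = 6 by norm_num]
    have h6 : ‖τ (A * A)‖ * ‖τ (w * w)‖ ≤ s.card * C ^ 2 * C ^ 2 :=
      mul_le_mul h2 hw2' (norm_nonneg _) (by positivity)
    push_cast
    nlinarith [ih, h6, pow_nonneg hC0 4, mul_nonneg (Nat.cast_nonneg (α := ℝ) s.card) (pow_nonneg hC0 4)]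

end Fam

/-- Sums over independent sites. -/
theorem momentStatement : MomentStatement.{u, v} := by
  classical
  intro B _ G _ S τ hτ M hM site hinj C a b hab
  have ha : ∀ n, a n ∈ S.alg {site n} := fun n => (hab n).1
  have hb : ∀ n, b n ∈ S.alg {site n} := fun n => (hab n).2.2.1
  have hC : ∀ n, ‖a n‖ ≤ C := fun n => (hab n).2.1
  have hC' : ∀ n, ‖b n‖ ≤ C := fun n => (hab n).2.2.2
  have hC0 : 0 ≤ C := (norm_nonneg _).trans (hC ⟨0, hM⟩)
  have hM0 : (0 : ℝ) < M := by exact_mod_cast hM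
  have hinv : ‖(M : ℂ)⁻¹‖ = (M : ℝ)⁻¹ := by simp
  have hsqrt : ∀ K : ℝ, (M : ℝ)⁻¹ * (Real.sqrt M * K) = K / Real.sqrt M := fun K => by
    have h := Real.mul_self_sqrt hM0.le
    field_simp
    linear_combination K * h
  refine ⟨?_, ?_, fun h0 => ⟨?_, fun hsa => ?_⟩⟩
  · have hc : ∀ n, a n - τ (a n) • (1 : B) ∈ S.alg {site n} :=
      fun n => sub_mem (ha n) (SMulMemClass.smul_mem _ (one_mem _))
    have h0 : ∀ n, τ (a n - τ (a n) • (1 : B)) = 0 := fun n => by
      simp [hτ.trace.map_one]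
    have hK : ∀ n, l2 τ (a n - τ (a n) • (1 : B)) ≤ 2 * C := fun n => by
      refine ((hτ.trace.l2_le_norm _).trans (norm_sub_le _ _)).trans ?_
      rcases subsingleton_or_nontrivial B with hB | hB
      · simp [Subsingleton.elim (τ (a n) • (1 : B)) 0, Subsingleton.elim (a n) 0, hC0]
      · rw [norm_smul, norm_one, mul_one]
        linarith [hC n, (hτ.trace.norm_map_le_norm (a n)).trans (hC n)]
    have e : (M : ℂ)⁻¹ • ∑ n, a n - ((M : ℂ)⁻¹ * ∑ n, τ (a n)) • (1 : B) =
        (M : ℂ)⁻¹ • ∑ n, (a n - τ (a n) • (1 : B)) := by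
      rw [sum_sub_distrib, ← sum_smul, smul_sub, smul_smul]
    rw [e, hτ.trace.l2_smul, hinv, ← hsqrt]
    refine mul_le_mul_of_nonneg_left ?_ (by positivity)
    simpa using hτ.l2_sum_le_sqrt hinj hc h0 hK (by positivity) univ
  · have e : (∑ n, a n) * (∑ n, b n) - (∑ n, b n) * (∑ n, a n) =
        ∑ n, (a n * b n - b n * a n) := by
      rw [sum_mul_sum, sum_mul_sum, sum_comm (f := fun i j => b i * a j), ← sum_sub_distrib]
      refine sum_congr rfl fun m _ => ?_
      rw [← sum_sub_distrib, sum_eq_single m]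
      · exact fun n _ hnm => sub_eq_zero.2 (S.commute_site hinj ha hb (Ne.symm hnm)).eq
      · exact fun h => absurd (mem_univ m) h
    have h0 : ∀ n, τ (a n * b n - b n * a n) = 0 := fun n => by
      rw [map_sub, hτ.trace.comm, sub_self]
    have hK : ∀ n, l2 τ (a n * b n - b n * a n) ≤ 2 * C ^ 2 := fun n => by
      refine ((hτ.trace.l2_le_norm _).trans (norm_sub_le _ _)).trans ?_
      have h1 := (norm_mul_le (a n) (b n)).trans (mul_le_mul (hC n) (hC' n) (norm_nonneg _) hC0)
      have h2 := (norm_mul_le (b n) (a n)).trans (mul_le_mul (hC' n) (hC n) (norm_nonneg _) hC0)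
      linarith
    rw [e, hτ.trace.l2_smul, hinv, ← hsqrt]
    refine mul_le_mul_of_nonneg_left ?_ (by positivity)
    simpa using hτ.l2_sum_le_sqrt hinj (fun n => sub_mem (mul_mem (ha n) (hb n))
      (mul_mem (hb n) (ha n))) h0 hK (by positivity) univ
  · rw [map_smul, smul_eq_mul, star_sum,
      hτ.map_sum_mul hinj (fun n => star_mem (ha n)) ha
        (fun n => by rw [hτ.trace.map_star, h0, map_zero])]
  · rw [hτ.trace.l2_smul, hinv, inv_mul_le_iff₀ hM0]
    refine Real.sqrt_le_iff.2 ⟨by positivity, ?_⟩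
    have hs : star (∑ n, a n) = ∑ n, a n := by rw [star_sum]; exact sum_congr rfl fun n _ => hsa n
    rw [star_mul, hs]
    refine (Complex.re_le_norm _).trans ((hτ.fourth_moment hinj ha h0 hC univ).trans (le_of_eq ?_))
    rw [card_univ, Fintype.card_fin]
    ring

end Vale.Agent.P095.Full.Tracial
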