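import Vale.Agent.P095.Full.Tracial.Specs

/-!
# P095, all amenable groups: the bounded substitute for the identity

`ratFn t = t / (1 + t ^ 2)` is the mean of the two resolvents `(t ± i)⁻¹`.
-/

noncomputable section

namespace Vale.Agent.P095.Full.Tracial

universe u

open Vale.Agent.P095.Gamma

variable {B : Type u} [CStarAlgebra B]

/-- The two resolvents of a self-adjoint element: contractions whose mean is `ratFn a`. -/
theorem exists_resolvents {a : B} (ha : IsSelfAdjoint a) :
    ∃ X : Bool → B, rcalc ratFn a = (1 / 2 : ℂ) • (X true + X false) ∧ ∀ s, ‖X s‖ ≤ 1 ∧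
      X s * (a + (if s then Complex.I else -Complex.I) • (1 : B)) = 1 ∧
      (a + (if s then Complex.I else -Complex.I) • (1 : B)) * X s = 1 := by
  have hsn := ha.isStarNormal
  set c : Bool → ℂ := fun s => if s then Complex.I else -Complex.I with hc
  have hne : ∀ (s : Bool), ∀ x ∈ spectrum ℂ a, x + c s ≠ 0 := fun s x hx h => by
    have h1 := congrArg Complex.im h
    rw [ha.mem_spectrum_eq_re hx] at h1
    cases s <;> simp [hc] at h1
  have hco : ∀ s, ContinuousOn (fun x : ℂ => (x + c s)⁻¹) (spectrum ℂ a) := fun s =>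
    (continuousOn_id.add continuousOn_const).inv₀ (hne s)
  have hlin : ∀ s, cfc (fun x : ℂ => x + c s) a = a + c s • (1 : B) := fun s => by
    rw [cfc_add_const (c s) (fun x : ℂ => x) a, cfc_id' ℂ a, Algebra.algebraMap_eq_smul_one]
  refine ⟨fun s => cfc (fun x : ℂ => (x + c s)⁻¹) a, ?_, fun s => ⟨?_, ?_, ?_⟩⟩
  · rw [rcalc, cfc_real_eq_complex _ (ha := ha), ← cfc_add (a := a) _ _ (hco true) (hco false),
      ← cfc_smul (1 / 2 : ℂ) (fun x : ℂ => (x + c true)⁻¹ + (x + c false)⁻¹) a
        ((hco true).add (hco false))]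
    refine cfc_congr fun x hx => ?_
    have h1 := hne true x hx
    have h2 := hne false x hx
    have hsq : (x.re : ℂ) ^ 2 + 1 = (x + c true) * (x + c false) := by
      conv_rhs => rw [ha.mem_spectrum_eq_re hx]
      simp only [hc, ↓reduceIte, Bool.false_eq_true]
      linear_combination Complex.I_sq
    have h3 : (x.re : ℂ) ^ 2 + 1 ≠ 0 := hsq ▸ mul_ne_zero h1 h2
    rw [smul_eq_mul, inv_eq_one_div, inv_eq_one_div, div_add_div _ _ h1 h2, ← hsq, ratFn]
    push_cast
    rw [add_comm (1 : ℂ) ((x.re : ℂ) ^ 2)]
    simp only [hc, ↓reduceIte, Bool.false_eq_true]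
    rw [← ha.mem_spectrum_eq_re hx]
    field_simp
    ring
  · refine norm_cfc_le zero_le_one fun x hx => ?_
    rw [norm_inv]
    refine inv_le_one_of_one_le₀ (le_trans ?_ (Complex.abs_im_le_norm _))
    rw [ha.mem_spectrum_eq_re hx]
    cases s <;> simp [hc]
  · show cfc (fun x : ℂ => (x + c s)⁻¹) a * (a + c s • (1 : B)) = 1
    rw [← hlin, ← cfc_mul _ _ a (hco s) (by fun_prop), ← cfc_const_one ℂ a]
    exact cfc_congr fun x hx => inv_mul_cancel₀ (hne s x hx)
  · show (a + c s • (1 : B)) * cfc (fun x : ℂ => (x + c s)⁻¹) a = 1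
    rw [← hlin, ← cfc_mul _ _ a (by fun_prop) (hco s), ← cfc_const_one ℂ a]
    exact cfc_congr fun x hx => mul_inv_cancel₀ (hne s x hx)

/-- The commutator with a resolvent. -/
theorem resolvent_comm {a c X : B} (k : ℂ) (h1 : X * (a + k • (1 : B)) = 1)
    (h2 : (a + k • (1 : B)) * X = 1) : c * X - X * c = X * (a * c - c * a) * X := by
  have e : a * c - c * a = (a + k • (1 : B)) * c - c * (a + k • (1 : B)) := by
    simp only [add_mul, mul_add, smul_mul_assoc, mul_smul_comm, one_mul, mul_one]
    abel
  rw [e, mul_sub, sub_mul, ← mul_assoc, h1, one_mul, mul_assoc X (c * _) X, mul_assoc c, h2,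
    mul_one]

/-- The bounded substitute for the identity. -/
theorem ratStatement : RatStatement.{u} := by
  intro B _ a ha
  have hsa : IsSelfAdjoint a := ha
  obtain ⟨X, hX, hXp⟩ := exists_resolvents hsa
  have hnorm : ‖rcalc ratFn a‖ ≤ 1 / 2 := norm_cfc_le (by norm_num) fun t _ => by
    rw [Real.norm_eq_abs, ratFn, abs_div, abs_of_pos (show (0 : ℝ) < 1 + t ^ 2 by positivity),
      div_le_iff₀ (by positivity)]
    nlinarith [sq_nonneg (|t| - 1), sq_abs t]
  have hstar : star (rcalc ratFn a) = rcalc ratFn a := (cfc_predicate ratFn a : IsSelfAdjoint _)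
  refine ⟨hnorm, hstar, fun c => ?_, fun τ hτ => ⟨?_, fun b hb => ?_⟩⟩
  · have hb : ∀ s, ‖c * X s - X s * c‖ ≤ ‖c * a - a * c‖ := fun s => by
      rw [resolvent_comm _ (hXp s).2.1 (hXp s).2.2, norm_sub_rev (c * a)]
      refine norm_mul₃_le.trans ?_
      calc ‖X s‖ * ‖a * c - c * a‖ * ‖X s‖ ≤ 1 * ‖a * c - c * a‖ * 1 := by
            have := (hXp s).1
            gcongr
        _ = ‖a * c - c * a‖ := by ring
    rw [hX, show c * ((1 / 2 : ℂ) • (X true + X false)) - (1 / 2 : ℂ) • (X true + X false) * c =
      (1 / 2 : ℂ) • ((c * X true - X true * c) + (c * X false - X false * c)) by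
        simp only [mul_smul_comm, smul_mul_assoc, mul_add, add_mul, ← smul_sub]; congr 1; abel,
      norm_smul]
    have h1 := norm_add_le (c * X true - X true * c) (c * X false - X false * c)
    norm_num
    linarith [hb true, hb false]
  · have hcube : rcalc ratFn a - a = -(rcalc ratFn a * (a * a)) := by
      have hcont : Continuous ratFn :=
        continuous_id.div (by fun_prop) fun t => ne_of_gt (by positivity)
      unfold rcalc
      conv_lhs => arg 2; rw [← cfc_id' ℝ a hsa]
      conv_rhs => arg 1; arg 2; rw [← cfc_id' ℝ a hsa]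
      rw [← cfc_mul _ _ a (by fun_prop) (by fun_prop), ← cfc_mul _ _ a hcont.continuousOn (by fun_prop),
        ← cfc_sub _ _ a hcont.continuousOn (by fun_prop), ← cfc_neg _ a]
      refine cfc_congr fun t _ => ?_
      have : (1 : ℝ) + t ^ 2 ≠ 0 := ne_of_gt (by positivity)
      simp only [ratFn]
      field_simp
      ring
    rw [hcube, hτ.l2_neg]
    exact (hτ.l2_mul_le _ _).trans
      ((mul_le_mul_of_nonneg_right hnorm (hτ.l2_nonneg _)).trans_eq (by ring))
  · obtain ⟨Y, hY, hYp⟩ := exists_resolvents (a := b) hb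
    have hs : ∀ s t, l2 τ (X s * Y t - Y t * X s) ≤ l2 τ (a * b - b * a) := fun s t => by
      have e : X s * Y t - Y t * X s = (Y t * X s) * (a * b - b * a) * (X s * Y t) := by
        rw [resolvent_comm _ (hYp t).2.1 (hYp t).2.2, resolvent_comm _ (hXp s).2.1 (hXp s).2.2]
        simp only [mul_assoc]
      rw [e]
      refine (hτ.l2_mul_le' _ _).trans ?_
      refine (mul_le_mul (hτ.l2_mul_le _ _) (norm_mul_le _ _) (norm_nonneg _)
        (mul_nonneg (norm_nonneg _) (hτ.l2_nonneg _))).trans ?_
      have h1 := (hXp s).1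
      have h2 := (hYp t).1
      calc ‖Y t * X s‖ * l2 τ (a * b - b * a) * (‖X s‖ * ‖Y t‖)
          ≤ 1 * l2 τ (a * b - b * a) * (1 * 1) := by
            gcongr
            · exact mul_nonneg zero_le_one (hτ.l2_nonneg _)
            · exact hτ.l2_nonneg _
            · exact (norm_mul_le _ _).trans (mul_le_one₀ h2 (norm_nonneg _) h1)
        _ = l2 τ (a * b - b * a) := by ring
    rw [hX, hY, show (1 / 2 : ℂ) • (X true + X false) * ((1 / 2 : ℂ) • (Y true + Y false)) -
        (1 / 2 : ℂ) • (Y true + Y false) * ((1 / 2 : ℂ) • (X true + X false)) =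
      (1 / 4 : ℂ) • (((X true * Y true - Y true * X true) + (X true * Y false - Y false * X true)) +
        ((X false * Y true - Y true * X false) + (X false * Y false - Y false * X false))) by
        simp only [mul_smul_comm, smul_mul_assoc, mul_add, add_mul]
        module, hτ.l2_smul]
    have h1 := hτ.l2_add_le (X true * Y true - Y true * X true) (X true * Y false - Y false * X true)
    have h2 := hτ.l2_add_le (X false * Y true - Y true * X false) (X false * Y false - Y false * X false)
    have h3 := hτ.l2_add_le ((X true * Y true - Y true * X true) + (X true * Y false - Y false * X true))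
      ((X false * Y true - Y true * X false) + (X false * Y false - Y false * X false))
    norm_num
    linarith [hs true true, hs true false, hs false true, hs false false]

end Vale.Agent.P095.Full.Tracial
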