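import Vale.Agent.P095.Full.Tracial.Model
import Vale.Agent.P095.Gamma.SqrtTrace
import Vale.Agent.P095.Full.Tracial.Specs

/-!
# P095, all amenable groups: the weights of one replica

All the objects of a replica live in one commutative algebra, so every estimate is a pointwise
inequality between real functions followed by a positive functional.
-/

noncomputable section

namespace Vale.Agent.P095.Full.Tracial

universe u v

open Vale.Agent.P095.Gamma
open scoped symmDiff

section Scalar

variable (K m : ℕ)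

theorem levelRamp_nonneg (a t : ℝ) : 0 ≤ levelRamp a t := le_max_left _ _

theorem levelRamp_le_one (a t : ℝ) : levelRamp a t ≤ 1 := max_le zero_le_one (min_le_left _ _)

theorem levelRamp_eq_zero {a t : ℝ} (h : t ≤ a) : levelRamp a t = 0 :=
  max_eq_left ((min_le_right _ _).trans (by linarith))

theorem levelRamp_mono {a t s : ℝ} (h : t ≤ s) : levelRamp a t ≤ levelRamp a s :=
  max_le_max le_rfl (min_le_min le_rfl (by linarith))

theorem levelRamp_mul_one_sub_le (a t : ℝ) :
    levelRamp a t * (1 - levelRamp a t) ≤ levelRamp a t - levelRamp (a + 1) t := by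
  rcases le_total (a + 1) t with h | h
  · have e : levelRamp a t = 1 := by
      rw [levelRamp, min_eq_left (by linarith), max_eq_right zero_le_one]
    rw [e]
    linarith [levelRamp_le_one (a + 1) t]
  · rw [levelRamp_eq_zero h, sub_zero]
    nlinarith [levelRamp_nonneg a t]

theorem sum_levelRamp (t : ℝ) :
    ∑ a : Fin m, levelRamp ((K + a : ℕ) : ℝ) t = max 0 (min (m : ℝ) (t - K)) := by
  rw [Fin.sum_univ_eq_sum_range fun a => levelRamp ((K + a : ℕ) : ℝ) t]
  induction m with
  | zero => simp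
  | succ n ih =>
    rw [Finset.sum_range_succ, ih, levelRamp]
    push_cast
    rcases le_total (t - K) n with h | h
    · rw [min_eq_right h, min_eq_right (by linarith : t - K ≤ (n : ℝ) + 1),
        max_eq_left ((min_le_right _ _).trans (by linarith : t - (K + n) ≤ 0))]
      simp
    · have hn : (0 : ℝ) ≤ n := Nat.cast_nonneg n
      rw [min_eq_left h, max_eq_right hn]
      rcases le_total (t - K) (n + 1) with h' | h'
      · rw [min_eq_right h', min_eq_right (by linarith), max_eq_right (by linarith),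
          max_eq_right (by linarith)]
        ring
      · rw [min_eq_left h', min_eq_left (by linarith), max_eq_right zero_le_one,
          max_eq_right (by linarith)]

variable {K m}

theorem levelWeight_nonneg (a : ℕ) (t : ℝ) : 0 ≤ levelWeight K a t :=
  div_nonneg (levelRamp_nonneg _ _) ((Nat.cast_nonneg K).trans (le_max_right _ _))

theorem levelWeight_mul_self (hK : 0 < K) (a : ℕ) (t : ℝ) :
    levelWeight K a t * t = levelRamp ((K + a : ℕ) : ℝ) t := by
  rcases le_total t K with h | h
  · rw [levelWeight, levelRamp_eq_zero (h.trans (by exact_mod_cast Nat.le_add_right K a)),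
      zero_div, zero_mul]
  · have h0 : 0 < t := lt_of_lt_of_le (by exact_mod_cast hK) h
    rw [levelWeight, max_eq_left h, div_mul_cancel₀ _ h0.ne']

theorem continuous_levelRamp (a : ℝ) : Continuous (levelRamp a) := by
  unfold levelRamp
  fun_prop

theorem continuous_levelWeight (hK : 0 < K) (a : ℕ) : Continuous (levelWeight K a) :=
  (continuous_levelRamp _).div (by fun_prop) fun t =>
    (lt_of_lt_of_le (by exact_mod_cast hK : (0 : ℝ) < K) (le_max_right t _)).ne'

theorem sum_levelRamp_le (t : ℝ) (ht : 0 ≤ t) :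
    ∑ a : Fin m, levelRamp ((K + a : ℕ) : ℝ) t ≤ t := by
  rw [sum_levelRamp]
  exact max_le ht ((min_le_right _ _).trans (by linarith [(Nat.cast_nonneg K : (0 : ℝ) ≤ K)]))

theorem sum_levelRamp_le_max (t : ℝ) :
    ∑ a : Fin m, levelRamp ((K + a : ℕ) : ℝ) t ≤ max t K := by
  rw [sum_levelRamp]
  exact max_le ((Nat.cast_nonneg K).trans (le_max_right _ _))
    ((min_le_right _ _).trans (by linarith [le_max_left t (K : ℝ),
      (Nat.cast_nonneg K : (0 : ℝ) ≤ K)]))

theorem le_sum_levelRamp (t : ℝ) (ht : 0 ≤ t) (htm : t ≤ m) :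
    t - Real.sqrt K * Real.sqrt t ≤ ∑ a : Fin m, levelRamp ((K + a : ℕ) : ℝ) t := by
  rw [sum_levelRamp, min_eq_right (by linarith [(Nat.cast_nonneg K : (0 : ℝ) ≤ K)])]
  rcases le_total t K with h | h
  · refine le_trans ?_ (le_max_left _ _)
    nlinarith [Real.mul_self_sqrt ht, Real.sqrt_nonneg t, Real.sqrt_le_sqrt h]
  · refine le_trans ?_ (le_max_right _ _)
    nlinarith [Real.mul_self_sqrt (Nat.cast_nonneg K : (0 : ℝ) ≤ K), Real.sqrt_nonneg (K : ℝ),
      Real.sqrt_le_sqrt h]

theorem sum_ramp_gap_le (hK : 0 < K) (t : ℝ) (ht : 0 ≤ t) :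
    ∑ a : Fin m, levelRamp ((K + a : ℕ) : ℝ) t * (1 - levelRamp ((K + a : ℕ) : ℝ) t) ≤ t / K := by
  have hK' : (0 : ℝ) < K := by exact_mod_cast hK
  rcases le_total t K with h | h
  · refine le_trans (Finset.sum_nonpos fun a _ => ?_) (by positivity)
    rw [levelRamp_eq_zero (h.trans (by exact_mod_cast Nat.le_add_right K a)), zero_mul]
  · refine le_trans ?_ ((one_le_div hK').2 h)
    have e := Finset.sum_range_sub' (fun n : ℕ => levelRamp ((K + n : ℕ) : ℝ) t) m
    rw [← Fin.sum_univ_eq_sum_range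
      fun n : ℕ => levelRamp ((K + n : ℕ) : ℝ) t - levelRamp ((K + (n + 1) : ℕ) : ℝ) t] at e
    refine (Finset.sum_le_sum fun a _ => ?_).trans (e.trans_le
      (by linarith [levelRamp_le_one ((K + 0 : ℕ) : ℝ) t, levelRamp_nonneg ((K + m : ℕ) : ℝ) t]))
    have := levelRamp_mul_one_sub_le ((K + a : ℕ) : ℝ) t
    rw [show ((K + ((a : ℕ) + 1) : ℕ) : ℝ) = ((K + a : ℕ) : ℝ) + 1 by push_cast; ring]
    exact this

theorem sum_levelWeight_le (hK : 0 < K) (t : ℝ) : ∑ a : Fin m, levelWeight K a t ≤ 1 := by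
  have h0 : (0 : ℝ) < max t K := lt_of_lt_of_le (by exact_mod_cast hK) (le_max_right _ _)
  simp only [levelWeight]
  rw [← Finset.sum_div, div_le_one h0]
  exact sum_levelRamp_le_max t

theorem sum_levelWeight_sq_le (hK : 0 < K) (t : ℝ) :
    ∑ a : Fin m, levelWeight K a t * levelWeight K a t ≤ 1 / max t K := by
  have h0 : (0 : ℝ) < max t K := lt_of_lt_of_le (by exact_mod_cast hK) (le_max_right _ _)
  refine le_trans (Finset.sum_le_sum fun a _ => mul_le_mul_of_nonneg_left
    (div_le_div_of_nonneg_right (levelRamp_le_one _ _) h0.le) (levelWeight_nonneg _ _)) ?_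
  rw [← Finset.sum_mul]
  exact mul_le_of_le_one_left (by positivity) (sum_levelWeight_le hK t)

theorem levelWeight_lip (hK : 0 < K) {C t s : ℝ} (_hC : 0 ≤ C) (hCt : C ≤ t) (hCs : C ≤ s)
    (htm : t ≤ m) (hsm : s ≤ m) :
    C * ∑ a : Fin m, |levelWeight K a t - levelWeight K a s| ≤ 2 * |t - s| := by
  wlog hts : t ≤ s generalizing t s
  · rw [abs_sub_comm t s]
    simp_rw [abs_sub_comm (levelWeight K _ t)]
    exact this hCs hCt hsm htm (le_of_not_ge hts)
  have hK' : (0 : ℝ) < K := by exact_mod_cast hK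
  set Mt := max t (K : ℝ) with hMt
  set Ms := max s (K : ℝ) with hMs
  have hMt0 : 0 < Mt := lt_of_lt_of_le hK' (le_max_right _ _)
  have hMs0 : 0 < Ms := lt_of_lt_of_le hK' (le_max_right _ _)
  have hM : Mt ≤ Ms := max_le_max hts le_rfl
  have hMd : Ms - Mt ≤ s - t := by
    rcases le_total s K with h | h
    · rw [hMs, hMt, max_eq_right h, max_eq_right (hts.trans h)]; linarith
    · rw [hMs, hMt, max_eq_left h]; linarith [le_max_left t (K : ℝ)]
  have hterm : ∀ a : Fin m, |levelWeight K a t - levelWeight K a s| ≤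
      (levelRamp ((K + a : ℕ) : ℝ) s - levelRamp ((K + a : ℕ) : ℝ) t) / Ms +
        levelRamp ((K + a : ℕ) : ℝ) t * ((Ms - Mt) / (Mt * Ms)) := by
    intro a
    set pt := levelRamp ((K + a : ℕ) : ℝ) t
    set ps := levelRamp ((K + a : ℕ) : ℝ) s
    have e : levelWeight K a t - levelWeight K a s =
        -((ps - pt) / Ms) + pt * ((Ms - Mt) / (Mt * Ms)) := by
      show pt / Mt - ps / Ms = _
      field_simp
      ring
    rw [e]
    refine (abs_add_le _ _).trans ?_
    rw [abs_neg, abs_of_nonneg (div_nonneg (sub_nonneg.2 (levelRamp_mono hts)) hMs0.le),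
      abs_of_nonneg (mul_nonneg (levelRamp_nonneg _ _)
        (div_nonneg (sub_nonneg.2 hM) (mul_pos hMt0 hMs0).le))]
  have hsum : ∑ a : Fin m, |levelWeight K a t - levelWeight K a s| ≤ 2 * (s - t) / Ms := by
    refine (Finset.sum_le_sum fun a _ => hterm a).trans ?_
    rw [Finset.sum_add_distrib, ← Finset.sum_div, Finset.sum_sub_distrib, ← Finset.sum_mul]
    have h1 : (∑ a : Fin m, levelRamp ((K + a : ℕ) : ℝ) s) -
        ∑ a : Fin m, levelRamp ((K + a : ℕ) : ℝ) t ≤ s - t := by
      rw [sum_levelRamp, sum_levelRamp, min_eq_right (by linarith [hK'] : s - (K : ℝ) ≤ m),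
        min_eq_right (by linarith [hK'] : t - (K : ℝ) ≤ m), sub_le_iff_le_add]
      exact max_le (add_nonneg (by linarith) (le_max_left _ _))
        (by linarith [le_max_right (0 : ℝ) (t - K)])
    have h2 : (∑ a : Fin m, levelRamp ((K + a : ℕ) : ℝ) t) * ((Ms - Mt) / (Mt * Ms)) ≤
        Mt * ((s - t) / (Mt * Ms)) :=
      mul_le_mul (sum_levelRamp_le_max t) (div_le_div_of_nonneg_right hMd (by positivity))
        (div_nonneg (sub_nonneg.2 hM) (by positivity)) hMt0.le
    rw [show Mt * ((s - t) / (Mt * Ms)) = (s - t) / Ms by field_simp] at h2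
    have h3 := div_le_div_of_nonneg_right h1 hMs0.le
    rw [show 2 * (s - t) / Ms = (s - t) / Ms + (s - t) / Ms by ring]
    linarith
  rw [abs_sub_comm, abs_of_nonneg (sub_nonneg.2 hts)]
  calc C * ∑ a : Fin m, |levelWeight K a t - levelWeight K a s|
      ≤ Ms * (2 * (s - t) / Ms) := mul_le_mul (hCs.trans (le_max_left _ _)) hsum
        (Finset.sum_nonneg fun a _ => abs_nonneg _) hMs0.le
    _ = 2 * (s - t) := by field_simp

end Scalar

/-- The pointwise bound for the change of the weights from `F` to `F'`. -/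
theorem levelWeight_change {ι : Type*} [DecidableEq ι] {K m : ℕ} (hK : 0 < K) (F F' : Finset ι)
    (q : ι → ℝ) (hq : ∀ g ∈ F ∪ F', 0 ≤ q g) (hF : ∑ g ∈ F, q g ≤ m) (hF' : ∑ g ∈ F', q g ≤ m) :
    ∑ a : Fin m, ∑ g ∈ F ∪ F', |(if g ∈ F then levelWeight K a (∑ k ∈ F, q k) * q g else 0) -
        (if g ∈ F' then levelWeight K a (∑ k ∈ F', q k) * q g else 0)| ≤
      3 * ∑ g ∈ F ∆ F', q g := by
  set t := ∑ g ∈ F, q g with ht
  set s := ∑ g ∈ F', q g with hs
  set C := ∑ g ∈ F ∩ F', q g with hC
  set A := ∑ g ∈ F \ F', q g with hA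
  set B := ∑ g ∈ F' \ F, q g with hB
  have hC0 : 0 ≤ C := Finset.sum_nonneg fun g hg =>
    hq g (Finset.mem_union_left _ (Finset.mem_inter.1 hg).1)
  have hA0 : 0 ≤ A := Finset.sum_nonneg fun g hg =>
    hq g (Finset.mem_union_left _ (Finset.mem_sdiff.1 hg).1)
  have hB0 : 0 ≤ B := Finset.sum_nonneg fun g hg =>
    hq g (Finset.mem_union_right _ (Finset.mem_sdiff.1 hg).1)
  have htC : t = C + A := by rw [ht, hC, hA, Finset.sum_inter_add_sum_sdiff]
  have hsC : s = C + B := by rw [hs, hC, hB, Finset.inter_comm, Finset.sum_inter_add_sum_sdiff]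
  have hAB : ∑ g ∈ F ∆ F', q g = A + B := by
    rw [symmDiff_def, Finset.sup_eq_union, Finset.sum_union disjoint_sdiff_sdiff]
  have hterm : ∀ a : Fin m, (∑ g ∈ F ∪ F', |(if g ∈ F then levelWeight K a t * q g else 0) -
      (if g ∈ F' then levelWeight K a s * q g else 0)|) =
      C * |levelWeight K a t - levelWeight K a s| + (A * levelWeight K a t +
        B * levelWeight K a s) := by
    intro a
    rw [← Finset.union_sdiff_self_eq_union, Finset.sum_union Finset.disjoint_sdiff,
      ← Finset.sum_inter_add_sum_sdiff F F', add_assoc, hC, hA, hB, Finset.sum_mul,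
      Finset.sum_mul, Finset.sum_mul]
    refine congrArg₂ (· + ·) (Finset.sum_congr rfl fun g hg => ?_)
      (congrArg₂ (· + ·) (Finset.sum_congr rfl fun g hg => ?_)
        (Finset.sum_congr rfl fun g hg => ?_))
    · obtain ⟨h1, h2⟩ := Finset.mem_inter.1 hg
      rw [if_pos h1, if_pos h2, ← sub_mul, abs_mul,
        abs_of_nonneg (hq g (Finset.mem_union_left _ h1)), mul_comm]
    · obtain ⟨h1, h2⟩ := Finset.mem_sdiff.1 hg
      rw [if_pos h1, if_neg h2, sub_zero, abs_of_nonneg (mul_nonneg (levelWeight_nonneg _ _)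
        (hq g (Finset.mem_union_left _ h1))), mul_comm]
    · obtain ⟨h1, h2⟩ := Finset.mem_sdiff.1 hg
      rw [if_neg h2, if_pos h1, zero_sub, abs_neg, abs_of_nonneg (mul_nonneg
        (levelWeight_nonneg _ _) (hq g (Finset.mem_union_right _ h1))), mul_comm]
  rw [Finset.sum_congr rfl fun a _ => hterm a, Finset.sum_add_distrib, Finset.sum_add_distrib,
    ← Finset.mul_sum, ← Finset.mul_sum, ← Finset.mul_sum, hAB]
  have h1 := levelWeight_lip (m := m) hK hC0 (t := t) (s := s) (by linarith) (by linarith) hF hF'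
  have h2 : |t - s| ≤ A + B := abs_le.2 ⟨by linarith, by linarith⟩
  have h3 := mul_le_of_le_one_right hA0 (sum_levelWeight_le (m := m) hK t)
  have h4 := mul_le_of_le_one_right hB0 (sum_levelWeight_le (m := m) hK s)
  linarith

theorem replicaStatement : ReplicaStatement := by
  intro D _ _ _ σ hσ ι _ K m hK hm p R F F' d η₀ η κ Dd hFne hcard hη hκ hDd hp0 hporth hp1 hR hpR
    hindep hd
  classical
  set V := F ∪ F' with hV
  set s : Set D := Set.range p ∪ R '' ↑V with hs
  set S₀ : StarSubalgebra ℂ D := closedGen (R '' ↑V) with hS₀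
  have hS₀cl : IsClosed (S₀ : Set D) := StarSubalgebra.isClosed_topologicalClosure _
  have hsa : ∀ x ∈ s, IsSelfAdjoint x := by
    rintro x (⟨a, rfl⟩ | ⟨g, hg, rfl⟩)
    · exact IsSelfAdjoint.of_nonneg (hp0 a)
    · exact IsSelfAdjoint.of_nonneg (hR g (Finset.mem_coe.1 hg)).1
  have hcomm : ∀ x ∈ s, ∀ y ∈ s, Commute x y := by
    rintro x (⟨a, rfl⟩ | ⟨g, hg, rfl⟩) y (⟨b, rfl⟩ | ⟨k, hk, rfl⟩)
    · rcases eq_or_ne a b with rfl | hab
      · exact Commute.refl _
      · show p a * p b = p b * p a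
        rw [hporth a b hab, hporth b a hab.symm]
    · exact hpR a k (Finset.mem_coe.1 hk)
    · exact (hpR b g (Finset.mem_coe.1 hg)).symm
    · exact (hR g (Finset.mem_coe.1 hg)).2.2.2.2 k (Finset.mem_coe.1 hk)
  obtain ⟨X, _, ⟨M⟩⟩ := exists_realModel s hsa hcomm
  let L : C(X, ℝ) →ₗ[ℝ] ℝ :=
    { toFun := fun f => (σ (M.J f)).re
      map_add' := fun f g => by simp
      map_smul' := fun c f => by
        rw [map_smul, ← Complex.coe_smul, map_smul, smul_eq_mul, Complex.re_ofReal_mul]
        rfl }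
  have hLmono : ∀ f g : C(X, ℝ), (∀ x, f x ≤ g x) → L f ≤ L g := fun f g h =>
    hσ.map_mono (M.mono f g h)
  have hinP : ∀ a, ∃ f, M.J f = p a := fun a => M.surj _ (Or.inl ⟨a, rfl⟩)
  choose pf hpf using hinP
  have hinR : ∀ g, ∃ f, (g ∈ V → M.J f = R g) := fun g => by
    by_cases hg : g ∈ V
    · exact (M.surj _ (Or.inr ⟨g, Finset.mem_coe.2 hg, rfl⟩)).imp fun f h _ => h
    · exact ⟨0, fun h => absurd h hg⟩
  choose rf hrf using hinR
  -- pointwise properties of the partition and of the densities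
  have hpf0 : ∀ a x, 0 ≤ pf a x := fun a => M.nonneg_iff.1 (by rw [hpf]; exact hp0 a)
  have hpf1 : ∀ x, ∑ a, pf a x = 1 := fun x => by
    have : ∑ a, pf a = 1 := M.injective (by rw [map_sum, map_one]; simp only [hpf, hp1])
    simpa using congrArg (fun f : C(X, ℝ) => f x) this
  have hpfm : ∀ a b x, pf a x * pf b x = if a = b then pf a x else 0 := by
    have h0 : ∀ a b, a ≠ b → ∀ x, pf a x * pf b x = 0 := fun a b hab x => by
      have : pf a * pf b = 0 := M.injective (by rw [map_mul, map_zero, hpf, hpf, hporth a b hab])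
      simpa using congrArg (fun f : C(X, ℝ) => f x) this
    intro a b x
    split_ifs with hab
    · subst hab
      have := congrArg (pf a x * ·) (hpf1 x)
      simp only [Finset.mul_sum, mul_one] at this
      rwa [Finset.sum_eq_single a (fun b _ hb => h0 a b hb.symm x) (by simp)] at this
    · exact h0 a b hab x
  have hdiag : ∀ (u w : Fin m → ℝ) x,
      (∑ a, pf a x * u a) * (∑ a, pf a x * w a) = ∑ a, pf a x * (u a * w a) := by
    intro u w x
    rw [Finset.sum_mul_sum]
    refine Finset.sum_congr rfl fun a _ => ?_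
    rw [Finset.sum_eq_single a (fun b _ hb => by
      rw [mul_mul_mul_comm, hpfm, if_neg hb.symm, zero_mul]) (by simp),
      mul_mul_mul_comm, hpfm, if_pos rfl]
  have hrf0 : ∀ g ∈ V, ∀ x, 0 ≤ rf g x := fun g hg =>
    M.nonneg_iff.1 (by rw [hrf g hg]; exact (hR g hg).1)
  have hrfm : ∀ g ∈ V, ∀ x, rf g x * rf g x ≤ m := by
    intro g hg x
    have hsa' : IsSelfAdjoint (R g * R g) := (IsSelfAdjoint.of_nonneg (hR g hg).1).commute_iff
      (IsSelfAdjoint.of_nonneg (hR g hg).1) |>.1 (Commute.refl _)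
    have h : 0 ≤ M.J (algebraMap ℝ C(X, ℝ) m - rf g * rf g) := by
      rw [map_sub, map_mul, hrf g hg, AlgHom.commutes, sub_nonneg]
      exact hsa'.le_algebraMap_norm_self.trans (algebraMap_mono D (hR g hg).2.1)
    have := M.nonneg_iff.1 h x
    simpa [Algebra.algebraMap_eq_smul_one] using this
  have hLsq : ∀ g ∈ V, L (rf g * rf g) = 1 := fun g hg => by
    show (σ _).re = 1
    rw [map_mul, hrf g hg, (hR g hg).2.2.1, Complex.one_re]
  -- functions of the densities
  let Mem : C(X, ℝ) → Prop := fun f => M.J f ∈ S₀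
  have memR : ∀ g ∈ V, Mem (rf g) := fun g hg => by
    show M.J _ ∈ S₀
    rw [hrf g hg]
    exact StarSubalgebra.le_topologicalClosure _
      (StarAlgebra.subset_adjoin ℂ _ ⟨g, Finset.mem_coe.2 hg, rfl⟩)
  have memMul : ∀ f g, Mem f → Mem g → Mem (f * g) := fun f g hf hg => by
    show M.J _ ∈ S₀
    rw [map_mul]; exact mul_mem hf hg
  have memSmul : ∀ (c : ℝ) f, Mem f → Mem (c • f) := fun c f hf => by
    show M.J _ ∈ S₀
    rw [map_smul, ← Complex.coe_smul]; exact S₀.smul_mem hf _
  have memSum : ∀ (T : Finset ι) (f : ι → C(X, ℝ)), (∀ b ∈ T, Mem (f b)) →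
      Mem (∑ b ∈ T, f b) := fun T f hf => by
    show M.J _ ∈ S₀
    rw [map_sum]; exact sum_mem hf
  have memComp : ∀ (h : C(ℝ, ℝ)) f, Mem f → Mem (h.comp f) := fun h f hf => by
    show M.J _ ∈ S₀
    have := M.calc_eq h h.continuous f
    rw [show (⟨⇑h, h.continuous⟩ : C(ℝ, ℝ)) = h from rfl] at this
    rw [← this]
    exact cfc_mem (𝕜' := ℂ) _ hf
  have memSub : ∀ f g, Mem f → Mem g → Mem (f - g) := fun f g hf hg => by
    show M.J _ ∈ S₀
    rw [map_sub]; exact sub_mem hf hg
  have hind : ∀ a f, Mem f → L (pf a * f) = L f / m := fun a f hf => by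
    show (σ _).re = _ / (m : ℝ)
    rw [map_mul, hpf, hindep a _ hf, Complex.div_natCast_re]
    rfl
  have hLmix : ∀ (f : Fin m → C(X, ℝ)), (∀ a, Mem (f a)) →
      L (∑ a, pf a * f a) = L (∑ a, f a) / m := fun f hf => by
    rw [map_sum, map_sum, Finset.sum_div]
    exact Finset.sum_congr rfl fun a _ => hind a _ (hf a)
  set c : ℝ := (F.card : ℝ)⁻¹ with hc
  have hcF : (0 : ℝ) < F.card := by exact_mod_cast hFne.card_pos
  have hc0 : 0 < c := inv_pos.2 hcF
  have hmR : (0 : ℝ) < m := by exact_mod_cast hm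
  have hKR : (0 : ℝ) < K := by exact_mod_cast hK
  let wC : Fin m → C(ℝ, ℝ) := fun a => ⟨levelWeight K a, continuous_levelWeight hK a⟩
  let N : Finset ι → C(X, ℝ) := fun H => c • ∑ g ∈ H, rf g * rf g
  let W : Finset ι → C(X, ℝ) := fun H => ∑ a, pf a * (wC a).comp (N H)
  let Pf : Finset ι → ι → C(X, ℝ) := fun H g =>
    if g ∈ H then c • (W H * (rf g * rf g)) else 0
  have hFV : F ⊆ V := Finset.subset_union_left
  have hF'V : F' ⊆ V := Finset.subset_union_right
  have hN : ∀ H : Finset ι, H ⊆ V → Mem (N H) := fun H hH =>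
    memSmul _ _ (memSum H _ fun g hg => memMul _ _ (memR g (hH hg)) (memR g (hH hg)))
  have hNapp : ∀ (H : Finset ι) x, N H x = ∑ g ∈ H, c * (rf g x * rf g x) := fun H x => by
    simp [N, Finset.mul_sum]
  have hN0 : ∀ (H : Finset ι) x, 0 ≤ N H x := fun H x => by
    rw [hNapp]
    exact Finset.sum_nonneg fun g _ => mul_nonneg hc0.le (mul_self_nonneg _)
  have hNm : ∀ (H : Finset ι), H ⊆ V → H.card = F.card → ∀ x, N H x ≤ m := fun H hH hHc x => by
    rw [hNapp]
    refine (Finset.sum_le_sum fun g hg => mul_le_mul_of_nonneg_left (hrfm g (hH hg) x)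
      hc0.le).trans ?_
    rw [Finset.sum_const, nsmul_eq_mul, hHc, hc, ← mul_assoc, mul_inv_cancel₀ hcF.ne', one_mul]
  have hLN : L (N F) = 1 := by
    show L (c • _) = 1
    rw [map_smul, map_sum, Finset.sum_congr rfl fun g hg => hLsq g (hFV hg), Finset.sum_const,
      nsmul_eq_mul, mul_one, smul_eq_mul, hc, inv_mul_cancel₀ hcF.ne']
  have hWapp : ∀ (H : Finset ι) x, W H x = ∑ a : Fin m, pf a x * levelWeight K a (N H x) :=
    fun H x => by simp [W, wC]
  have hPapp : ∀ (H : Finset ι) g x, Pf H g x =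
      ∑ a : Fin m, pf a x *
        (if g ∈ H then levelWeight K a (N H x) * (c * (rf g x * rf g x)) else 0) := by
    intro H g x
    by_cases hg : g ∈ H
    · simp only [Pf, if_pos hg, ContinuousMap.smul_apply, ContinuousMap.mul_apply, hWapp,
        smul_eq_mul, Finset.sum_mul, Finset.mul_sum]
      exact Finset.sum_congr rfl fun a _ => by ring
    · simp [Pf, hg]
  have hP0 : ∀ (H : Finset ι) g x, 0 ≤ Pf H g x := fun H g x => by
    rw [hPapp]
    refine Finset.sum_nonneg fun a _ => mul_nonneg (hpf0 a x) ?_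
    split_ifs
    · exact mul_nonneg (levelWeight_nonneg _ _) (mul_nonneg hc0.le (mul_self_nonneg _))
    · exact le_rfl
  have hlev : ∀ H : Finset ι, H ⊆ V → H.card = F.card → ∀ g, levelP K p R H g = M.J (Pf H g) := by
    intro H hH hHc g
    by_cases hg : g ∈ H
    · have hmean : meanDensity R H = M.J (N H) := by
        show _ = M.J (c • _)
        rw [meanDensity, map_smul, map_sum, ← Complex.coe_smul, hHc, hc, Complex.ofReal_inv,
          Complex.ofReal_natCast]
        exact congrArg _ (Finset.sum_congr rfl fun k hk => by rw [map_mul, hrf k (hH hk)])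
      simp only [levelP, if_pos hg, Pf, hmean, W, map_smul, map_mul, map_sum, hrf g (hH hg), hpf]
      rw [← Complex.coe_smul, hHc, hc, Complex.ofReal_inv, Complex.ofReal_natCast]
      exact congrArg _ (congrArg (· * _) (Finset.sum_congr rfl fun a _ => congrArg _
        (M.calc_eq _ (continuous_levelWeight hK a) _)))
    · simp [levelP, Pf, hg]
  have hlevF := hlev F hFV rfl
  have hlevF' := hlev F' hF'V hcard.symm
  let rC : Fin m → C(ℝ, ℝ) := fun a => ⟨levelRamp ((K + a : ℕ) : ℝ), continuous_levelRamp _⟩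
  let Ef : C(X, ℝ) := ∑ g ∈ F, Pf F g
  have hE : ∑ g ∈ F, levelP K p R F g = M.J Ef := by
    show _ = M.J (∑ g ∈ F, Pf F g)
    rw [map_sum]
    exact Finset.sum_congr rfl fun g _ => hlevF g
  have hEapp : ∀ x, Ef x = ∑ a : Fin m, pf a x * levelRamp ((K + a : ℕ) : ℝ) (N F x) := by
    intro x
    simp only [Ef, ContinuousMap.coe_sum, Finset.sum_apply, hPapp]
    rw [Finset.sum_comm]
    refine Finset.sum_congr rfl fun a _ => ?_
    rw [← Finset.mul_sum, Finset.sum_congr rfl fun g hg => if_pos hg, ← Finset.mul_sum, ← hNapp,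
      levelWeight_mul_self hK]
  have hEeq : Ef = ∑ a, pf a * (rC a).comp (N F) := by
    ext x
    rw [hEapp]
    simp [rC]
  have hLE : L Ef = L (∑ a, (rC a).comp (N F)) / m := by
    rw [hEeq, hLmix _ fun a => memComp _ _ (hN F hFV)]
  have hsumr : ∀ x, (∑ a, (rC a).comp (N F)) x =
      ∑ a : Fin m, levelRamp ((K + a : ℕ) : ℝ) (N F x) := fun x => by simp [rC]
  refine ⟨fun g => ⟨?_, ?_⟩, ?_, ?_, ?_, ?_, ?_, ?_⟩
  · rw [hlevF]
    exact M.nonneg_iff.2 (hP0 F g)
  · rw [hlevF]
    exact M.mem _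
  · rw [hE, ← map_one M.J]
    refine M.mono _ _ fun x => ?_
    rw [hEapp]
    refine (Finset.sum_le_sum fun a _ =>
      mul_le_of_le_one_right (hpf0 a x) (levelRamp_le_one _ _)).trans ?_
    rw [hpf1 x, ContinuousMap.one_apply]
  · rw [hE]
    show L Ef ≤ _
    rw [hLE]
    refine div_le_div_of_nonneg_right ?_ hmR.le
    refine (hLmono _ (N F) fun x => ?_).trans_eq hLN
    rw [hsumr]
    exact sum_levelRamp_le _ (hN0 F x)
  · rw [hE]
    show _ ≤ L Ef
    rw [hLE]
    refine div_le_div_of_nonneg_right ?_ hmR.le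
    have h1 := hLmono (N F - Real.sqrt (K * c) • ∑ g ∈ F, rf g) (∑ a, (rC a).comp (N F))
      fun x => by
        rw [hsumr]
        refine le_trans ?_ (le_sum_levelRamp _ (hN0 F x) (hNm F hFV rfl x))
        simp only [ContinuousMap.sub_apply, ContinuousMap.smul_apply, ContinuousMap.coe_sum,
          Finset.sum_apply, smul_eq_mul, Real.sqrt_mul (Nat.cast_nonneg K), mul_assoc]
        refine sub_le_sub_left (mul_le_mul_of_nonneg_left ?_ (Real.sqrt_nonneg _)) _
        rw [hNapp, ← Finset.mul_sum, Real.sqrt_mul hc0.le]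
        refine mul_le_mul_of_nonneg_left ?_ (Real.sqrt_nonneg _)
        refine (Real.sqrt_le_sqrt (Finset.sum_sq_le_sq_sum_of_nonneg
          (f := fun g => rf g x) fun g hg => hrf0 g (hFV hg) x) |>.trans' ?_).trans ?_
        · exact Real.sqrt_le_sqrt (le_of_eq (Finset.sum_congr rfl fun g _ => (pow_two _).symm))
        · rw [Real.sqrt_sq (Finset.sum_nonneg fun g hg => hrf0 g (hFV hg) x)]
    refine le_trans ?_ h1
    rw [map_sub, hLN, map_smul, map_sum, smul_eq_mul]
    have h2 : ∑ g ∈ F, L (rf g) ≤ F.card * η₀ := by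
      refine (Finset.sum_le_sum fun g hg => ?_).trans_eq (by rw [Finset.sum_const, nsmul_eq_mul])
      show (σ _).re ≤ η₀
      rw [hrf g (hFV hg)]
      exact (hR g (hFV hg)).2.2.2.1
    have e : Real.sqrt (K * c) * (F.card * η₀) = Real.sqrt (K * F.card) * η₀ := by
      rw [hc, Real.sqrt_mul (Nat.cast_nonneg K), Real.sqrt_mul (Nat.cast_nonneg K), Real.sqrt_inv,
        ← mul_assoc, mul_assoc (Real.sqrt K)]
      congr 2
      rw [inv_mul_eq_div, div_eq_iff (Real.sqrt_pos.2 hcF).ne', Real.mul_self_sqrt hcF.le]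
    rw [← e]
    linarith [mul_le_mul_of_nonneg_left h2 (Real.sqrt_nonneg (K * c))]
  · rw [hE, ← map_mul, ← map_sub]
    show L (Ef - Ef * Ef) ≤ _
    let gC : Fin m → C(ℝ, ℝ) := fun a => rC a * (1 - rC a)
    have heq : Ef - Ef * Ef = ∑ a, pf a * (gC a).comp (N F) := by
      ext x
      simp only [ContinuousMap.sub_apply, ContinuousMap.mul_apply, hEapp, hdiag, gC, rC,
        ContinuousMap.coe_sum, Finset.sum_apply, ContinuousMap.comp_apply, ContinuousMap.coe_mk,
        ContinuousMap.one_apply, ← Finset.sum_sub_distrib]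
      exact Finset.sum_congr rfl fun a _ => by ring
    rw [heq, hLmix _ fun a => memComp _ _ (hN F hFV), ← div_div]
    refine div_le_div_of_nonneg_right ?_ hmR.le
    refine (hLmono _ ((K : ℝ)⁻¹ • N F) fun x => ?_).trans_eq (by simp [hLN])
    simp only [gC, rC, ContinuousMap.coe_sum, Finset.sum_apply, ContinuousMap.comp_apply,
      ContinuousMap.mul_apply, ContinuousMap.sub_apply, ContinuousMap.coe_mk,
      ContinuousMap.one_apply, ContinuousMap.smul_apply, smul_eq_mul, inv_mul_eq_div]
    exact sum_ramp_gap_le hK _ (hN0 F x)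
  · let iC : C(ℝ, ℝ) := ⟨fun t => 1 / max t K, continuous_const.div (by fun_prop)
      fun t => (lt_of_lt_of_le hKR (le_max_right t _)).ne'⟩
    let G : ι → ι → C(X, ℝ) := fun g k =>
      iC.comp (N F) * ((c • (rf g * rf g)) * (c • (rf k * rf k)))
    have hterm : ∀ g ∈ F, ∀ k ∈ F,
        (σ (levelP K p R F g * levelP K p R F k)).re ≤ L (G g k) / m := by
      intro g hg k hk
      rw [hlevF, hlevF, ← map_mul]
      show L (Pf F g * Pf F k) ≤ _
      let f : Fin m → C(X, ℝ) := fun a => ((wC a).comp (N F) * (wC a).comp (N F)) *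
        ((c • (rf g * rf g)) * (c • (rf k * rf k)))
      have heq : Pf F g * Pf F k = ∑ a, pf a * f a := by
        ext x
        simp only [ContinuousMap.mul_apply, hPapp, if_pos hg, if_pos hk, hdiag, f, wC,
          ContinuousMap.coe_sum, Finset.sum_apply, ContinuousMap.comp_apply, ContinuousMap.coe_mk,
          ContinuousMap.smul_apply, smul_eq_mul]
        exact Finset.sum_congr rfl fun a _ => by ring
      rw [heq, hLmix f fun a => memMul _ _
        (memMul _ _ (memComp _ _ (hN F hFV)) (memComp _ _ (hN F hFV)))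
        (memMul _ _ (memSmul _ _ (memMul _ _ (memR g (hFV hg)) (memR g (hFV hg))))
          (memSmul _ _ (memMul _ _ (memR k (hFV hk)) (memR k (hFV hk)))))]
      refine div_le_div_of_nonneg_right (hLmono _ _ fun x => ?_) hmR.le
      simp only [f, G, wC, iC, ContinuousMap.coe_sum, Finset.sum_apply, ContinuousMap.comp_apply,
        ContinuousMap.mul_apply, ContinuousMap.coe_mk, ContinuousMap.smul_apply, smul_eq_mul,
        ← Finset.sum_mul]
      exact mul_le_mul_of_nonneg_right (sum_levelWeight_sq_le hK _)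
        (mul_nonneg (mul_nonneg hc0.le (mul_self_nonneg _)) (mul_nonneg hc0.le (mul_self_nonneg _)))
    have hGapp : ∀ g k x, G g k x =
        1 / max (N F x) K * ((c * (rf g x * rf g x)) * (c * (rf k x * rf k x))) := fun g k x => by
      simp [G, iC]; ring
    have hG0 : ∀ g k, 0 ≤ L (G g k) := fun g k => by
      refine (map_zero L).symm.trans_le (hLmono 0 _ fun x => ?_)
      rw [ContinuousMap.zero_apply, hGapp]
      have := hc0.le
      have := lt_of_lt_of_le hKR (le_max_right (N F x) _)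
      exact mul_nonneg (by positivity) (mul_nonneg (mul_nonneg hc0.le (mul_self_nonneg _))
        (mul_nonneg hc0.le (mul_self_nonneg _)))
    have hGsum : ∑ g ∈ F, ∑ k ∈ F, L (G g k) ≤ 1 := by
      simp only [← map_sum]
      refine (hLmono _ (N F) fun x => ?_).trans_eq hLN
      simp only [ContinuousMap.coe_sum, Finset.sum_apply, hGapp, ← Finset.mul_sum,
        ← Finset.sum_mul]
      rw [Finset.mul_sum, ← hNapp, div_mul_eq_mul_div, one_mul,
        div_le_iff₀ (lt_of_lt_of_le hKR (le_max_right _ _))]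
      exact mul_le_mul_of_nonneg_left (le_max_left _ _) (hN0 F x)
    have hfar : ∀ g ∈ F, ∀ k ∈ F, g ≠ k → (σ (R g * R k)).re ≤ η → L (G g k) ≤ c * η := by
      intro g hg k hk hgk hη'
      have h1 : L (G g k) ≤ L (c • (rf g * rf k)) := hLmono _ _ fun x => by
        rw [hGapp]
        show _ ≤ c * (rf g x * rf k x)
        rw [div_mul_eq_mul_div, one_mul, div_le_iff₀ (lt_of_lt_of_le hKR (le_max_right _ _))]
        have h2 : c * (rf g x * rf g x) + c * (rf k x * rf k x) ≤ max (N F x) K := by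
          refine le_trans ?_ (le_max_left _ _)
          rw [hNapp, ← Finset.sum_pair (f := fun i => c * (rf i x * rf i x)) hgk]
          exact Finset.sum_le_sum_of_subset_of_nonneg
            (by simp [Finset.insert_subset_iff, hg, hk])
            fun i _ _ => mul_nonneg hc0.le (mul_self_nonneg _)
        have a0 := hrf0 g (hFV hg) x
        have b0 := hrf0 k (hFV hk) x
        have h3 : c * (rf g x * rf k x) ≤ max (N F x) K := by
          nlinarith [mul_nonneg hc0.le (mul_self_nonneg (rf g x - rf k x)),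
            mul_nonneg hc0.le (mul_nonneg a0 b0)]
        calc c * (rf g x * rf g x) * (c * (rf k x * rf k x))
            = c * (rf g x * rf k x) * (c * (rf g x * rf k x)) := by ring
          _ ≤ c * (rf g x * rf k x) * max (N F x) K :=
            mul_le_mul_of_nonneg_left h3 (mul_nonneg hc0.le (mul_nonneg a0 b0))
      refine h1.trans ?_
      rw [map_smul, smul_eq_mul]
      refine mul_le_mul_of_nonneg_left ?_ hc0.le
      show (σ _).re ≤ η
      rwa [map_mul, hrf g (hFV hg), hrf k (hFV hk)]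
    calc ∑ g ∈ F, ∑ k ∈ F, d g k * (σ (levelP K p R F g * levelP K p R F k)).re
        ≤ ∑ g ∈ F, ∑ k ∈ F, (κ * L (G g k) + Dd * (c * η)) / m := by
          refine Finset.sum_le_sum fun g hg => Finset.sum_le_sum fun k hk => ?_
          obtain ⟨hd0, hdD, hdf⟩ := hd g (hFV hg) k (hFV hk)
          refine (mul_le_mul_of_nonneg_left (hterm g hg k hk) hd0).trans ?_
          rw [← mul_div_assoc]
          refine div_le_div_of_nonneg_right ?_ hmR.le
          have hx : 0 ≤ Dd * (c * η) := mul_nonneg hDd (mul_nonneg hc0.le hη)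
          rcases le_or_gt (d g k) κ with hdk | hdk
          · linarith [mul_le_mul_of_nonneg_right hdk (hG0 g k)]
          · obtain ⟨hne, hle⟩ := hdf hdk
            linarith [mul_le_mul hdD (hfar g hg k hk hne hle) (hG0 g k) hDd,
              mul_nonneg hκ (hG0 g k)]
      _ = (κ * (∑ g ∈ F, ∑ k ∈ F, L (G g k)) + Dd * F.card * η) / m := by
          simp only [← Finset.sum_div, Finset.sum_add_distrib, ← Finset.mul_sum, Finset.sum_const,
            nsmul_eq_mul]
          congr 2
          rw [hc]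
          field_simp
      _ ≤ (κ + Dd * F.card * η) / m := by
          refine div_le_div_of_nonneg_right ?_ hmR.le
          linarith [mul_le_of_le_one_right hκ hGsum]
  · let aC : C(ℝ, ℝ) := ⟨fun t => |t|, continuous_abs⟩
    let Mf : ι → C(X, ℝ) := fun g => aC.comp (Pf F g - Pf F' g)
    refine ⟨fun g => M.J (Mf g), fun g hg => ⟨M.nonneg_iff.2 fun x => abs_nonneg _, M.mem _,
      ?_, ?_⟩, ?_⟩
    · rw [hlevF, hlevF', ← map_sub]
      exact M.mono _ _ fun x => le_abs_self _
    · rw [hlevF, hlevF', ← map_sub]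
      exact M.mono _ _ fun x => by
        rw [ContinuousMap.sub_apply]
        exact (le_abs_self _).trans_eq (abs_sub_comm _ _)
    rw [← map_sum]
    show L (∑ g ∈ V, Mf g) ≤ _
    let z : Fin m → ι → C(X, ℝ) := fun a g => aC.comp
      ((if g ∈ F then (wC a).comp (N F) * (c • (rf g * rf g)) else 0) -
        (if g ∈ F' then (wC a).comp (N F') * (c • (rf g * rf g)) else 0))
    have hzapp : ∀ a g x, z a g x =
        |(if g ∈ F then levelWeight K a (N F x) * (c * (rf g x * rf g x)) else 0) -
          (if g ∈ F' then levelWeight K a (N F' x) * (c * (rf g x * rf g x)) else 0)| := by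
      intro a g x
      simp only [z, aC, ContinuousMap.comp_apply, ContinuousMap.coe_mk, ContinuousMap.sub_apply]
      congr 2 <;> split_ifs <;> simp [wC, mul_left_comm]
    have hzmem : ∀ a, Mem (∑ g ∈ V, z a g) := fun a => memSum V _ fun g hg => by
      have h0 : Mem 0 := by
        show M.J 0 ∈ S₀
        rw [map_zero]; exact zero_mem _
      have hw : ∀ H : Finset ι, H ⊆ V →
          Mem (if g ∈ H then (wC a).comp (N H) * (c • (rf g * rf g)) else 0) := fun H hH => by
        split_ifs
        · exact memMul _ _ (memComp _ _ (hN H hH))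
            (memSmul _ _ (memMul _ _ (memR g hg) (memR g hg)))
        · exact h0
      exact memComp _ _ (memSub _ _ (hw F hFV) (hw F' hF'V))
    have h1 : L (∑ g ∈ V, Mf g) ≤ L (∑ a, pf a * ∑ g ∈ V, z a g) := hLmono _ _ fun x => by
      simp only [ContinuousMap.coe_sum, Finset.sum_apply, ContinuousMap.mul_apply, Finset.mul_sum,
        hzapp]
      rw [Finset.sum_comm (s := Finset.univ)]
      refine Finset.sum_le_sum fun g _ => ?_
      simp only [Mf, aC, ContinuousMap.comp_apply, ContinuousMap.coe_mk, ContinuousMap.sub_apply,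
        hPapp, ← Finset.sum_sub_distrib, ← mul_sub]
      refine (Finset.abs_sum_le_sum_abs _ _).trans (le_of_eq (Finset.sum_congr rfl fun a _ => ?_))
      rw [abs_mul, abs_of_nonneg (hpf0 a x)]
    refine h1.trans ?_
    rw [hLmix _ hzmem]
    refine div_le_div_of_nonneg_right ?_ hmR.le
    refine (hLmono _ ((3 : ℝ) • (c • ∑ g ∈ F ∆ F', rf g * rf g)) fun x => ?_).trans ?_
    · simp only [ContinuousMap.coe_sum, Finset.sum_apply, hzapp, ContinuousMap.smul_apply,
        ContinuousMap.mul_apply, smul_eq_mul, Finset.mul_sum]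
      have := levelWeight_change (m := m) hK F F' (fun g => c * (rf g x * rf g x))
        (fun g _ => mul_nonneg hc0.le (mul_self_nonneg _))
        (by rw [← hNapp]; exact hNm F hFV rfl x)
        (by rw [← hNapp]; exact hNm F' hF'V hcard.symm x)
      simp only [← hNapp] at this
      refine this.trans_eq ?_
      rw [hNapp, Finset.mul_sum]
    · have hsub : F ∆ F' ⊆ V := fun g hg => by
        rcases Finset.mem_symmDiff.1 hg with h | h
        exacts [hFV h.1, hF'V h.1]
      rw [map_smul, map_smul, map_sum, Finset.sum_congr rfl fun g hg => hLsq g (hsub hg),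
        Finset.sum_const, nsmul_eq_mul, mul_one, smul_eq_mul, smul_eq_mul, hc, inv_mul_eq_div,
        ← mul_div_assoc]
      exact div_le_div_of_nonneg_right (by linarith [(Nat.cast_nonneg _ :
        (0 : ℝ) ≤ ((F ∆ F').card : ℝ))]) hcF.le

end Vale.Agent.P095.Full.Tracial
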