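import Vale.Agent.P095.Full.Tracial.Specs
import Vale.Agent.P095.Full.Tracial.Basic

/-!
# P095, all amenable groups: the selected families

Weights from an almost orthogonal partition of unity in a selection bank pick one site out of many
pool sites; bounded substitutes of normalised sums of features see the same distances.  Everything
here is an estimate at a finite level, from `RatStatement` and `MomentStatement`.
-/

noncomputable section

namespace Vale.Agent.P095.Full.Tracial

universe u v w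

open Filter Topology Vale.Agent.P101 Vale.Agent.P095.Gamma

namespace Selection

section Algebra

variable {B : Type u} [CStarAlgebra B]

theorem star_eq_of_isPos {a : B} (h : IsPos a) : star a = a := by
  obtain ⟨w, rfl⟩ := h
  simp

theorem norm_one_le : ‖(1 : B)‖ ≤ 1 := by
  have h := CStarRing.norm_star_mul_self (x := (1 : B))
  simp only [star_one, mul_one] at h
  by_contra hne
  push Not at hne
  nlinarith

/-- An average with positive weights of elements commuting with their weights is no larger. -/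
theorem norm_weighted_le {ι : Type*} [Fintype ι] {ω a : ι → B} (hpos : ∀ s, IsPos (ω s))
    (hsum : ∑ s, ω s = 1) (hc : ∀ s, StarCommute (ω s) (a s)) {C : ℝ} (hC : 0 ≤ C)
    (ha : ∀ s, ‖a s‖ ≤ C) : ‖∑ s, ω s * a s‖ ≤ C := by
  let _ : PartialOrder B := CStarAlgebra.spectralOrder B
  have _ : StarOrderedRing B := CStarAlgebra.spectralOrderedRing B
  have h0 : ∀ s, 0 ≤ ω s := fun s => by
    obtain ⟨w, hw⟩ := hpos s
    exact hw ▸ star_mul_self_nonneg w
  set x := ∑ s, ω s * a s with hx
  have hsx : star x = ∑ s, star (a s) * ω s := by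
    simp only [hx, star_sum, star_mul, star_eq_of_isPos (hpos _)]
  have h1 : 0 ≤ ∑ s, star (a s - x) * ω s * (a s - x) :=
    Finset.sum_nonneg fun s _ => star_left_conjugate_nonneg (h0 s) _
  have h2 : ∑ s, star (a s - x) * ω s * (a s - x) =
      ∑ s, star (a s) * ω s * a s - star x * x := by
    simp only [star_sub, sub_mul, mul_sub, Finset.sum_sub_distrib]
    have e1 : ∑ s, star (a s) * ω s * x = star x * x := by rw [← Finset.sum_mul, ← hsx]
    have e2 : ∑ s, star x * ω s * a s = star x * x := by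
      simp only [mul_assoc]; rw [← Finset.mul_sum, ← hx]
    have e3 : ∑ s, star x * ω s * x = star x * x := by
      rw [← Finset.sum_mul, ← Finset.mul_sum, hsum, mul_one]
    rw [e1, e2, e3, sub_self, sub_zero]
  rw [h2, sub_nonneg] at h1
  have h3 : ∀ s, star (a s) * ω s * a s ≤ ω s * algebraMap ℝ B (C ^ 2) := by
    intro s
    have c1 : Commute (ω s) (a s) := (hc s).1
    have c2 : Commute (ω s) (star (a s)) := (hc s).2
    have hle : star (a s) * a s ≤ algebraMap ℝ B (C ^ 2) :=
      (IsSelfAdjoint.le_algebraMap_norm_self (IsSelfAdjoint.star_mul_self (a s))).trans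
        (algebraMap_mono B (by
          rw [CStarRing.norm_star_mul_self]; nlinarith [ha s, norm_nonneg (a s)]))
    rw [show star (a s) * ω s * a s = ω s * (star (a s) * a s) by
      rw [← c2.eq, mul_assoc]]
    refine sub_nonneg.1 ?_
    rw [← mul_sub]
    exact Commute.mul_nonneg (h0 s) (sub_nonneg.2 hle)
      ((show Commute (ω s) (algebraMap ℝ B (C ^ 2)) from (Algebra.commutes _ _).symm).sub_right
        (c2.mul_right c1))
  have h4 : star x * x ≤ algebraMap ℝ B (C ^ 2) := by
    refine h1.trans ((Finset.sum_le_sum fun s _ => h3 s).trans ?_)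
    rw [← Finset.sum_mul, hsum, one_mul]
  have h5 := CStarAlgebra.norm_le_norm_of_nonneg_of_le (star_mul_self_nonneg x) h4
  rw [CStarRing.norm_star_mul_self, norm_algebraMap, Real.norm_eq_abs,
    abs_of_nonneg (sq_nonneg C)] at h5
  nlinarith [norm_one_le (B := B), norm_nonneg x, sq_nonneg C]

/-- A weighted sum of positive elements commuting with their weights is positive. -/
theorem isPos_weighted {ι : Type*} [Fintype ι] {ω p : ι → B} (hω : ∀ s, IsPos (ω s))
    (hp : ∀ s, IsPos (p s)) (hc : ∀ s, Commute (ω s) (p s)) : IsPos (∑ s, ω s * p s) := by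
  let _ : PartialOrder B := CStarAlgebra.spectralOrder B
  have _ : StarOrderedRing B := CStarAlgebra.spectralOrderedRing B
  refine CStarAlgebra.nonneg_iff_eq_star_mul_self.1 (Finset.sum_nonneg fun s _ => ?_)
  obtain ⟨w, hw⟩ := hω s
  obtain ⟨q, hq⟩ := hp s
  exact Commute.mul_nonneg (hw ▸ star_mul_self_nonneg w) (hq ▸ star_mul_self_nonneg q) (hc s)

theorem isPos_mul {a b : B} (ha : IsPos a) (hb : IsPos b) (h : Commute a b) : IsPos (a * b) := by
  simpa using isPos_weighted (ι := Unit) (ω := fun _ => a) (p := fun _ => b) (fun _ => ha)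
    (fun _ => hb) (fun _ => h)

/-- The `L²` seminorm of a positive contraction is at most the root of its trace. -/
theorem l2_sq_le_map {τ : B →ₗ[ℂ] ℂ} (hτ : IsTrace B τ) {a : B} (ha : IsPos a) (h1 : ‖a‖ ≤ 1) :
    l2 τ a ^ 2 ≤ (τ a).re := by
  obtain ⟨q, rfl⟩ := ha
  rw [CStarRing.norm_star_mul_self] at h1
  calc l2 τ (star q * q) ^ 2 ≤ (‖star q‖ * l2 τ q) ^ 2 :=
        pow_le_pow_left₀ (hτ.l2_nonneg _) (hτ.l2_mul_le _ _) 2
    _ = ‖q‖ * ‖q‖ * (τ (star q * q)).re := by rw [norm_star, mul_pow, hτ.l2_sq]; ring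
    _ ≤ (τ (star q * q)).re := mul_le_of_le_one_left (hτ.re_nonneg q) h1

/-- The squares of the real and imaginary part. -/
theorem re_im_sq {τ : B →ₗ[ℂ] ℂ} (hτ : IsTrace B τ) (d : B) :
    τ (((1 / 2 : ℂ) • (d + star d)) * ((1 / 2 : ℂ) • (d + star d))) +
      τ (((-Complex.I / 2) • (d - star d)) * ((-Complex.I / 2) • (d - star d))) =
      τ (star d * d) := by
  simp only [smul_mul_assoc, mul_smul_comm, map_smul, add_mul, mul_add, sub_mul,
    mul_sub, map_add, map_sub, smul_eq_mul, hτ.comm d (star d)]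
  linear_combination ((τ (d * d) + τ (star d * star d) - τ (star d * d) - τ (star d * d)) / 4) *
    Complex.I_sq

end Algebra

variable {B : Type u} [CStarAlgebra B] {G : Type v} [Group G] {S : Fam B G}

theorem rcalc_mem {K : StarSubalgebra ℂ B} [IsClosed (K : Set B)] (f : ℝ → ℝ) {a : B}
    (ha : a ∈ K) : rcalc f a ∈ K :=
  cfc_mem (𝕜' := ℂ) f ha

/-- Weights in a selection bank, one for each pool site. -/
structure Weights (S : Fam B G) (τ : B →ₗ[ℂ] ℂ) {ι : Type w} [Fintype ι] (bs : Bank)
    (site : ι → Site) (ω : ι → B) (n : ℕ) : Prop where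
  good : S.Good τ
  card : Fintype.card ι = n
  pos_n : 0 < n
  inj : Function.Injective site
  ne : ∀ s, (site s).1 ≠ bs
  mem : ∀ s, ω s ∈ S.alg (bankSet bs)
  pos : ∀ s, IsPos (ω s)
  sum : ∑ s, ω s = 1
  comm : ∀ s t, Commute (ω s) (ω t)
  mean : ∀ s, ‖τ (ω s) - 1 / (n : ℂ)‖ ≤ (1 / (n : ℝ)) ^ 8
  pair : ∀ s t, s ≠ t → ‖τ (ω s * ω t)‖ ≤ (1 / (n : ℝ)) ^ 8

namespace Weights

variable {τ : B →ₗ[ℂ] ℂ} {ι : Type w} [Fintype ι] {bs : Bank} {site : ι → Site} {ω : ι → B}
  {n : ℕ} (hW : Weights S τ bs site ω n)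
include hW

theorem starCommute {P : Set Site} (hP : ∀ p ∈ P, p.1 ≠ bs) {a : B} (ha : a ∈ S.alg P) (s : ι) :
    StarCommute (ω s) a :=
  S.starCommute_alg (Set.disjoint_left.2 fun p hp hp' => hP p hp' hp) (hW.mem s) ha

theorem starCommute_site {a : ι → B} (ha : ∀ s, a s ∈ S.alg {site s}) (s t : ι) :
    StarCommute (ω s) (a t) :=
  hW.starCommute (P := {site t}) (fun p hp => by rw [Set.mem_singleton_iff.1 hp]; exact hW.ne t)
    (ha t) s

theorem norm_le {a : ι → B} (ha : ∀ s, a s ∈ S.alg {site s}) {C : ℝ} (hC : 0 ≤ C)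
    (hn : ∀ s, ‖a s‖ ≤ C) : ‖∑ s, ω s * a s‖ ≤ C :=
  norm_weighted_le hW.pos hW.sum (fun s => hW.starCommute_site ha s s) hC hn

theorem norm_weight_le [DecidableEq ι] (s : ι) : ‖ω s‖ ≤ 1 := by
  have h := hW.norm_le (a := fun t => if t = s then 1 else 0)
    (fun t => by by_cases h : t = s <;> simp [h, one_mem, zero_mem]) zero_le_one
    (fun t => by by_cases h : t = s <;> simp [h, norm_one_le])
  simpa [mul_ite] using h

theorem l2_pair_le [DecidableEq ι] {s t : ι} (h : s ≠ t) :
    l2 τ (ω s * ω t) ≤ (1 / (n : ℝ)) ^ 4 := by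
  have h1 := l2_sq_le_map hW.good.trace (isPos_mul (hW.pos s) (hW.pos t) (hW.comm s t))
    ((norm_mul_le _ _).trans
      (mul_le_one₀ (hW.norm_weight_le s) (norm_nonneg _) (hW.norm_weight_le t)))
  have h2 := (Complex.re_le_norm _).trans (hW.pair s t h)
  have h3 : (0 : ℝ) ≤ (1 / (n : ℝ)) ^ 4 := by positivity
  have h4 := hW.good.trace.l2_nonneg (ω s * ω t)
  nlinarith [h1.trans h2]

/-- A product of selections is, in `L²`, the selection of the products. -/
theorem l2_mul_sub_le {a b : ι → B} (ha : ∀ s, a s ∈ S.alg {site s})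
    {C : ℝ} (hC : 0 ≤ C) (hna : ∀ s, ‖a s‖ ≤ C)
    (hnb : ∀ s, ‖b s‖ ≤ C) :
    l2 τ ((∑ s, ω s * a s) * (∑ s, ω s * b s) - ∑ s, ω s * (a s * b s)) ≤
      2 * C ^ 2 / Real.sqrt n := by
  classical
  have hτ := hW.good.trace
  have e : (∑ s, ω s * a s) * (∑ s, ω s * b s) - ∑ s, ω s * (a s * b s) =
      ∑ s, ∑ t, ω s * ω t * (a s * b t - a s * b s) := by
    have e1 : ∀ s t, ω s * a s * (ω t * b t) = ω s * ω t * (a s * b t) := fun s t => by
      simp only [mul_assoc]
      rw [← mul_assoc (a s), ← ((hW.starCommute_site ha t s).1 : Commute (ω t) (a s)).eq, mul_assoc]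
    have e2 : ∀ s, ω s * (a s * b s) = ∑ t, ω s * ω t * (a s * b s) := fun s => by
      rw [← Finset.sum_mul, ← Finset.mul_sum, hW.sum, mul_one]
    simp only [Finset.sum_mul, Finset.mul_sum, e1, mul_sub, Finset.sum_sub_distrib]
    rw [Finset.sum_comm]
    simp only [← e2]
  have hb2 : ∀ s t, l2 τ (ω s * ω t * (a s * b t - a s * b s)) ≤
      (1 / (n : ℝ)) ^ 4 * (2 * C ^ 2) := by
    intro s t
    rcases eq_or_ne s t with rfl | hst
    · rw [sub_self, mul_zero, hτ.l2_zero]; positivity
    · refine (hτ.l2_mul_le' _ _).trans (mul_le_mul (hW.l2_pair_le hst) ?_ (norm_nonneg _)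
        (by positivity))
      refine (norm_sub_le _ _).trans ?_
      nlinarith [norm_mul_le (a s) (b t), norm_mul_le (a s) (b s),
        mul_le_mul (hna s) (hnb t) (norm_nonneg _) hC,
        mul_le_mul (hna s) (hnb s) (norm_nonneg _) hC]
  rw [e]
  refine (hτ.l2_sum_le _ _).trans ((Finset.sum_le_sum fun s _ =>
    (hτ.l2_sum_le _ _).trans (Finset.sum_le_sum fun t _ => hb2 s t)).trans ?_)
  rw [Finset.sum_const, Finset.sum_const, Finset.card_univ, hW.card, nsmul_eq_mul, nsmul_eq_mul]
  have hn : (1 : ℝ) ≤ n := by exact_mod_cast hW.pos_n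
  have hs : Real.sqrt n ≤ (n : ℝ) := Real.sqrt_le_iff.2 ⟨by linarith, by nlinarith⟩
  have hs0 : 0 < Real.sqrt n := Real.sqrt_pos.2 (by linarith)
  calc (n : ℝ) * ((n : ℝ) * ((1 / (n : ℝ)) ^ 4 * (2 * C ^ 2)))
      = 2 * C ^ 2 / (n : ℝ) ^ 2 := by field_simp
    _ ≤ 2 * C ^ 2 / Real.sqrt n :=
        div_le_div_of_nonneg_left (by positivity) hs0 (by nlinarith)

/-- A selection has the average as trace, also against elements off the selection bank. -/
theorem map_weighted_le (hmom : MomentStatement.{u, v}) {e : ι → B}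
    (he : ∀ s, e s ∈ S.alg {site s}) {D : ℝ} (hD : 0 ≤ D) (hne : ∀ s, ‖e s‖ ≤ D) {c : B}
    (hc : c ∈ S.alg (bankSet bs)ᶜ) {C : ℝ} (hnc : ‖c‖ ≤ C) :
    ‖τ (c * ∑ s, ω s * e s) - τ c * ((n : ℂ)⁻¹ * ∑ s, τ (e s))‖ ≤ 3 * C * D / Real.sqrt n := by
  have hτ := hW.good.trace
  have hC : 0 ≤ C := (norm_nonneg c).trans hnc
  have hn : (1 : ℝ) ≤ n := by exact_mod_cast hW.pos_n
  have hs0 : 0 < Real.sqrt n := Real.sqrt_pos.2 (by linarith)
  have hmem : ∀ s, c * e s ∈ S.alg (bankSet bs)ᶜ := fun s =>
    mul_mem hc (S.alg_mono (P := {site s}) (fun p hp => by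
      rw [Set.mem_singleton_iff.1 hp]; exact hW.ne s) (he s))
  have e1 : τ (c * ∑ s, ω s * e s) = ∑ s, τ (ω s) * τ (c * e s) := by
    rw [Finset.mul_sum, map_sum]
    refine Finset.sum_congr rfl fun s _ => ?_
    rw [← mul_assoc, ← ((hW.starCommute (P := (bankSet bs)ᶜ) (fun p hp => hp) hc s).1 :
        Commute (ω s) c).eq, mul_assoc]
    exact hW.good.map_mul disjoint_compl_right (hW.mem s) (hmem s)
  have e2 : ‖∑ s, (τ (ω s) - 1 / (n : ℂ)) * τ (c * e s)‖ ≤ C * D / Real.sqrt n := by
    refine (norm_sum_le _ _).trans ((Finset.sum_le_sum (g := fun _ => (1 / (n : ℝ)) ^ 8 * (C * D))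
      fun s _ => ?_).trans ?_)
    · rw [norm_mul]
      exact mul_le_mul (hW.mean s) ((hτ.norm_map_le_norm _).trans ((norm_mul_le _ _).trans
        (mul_le_mul hnc (hne s) (norm_nonneg _) hC))) (norm_nonneg _) (by positivity)
    · rw [Finset.sum_const, Finset.card_univ, hW.card, nsmul_eq_mul]
      calc (n : ℝ) * ((1 / (n : ℝ)) ^ 8 * (C * D)) = C * D / (n : ℝ) ^ 7 := by field_simp
        _ ≤ C * D / Real.sqrt n := by
            refine div_le_div_of_nonneg_left (by positivity) hs0 ?_
            have : Real.sqrt n ≤ (n : ℝ) := Real.sqrt_le_iff.2 ⟨by linarith, by nlinarith⟩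
            exact this.trans (le_self_pow₀ hn (by norm_num))
  set ε : B := (n : ℂ)⁻¹ • ∑ s, e s - ((n : ℂ)⁻¹ * ∑ s, τ (e s)) • (1 : B) with hε
  have e3 : l2 τ ε ≤ 2 * D / Real.sqrt n := by
    set q : Fin n ≃ ι := (Fintype.equivFinOfCardEq hW.card).symm with hq
    have h := (hmom B G S τ hW.good n hW.pos_n (fun m => site (q m)) (hW.inj.comp q.injective) D
      (fun m => e (q m)) (fun m => e (q m))
      (fun m => ⟨he _, hne _, he _, hne _⟩)).1
    rwa [Equiv.sum_comp q e, Equiv.sum_comp q (fun s => τ (e s))] at h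
  have e4 : τ (c * ∑ s, ω s * e s) - τ c * ((n : ℂ)⁻¹ * ∑ s, τ (e s)) =
      (∑ s, (τ (ω s) - 1 / (n : ℂ)) * τ (c * e s)) + τ (c * ε) := by
    rw [e1, hε]
    simp only [mul_sub, mul_smul_comm, mul_one, Finset.mul_sum, map_sub, map_smul, map_sum,
      smul_eq_mul, sub_mul, Finset.sum_sub_distrib, one_div]
    simp only [← Finset.mul_sum]
    ring
  rw [e4]
  refine (norm_add_le _ _).trans ((add_le_add e2 (((hτ.norm_map_le _).trans
    (hτ.l2_mul_le _ _)).trans (mul_le_mul hnc e3 (hτ.l2_nonneg _) hC))).trans (le_of_eq ?_))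
  ring

/-- The squared modulus of a selection. -/
theorem map_sq_le (hmom : MomentStatement.{u, v}) {a : ι → B} (ha : ∀ s, a s ∈ S.alg {site s})
    {D : ℝ} (hD : 0 ≤ D) (hna : ∀ s, ‖a s‖ ≤ D) {c : B} (hc : c ∈ S.alg (bankSet bs)ᶜ) {C : ℝ}
    (hnc : ‖c‖ ≤ C) :
    ‖τ (c * (star (∑ s, ω s * a s) * ∑ s, ω s * a s)) -
      τ c * ((n : ℂ)⁻¹ * ∑ s, τ (star (a s) * a s))‖ ≤ 5 * C * D ^ 2 / Real.sqrt n := by
  have hτ := hW.good.trace
  have hC : 0 ≤ C := (norm_nonneg c).trans hnc
  have hsx : star (∑ s, ω s * a s) = ∑ s, ω s * star (a s) := by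
    rw [star_sum]
    refine Finset.sum_congr rfl fun s _ => ?_
    rw [star_mul, star_eq_of_isPos (hW.pos s)]
    exact ((hW.starCommute_site ha s s).2 : Commute (ω s) (star (a s))).eq.symm
  have h1 := hW.l2_mul_sub_le (b := a) (fun s => star_mem (ha s)) hD
    (fun s => (norm_star (a s)).trans_le (hna s)) hna
  have h2 := hW.map_weighted_le hmom (e := fun s => star (a s) * a s)
    (fun s => mul_mem (star_mem (ha s)) (ha s)) (sq_nonneg D)
    (fun s => by rw [CStarRing.norm_star_mul_self]; nlinarith [hna s, norm_nonneg (a s)]) hc hnc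
  set A := (∑ s, ω s * star (a s)) * ∑ s, ω s * a s
  set Q := ∑ s, ω s * (star (a s) * a s)
  rw [hsx]
  calc ‖τ (c * A) - τ c * ((n : ℂ)⁻¹ * ∑ s, τ (star (a s) * a s))‖
      = ‖τ (c * (A - Q)) + (τ (c * Q) - τ c * ((n : ℂ)⁻¹ * ∑ s, τ (star (a s) * a s)))‖ := by
        rw [mul_sub, map_sub]; ring_nf
    _ ≤ C * (2 * D ^ 2 / Real.sqrt n) + 3 * C * D ^ 2 / Real.sqrt n :=
        (norm_add_le _ _).trans (add_le_add (((hτ.norm_map_le _).trans (hτ.l2_mul_le _ _)).trans
          (mul_le_mul hnc h1 (hτ.l2_nonneg _) hC)) h2)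
    _ = 5 * C * D ^ 2 / Real.sqrt n := by ring

end Weights

/-! ### Normalised sums over one bank -/

/-- The squared coefficient of a normalised sum. -/
theorem coef_mul (t : ℝ) (N : ℕ) :
    ((t / Real.sqrt N : ℝ) : ℂ) * ((t / Real.sqrt N : ℝ) : ℂ) = ((t ^ 2 : ℝ) : ℂ) * (N : ℂ)⁻¹ := by
  rw [← Complex.ofReal_mul, div_mul_div_comm, Real.mul_self_sqrt (by positivity)]
  push_cast
  ring

theorem smul_sum_mul (t : ℝ) (N : ℕ) (X Y : B) :
    (((t / Real.sqrt N : ℝ) : ℂ) • X) * (((t / Real.sqrt N : ℝ) : ℂ) • Y) =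
      ((t ^ 2 : ℝ) : ℂ) • ((N : ℂ)⁻¹ • (X * Y)) := by
  rw [smul_mul_assoc, mul_smul_comm, smul_smul, coef_mul, ← smul_smul]

/-- The normalised sum of a feature. -/
def featSum (S : Fam B G) (t : ℝ) (b : Bank) (N : ℕ) (g : G) (j : Fin 6 × Bool) : B :=
  ((t / Real.sqrt N : ℝ) : ℂ) • ∑ m : Fin N, S.feature g (b, m) j

theorem phi_eq (t : ℝ) (b : Bank) (N : ℕ) (g : G) (j : Fin 6 × Bool) :
    S.phi t b N g j = rcalc ratFn (featSum S t b N g j) := by
  rw [Fam.phi, featSum, Fin.sum_univ_eq_sum_range (fun m => S.feature g (b, m) j)]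

theorem star_featSum (t : ℝ) (b : Bank) (N : ℕ) (g : G) (j : Fin 6 × Bool) :
    star (featSum S t b N g j) = featSum S t b N g j := by
  simp [featSum, star_sum, S.star_feature]

theorem featSum_mem (t : ℝ) (b : Bank) (N : ℕ) (g : G) (j : Fin 6 × Bool) :
    featSum S t b N g j ∈ S.alg (bankSet b) :=
  SMulMemClass.smul_mem _ (sum_mem fun m _ => S.feature_mem g (show (b, (m : ℕ)) ∈ bankSet b from rfl) j)

theorem site_injective (b : Bank) (N : ℕ) :
    Function.Injective fun m : Fin N => ((b, (m : ℕ)) : Site) :=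
  fun _ _ h => Fin.ext (congrArg Prod.snd h)

theorem phi_basic (hrat : RatStatement.{u}) (t : ℝ) (b : Bank) (N : ℕ) (g : G) (j : Fin 6 × Bool) :
    ‖S.phi t b N g j‖ ≤ 1 / 2 ∧ star (S.phi t b N g j) = S.phi t b N g j ∧
      S.phi t b N g j ∈ S.alg (bankSet b) := by
  have h := hrat B _ (star_featSum (S := S) t b N g j)
  rw [phi_eq]
  exact ⟨h.1, h.2.1, rcalc_mem _ (featSum_mem t b N g j)⟩

section Moments

variable {τ : B →ₗ[ℂ] ℂ} (hτ : S.Good τ)
include hτ

/-- The bounded substitute is close to the normalised sum. -/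
theorem l2_phi_sub_le (hrat : RatStatement.{u}) (hmom : MomentStatement.{u, v}) (t : ℝ) (b : Bank)
    {N : ℕ} (hN : 0 < N) (g : G) (j : Fin 6 × Bool) :
    l2 τ (S.phi t b N g j - featSum S t b N g j) ≤ t ^ 2 := by
  have h := ((hrat B _ (star_featSum (S := S) t b N g j)).2.2.2 τ hτ.trace).1
  obtain ⟨-, h4⟩ := (hmom B G S τ hτ N hN _ (site_injective b N) 1
    (fun m => S.feature g (b, m) j) (fun m => S.feature g (b, m) j)
    (fun m => ⟨S.feature_mem g (Set.mem_singleton _) j, S.norm_feature_le g _ j,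
      S.feature_mem g (Set.mem_singleton _) j, S.norm_feature_le g _ j⟩)).2.2
    (fun m => hτ.map_feature g _ j)
  have h5 := h4 fun m => S.star_feature g _ j
  rw [phi_eq]
  refine h.trans ?_
  have e : l2 τ (featSum S t b N g j * featSum S t b N g j) ≤ t ^ 2 * (2 * 1 ^ 2) := by
    rw [featSum, smul_sum_mul, hτ.trace.l2_smul, Complex.norm_real, Real.norm_eq_abs,
      abs_of_nonneg (sq_nonneg t)]
    exact mul_le_mul_of_nonneg_left h5 (sq_nonneg t)
  linarith

/-- The variance of a normalised sum of mean zero elements. -/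
theorem map_normSum_sq (hmom : MomentStatement.{u, v}) (t : ℝ) (b : Bank) {N : ℕ} (hN : 0 < N)
    {f : Fin N → B} (hf : ∀ m : Fin N, f m ∈ S.alg {((b, (m : ℕ)) : Site)})
    (hn : ∀ m, ‖f m‖ ≤ 2) (h0 : ∀ m, τ (f m) = 0) :
    (τ (star (((t / Real.sqrt N : ℝ) : ℂ) • ∑ m, f m) *
        (((t / Real.sqrt N : ℝ) : ℂ) • ∑ m, f m))).re =
      t ^ 2 * ((N : ℂ)⁻¹ * ∑ m, τ (star (f m) * f m)).re := by
  obtain ⟨h, -⟩ := (hmom B G S τ hτ N hN _ (site_injective b N) 2 f f
    (fun m => ⟨hf m, hn m, hf m, hn m⟩)).2.2 h0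
  rw [star_smul, Complex.star_def, Complex.conj_ofReal, smul_sum_mul, map_smul, h, smul_eq_mul,
    Complex.re_ofReal_mul]

/-- Distances between bounded substitutes dominate those of the features. -/
theorem phi_gap (hrat : RatStatement.{u}) (hmom : MomentStatement.{u, v}) (t : ℝ) (b : Bank)
    {N : ℕ} (hN : 0 < N) (g g' : G) :
    t ^ 2 / 2 * ((N : ℂ)⁻¹ * ∑ m : Fin N, ∑ i,
        τ (star (S.act g (S.z (b, m) i) - S.act g' (S.z (b, m) i)) *
          (S.act g (S.z (b, m) i) - S.act g' (S.z (b, m) i)))).re - 48 * t ^ 4 ≤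
      (∑ j, τ ((S.phi t b N g j - S.phi t b N g' j) * (S.phi t b N g j - S.phi t b N g' j))).re := by
  have ht := hτ.trace
  have key : ∀ j : Fin 6 × Bool,
      t ^ 2 / 2 * ((N : ℂ)⁻¹ * ∑ m : Fin N, τ ((S.feature g (b, m) j - S.feature g' (b, m) j) *
          (S.feature g (b, m) j - S.feature g' (b, m) j))).re - 4 * t ^ 4 ≤
        (τ ((S.phi t b N g j - S.phi t b N g' j) *
          (S.phi t b N g j - S.phi t b N g' j))).re := by
    intro j
    have hmean := map_normSum_sq hτ hmom t b hN
      (f := fun m => S.feature g (b, m) j - S.feature g' (b, m) j)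
      (fun m => sub_mem (S.feature_mem g (Set.mem_singleton _) j)
        (S.feature_mem g' (Set.mem_singleton _) j))
      (fun m => (norm_sub_le _ _).trans (by
        linarith [S.norm_feature_le g (b, m) j, S.norm_feature_le g' (b, m) j]))
      (fun m => by rw [map_sub, hτ.map_feature, hτ.map_feature, sub_zero])
    simp only [star_sub, S.star_feature] at hmean
    rw [Finset.sum_sub_distrib, smul_sub] at hmean
    have h1 := l2_phi_sub_le hτ hrat hmom t b hN g j
    have h2 := l2_phi_sub_le hτ hrat hmom t b hN g' j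
    have hp := fun g => (phi_basic (S := S) hrat t b N g j).2.1
    set A := featSum S t b N g j with hA
    set A' := featSum S t b N g' j with hA'
    set p := S.phi t b N g j
    set p' := S.phi t b N g' j
    have hu : star (p - p') = p - p' := by rw [star_sub, hp g, hp g']
    have h3 : l2 τ (A - A') ≤ l2 τ (p - p') + 2 * t ^ 2 := by
      have e : A - A' = -(p - A) + ((p - p') + (p' - A')) := by abel
      rw [e]
      have i1 := ht.l2_add_le (-(p - A)) ((p - p') + (p' - A'))
      have i2 := ht.l2_add_le (p - p') (p' - A')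
      rw [ht.l2_neg] at i1
      linarith
    have hv : l2 τ (A - A') ^ 2 = t ^ 2 * ((N : ℂ)⁻¹ * ∑ m : Fin N,
        τ ((S.feature g (b, m) j - S.feature g' (b, m) j) *
          (S.feature g (b, m) j - S.feature g' (b, m) j))).re := by
      rw [ht.l2_sq, ← hmean]
      rfl
    have hq : l2 τ (p - p') ^ 2 = (τ ((p - p') * (p - p'))).re := by rw [ht.l2_sq, hu]
    nlinarith [pow_le_pow_left₀ (ht.l2_nonneg (A - A')) h3 2,
      sq_nonneg (l2 τ (p - p') - 2 * t ^ 2)]
  have hsum := Finset.sum_le_sum fun j (_ : j ∈ Finset.univ) => key j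
  rw [← Complex.re_sum, Finset.sum_sub_distrib, ← Finset.mul_sum, ← Complex.re_sum,
    ← Finset.mul_sum, Finset.sum_const, Finset.sum_comm] at hsum
  refine le_trans (le_of_eq ?_) hsum
  congr 1
  · congr 3
    refine Finset.sum_congr rfl fun m _ => ?_
    rw [Fintype.sum_prod_type]
    refine Finset.sum_congr rfl fun i _ => ?_
    rw [Fintype.sum_bool, ← re_im_sq ht]
    congr 3 <;>
      simp only [Fam.feature, star_sub, Bool.false_eq_true, if_true, if_false, ← smul_sub] <;>
      congr 1 <;> abel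
  · simp [Fintype.card_prod]; ring

/-- The bounded substitutes have variance at least that of the features, up to `t ^ 4`. -/
theorem phi_var (hrat : RatStatement.{u}) (hmom : MomentStatement.{u, v}) (t : ℝ) (b : Bank)
    {N : ℕ} (hN : 0 < N) (g : G) :
    t ^ 2 / 8 - 12 * t ^ 4 ≤ (∑ j, τ (S.phi t b N g j * S.phi t b N g j)).re := by
  have ht := hτ.trace
  have key : ∀ j : Fin 6 × Bool,
      t ^ 2 / 2 * ((N : ℂ)⁻¹ * ∑ m : Fin N,
          τ (S.feature g (b, m) j * S.feature g (b, m) j)).re - t ^ 4 ≤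
        (τ (S.phi t b N g j * S.phi t b N g j)).re := by
    intro j
    have hmean := map_normSum_sq hτ hmom t b hN (f := fun m => S.feature g (b, m) j)
      (fun m => S.feature_mem g (Set.mem_singleton _) j)
      (fun m => (S.norm_feature_le g _ j).trans (by norm_num))
      (fun m => hτ.map_feature g _ j)
    simp only [S.star_feature] at hmean
    have h1 := l2_phi_sub_le hτ hrat hmom t b hN g j
    have hp := (phi_basic (S := S) hrat t b N g j).2.1
    set A := featSum S t b N g j with hA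
    set p := S.phi t b N g j
    have h3 : l2 τ A ≤ l2 τ p + t ^ 2 := by
      have i1 := ht.l2_add_le (-(p - A)) p
      rw [ht.l2_neg, show -(p - A) + p = A by abel] at i1
      linarith
    have hv : l2 τ A ^ 2 = t ^ 2 * ((N : ℂ)⁻¹ * ∑ m : Fin N,
        τ (S.feature g (b, m) j * S.feature g (b, m) j)).re := by
      rw [ht.l2_sq, ← hmean]
      rfl
    have hq : l2 τ p ^ 2 = (τ (p * p)).re := by rw [ht.l2_sq, hp]
    nlinarith [pow_le_pow_left₀ (ht.l2_nonneg A) h3 2, sq_nonneg (l2 τ p - t ^ 2)]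
  have hz : ∀ s, (1 / 4 : ℝ) ≤ (∑ j, τ (S.feature g s j * S.feature g s j)).re := by
    intro s
    obtain ⟨w, hw⟩ := S.z_lower s
    have e : (∑ j, τ (S.feature g s j * S.feature g s j)) =
        τ (S.act g (∑ i, star (S.z s i) * S.z s i)) := by
      rw [Fintype.sum_prod_type, map_sum, map_sum]
      refine Finset.sum_congr rfl fun i _ => ?_
      rw [Fintype.sum_bool, _root_.map_mul (S.act g), map_star (S.act g), ← re_im_sq ht]
      simp [Fam.feature]
    rw [e, hw, map_add, map_smul, _root_.map_mul, map_star, _root_.map_one, map_add, map_smul,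
      ht.map_one, smul_eq_mul, mul_one, Complex.add_re]
    have := ht.re_nonneg (S.act g w)
    norm_num
    linarith
  have hsum := Finset.sum_le_sum fun j (_ : j ∈ Finset.univ) => key j
  rw [← Complex.re_sum, Finset.sum_sub_distrib, ← Finset.mul_sum, ← Complex.re_sum,
    ← Finset.mul_sum, Finset.sum_const, Finset.sum_comm] at hsum
  refine le_trans ?_ hsum
  have hm := Finset.sum_le_sum fun m (_ : m ∈ (Finset.univ : Finset (Fin N))) => hz (b, (m : ℕ))
  rw [← Complex.re_sum] at hm
  simp only [Finset.sum_const, Finset.card_univ, Fintype.card_fin, Fintype.card_prod,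
    Fintype.card_bool, nsmul_eq_mul] at hm ⊢
  set Z := (∑ m : Fin N, ∑ j, τ (S.feature g (b, (m : ℕ)) j * S.feature g (b, (m : ℕ)) j))
  have hNr : (0 : ℝ) < N := by exact_mod_cast hN
  have hZ : 1 / 4 ≤ ((N : ℂ)⁻¹ * Z).re := by
    rw [← Complex.ofReal_natCast, ← Complex.ofReal_inv, Complex.re_ofReal_mul,
      le_inv_mul_iff₀ hNr]
    exact hm
  push_cast
  nlinarith [mul_le_mul_of_nonneg_left hZ (sq_nonneg t)]

end Moments

/-- A multiple of `1 / √(M + 1)` tends to zero. -/
theorem tendsto_div_sqrt (K : ℝ) :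
    Tendsto (fun M : ℕ => K / Real.sqrt ((M + 1 : ℕ) : ℝ)) atTop (𝓝 0) :=
  tendsto_const_nhds.div_atTop (Real.tendsto_sqrt_atTop.comp
    (tendsto_natCast_atTop_atTop.comp (tendsto_add_atTop_nat 1)))

theorem div_sqrt_card_le {K : ℝ} (hK : 0 ≤ K) {r : ℕ} (hr : 0 < r) (M : ℕ) :
    K / Real.sqrt ((r * (M + 1) : ℕ) : ℝ) ≤ K / Real.sqrt ((M + 1 : ℕ) : ℝ) := by
  refine div_le_div_of_nonneg_left hK (Real.sqrt_pos.2 (by positivity)) (Real.sqrt_le_sqrt ?_)
  exact_mod_cast Nat.le_mul_of_pos_left (M + 1) hr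

end Selection

open Selection

/-- The selected families and the bounded sums of features, from the bounded substitute and the
moments of sums over independent sites. -/
theorem selectStatement_of (hrat : RatStatement.{u}) (hmom : MomentStatement.{u, v}) :
    SelectStatement.{u, v} := by
  intro B _ G _ S τ hτ r hr bp bs hbp hbs ω hωm hωp hωs hωc hω1 hω2 t ht ht1 x hx φ hφ
  set site : ∀ M : ℕ, Fin r × Fin (M + 1) → Site := fun M s => (bp s.1, (s.2 : ℕ)) with hsite
  set a : G → Fin 6 → ∀ M : ℕ, Fin r × Fin (M + 1) → B :=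
    fun g i M s => S.act g (S.z (site M s) i) with ha
  have hW : ∀ M, Weights S (τ M) bs (site M) (ω M) (r * (M + 1)) := fun M =>
    { good := hτ M
      card := by simp
      pos_n := by positivity
      inj := fun s s' h => Prod.ext (hbp (congrArg Prod.fst h)) (Fin.ext (congrArg Prod.snd h))
      ne := fun s => hbs s.1
      mem := hωm M
      pos := hωp M
      sum := hωs M
      comm := hωc M
      mean := hω1 M
      pair := hω2 M }
  have ham : ∀ g i M s, a g i M s ∈ S.alg {site M s} := fun g i M s =>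
    S.z_mem g (Set.mem_singleton _) i
  have han : ∀ g i M s, ‖a g i M s‖ ≤ 1 := fun g i M s => S.norm_z_le g _ i
  have hxe : ∀ g i M, x g i M = ∑ s, ω M s * a g i M s := fun g i M => hx g i M
  have hdx : ∀ g g' i M, x g i M - x g' i M = ∑ s, ω M s * (a g i M s - a g' i M s) := by
    intro g g' i M
    rw [hxe, hxe, ← Finset.sum_sub_distrib]
    simp only [mul_sub]
  have hdn : ∀ g g' i M s, ‖a g i M s - a g' i M s‖ ≤ 2 := fun g g' i M s =>
    (norm_sub_le _ _).trans (by linarith [han g i M s, han g' i M s])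
  refine ⟨fun g i M => ⟨?_, ?_⟩, fun k g j M => ?_, fun g i k h j => ?_,
    fun k g j k' g' j' => ?_, fun g i => ?_, fun g => ?_, fun c hcb hcm g g' i => ?_,
    fun g g' ε hε => ?_, fun g M => ?_⟩
  · rw [hxe]; exact (hW M).norm_le (ham g i M) zero_le_one (han g i M)
  · rw [hxe]
    refine sum_mem fun s _ => mul_mem (S.alg_mono ?_ (hωm M s)) (S.alg_mono ?_ (ham g i M s))
    · exact fun p hp => Or.inl hp
    · exact fun p hp => Or.inr ⟨s.1, by rw [Set.mem_singleton_iff.1 hp]⟩
  · rw [hφ]; exact phi_basic hrat t (bp k) (M + 1) g j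
  · -- almost commutation of selections and bounded sums
    refine squeeze_zero (fun M => norm_nonneg _) (fun M => ?_) (tendsto_div_sqrt 2)
    set A := featSum S t (bp k) (M + 1) h j with hA
    rw [hφ, hxe, phi_eq]
    refine ((hrat B A (star_featSum t (bp k) (M + 1) h j)).2.2.1 _).trans ?_
    set d : Fin r × Fin (M + 1) → B := fun s => if s.1 = k then
      ((t / Real.sqrt ((M + 1 : ℕ) : ℝ) : ℝ) : ℂ) •
        (a g i M s * S.feature h (site M s) j - S.feature h (site M s) j * a g i M s)
      else 0 with hd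
    have hcomm : ∀ s, ω M s * a g i M s * A - A * (ω M s * a g i M s) = ω M s * d s := by
      intro s
      have cA : Commute (ω M s) A := ((hW M).starCommute (P := bankSet (bp k))
        (fun p hp => by rw [show p.1 = bp k from hp]; exact hbs k)
        (featSum_mem t (bp k) (M + 1) h j) s).1
      rw [← mul_assoc A, ← cA.eq, mul_assoc, mul_assoc, ← mul_sub]
      congr 1
      by_cases hs : s.1 = k
      · simp only [hd, if_pos hs, hA, featSum, mul_smul_comm, smul_mul_assoc, ← smul_sub,
          Finset.mul_sum, Finset.sum_mul, ← Finset.sum_sub_distrib]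
        congr 1
        rw [Finset.sum_eq_single_of_mem s.2 (Finset.mem_univ _)]
        · simp [hsite, hs]
        · intro m _ hm
          exact sub_eq_zero.2 (S.starCommute_alg (P := {site M s}) (Q := {(bp k, (m : ℕ))})
            (Set.disjoint_singleton.2 fun e => hm (Fin.ext (congrArg Prod.snd e).symm))
            (ham g i M s) (S.feature_mem h (Set.mem_singleton _) j)).1
      · simp only [hd, if_neg hs]
        exact sub_eq_zero.2 (S.starCommute_alg (P := {site M s}) (Q := bankSet (bp k))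
          (Set.disjoint_singleton_left.2 fun e => hs (hbp e)) (ham g i M s)
          (featSum_mem t (bp k) (M + 1) h j)).1
    rw [Finset.sum_mul, Finset.mul_sum, ← Finset.sum_sub_distrib,
      Finset.sum_congr rfl fun s _ => hcomm s]
    refine (hW M).norm_le (fun s => ?_) (by positivity) (fun s => ?_)
    · by_cases hs : s.1 = k
      · simp only [hd, if_pos hs]
        exact SMulMemClass.smul_mem _ (sub_mem
          (mul_mem (ham g i M s) (S.feature_mem h (Set.mem_singleton _) j))
          (mul_mem (S.feature_mem h (Set.mem_singleton _) j) (ham g i M s)))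
      · simp [hd, hs, zero_mem]
    · by_cases hs : s.1 = k
      · simp only [hd, if_pos hs]
        rw [norm_smul, Complex.norm_real, Real.norm_eq_abs, abs_of_nonneg (by positivity)]
        have h1 : ‖a g i M s * S.feature h (site M s) j - S.feature h (site M s) j * a g i M s‖ ≤
            2 := by
          have h0 := mul_le_one₀ (han g i M s) (norm_nonneg _) (S.norm_feature_le h (site M s) j)
          linarith [norm_sub_le (a g i M s * S.feature h (site M s) j)
            (S.feature h (site M s) j * a g i M s), norm_mul_le (a g i M s)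
            (S.feature h (site M s) j), norm_mul_le (S.feature h (site M s) j) (a g i M s)]
        calc _ ≤ (1 / Real.sqrt ((M + 1 : ℕ) : ℝ)) * 2 :=
              mul_le_mul (div_le_div_of_nonneg_right ht1 (Real.sqrt_nonneg _)) h1 (norm_nonneg _)
                (by positivity)
          _ = 2 / Real.sqrt ((M + 1 : ℕ) : ℝ) := by ring
      · simp only [hd, if_neg hs, norm_zero]; positivity
  · -- almost commutation of bounded sums
    refine squeeze_zero (fun M => (hτ M).trace.l2_nonneg _) (fun M => ?_) (tendsto_div_sqrt 2)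
    rw [hφ, hφ]
    rcases eq_or_ne k k' with rfl | hk
    · rw [phi_eq, phi_eq]
      refine (((hrat B _ (star_featSum t (bp k) (M + 1) g j)).2.2.2 (τ M) (hτ M).trace).2 _
        (star_featSum t (bp k) (M + 1) g' j')).trans ?_
      have h2 := (hmom B G S (τ M) (hτ M) (M + 1) M.succ_pos _ (site_injective (bp k) (M + 1)) 1
        (fun m => S.feature g (bp k, m) j) (fun m => S.feature g' (bp k, m) j')
        (fun m => ⟨S.feature_mem g (Set.mem_singleton _) j, S.norm_feature_le g _ j,
          S.feature_mem g' (Set.mem_singleton _) j', S.norm_feature_le g' _ j'⟩)).2.1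
      rw [featSum, featSum, smul_sum_mul, smul_sum_mul, ← smul_sub, ← smul_sub,
        (hτ M).trace.l2_smul, Complex.norm_real, Real.norm_eq_abs, abs_of_nonneg (sq_nonneg t)]
      refine le_trans (mul_le_of_le_one_left ((hτ M).trace.l2_nonneg _) (by nlinarith))
        (h2.trans (le_of_eq ?_))
      norm_num
    · rw [sub_eq_zero.2 (S.starCommute_alg (P := bankSet (bp k)) (Q := bankSet (bp k'))
        (Set.disjoint_left.2 fun p hp hp' => hk (hbp (hp.symm.trans hp')))
        (phi_basic hrat t (bp k) (M + 1) g j).2.2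
        (phi_basic hrat t (bp k') (M + 1) g' j').2.2).1, (hτ M).trace.l2_zero]
      positivity
  · -- almost square zero
    refine squeeze_zero (fun M => (hτ M).trace.l2_nonneg _) (fun M => ?_) (tendsto_div_sqrt 2)
    have h := (hW M).l2_mul_sub_le (b := a g i M) (ham g i M) zero_le_one (han g i M) (han g i M)
    have h0 : ∀ s, a g i M s * a g i M s = 0 := fun s => by
      rw [ha]; simp only; rw [← _root_.map_mul, S.z_sq, map_zero]
    simp only [h0, mul_zero, Finset.sum_const_zero, sub_zero, ← hxe, one_pow, mul_one] at h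
    exact h.trans (div_sqrt_card_le (by norm_num) hr M)
  · -- fullness
    have hp : ∀ M s, ∃ b : B, ∑ i, star (a g i M s) * a g i M s =
        (1 / 4 : ℂ) • 1 + star b * b := by
      intro M s
      obtain ⟨b, hb⟩ := S.z_lower (site M s)
      refine ⟨S.act g b, ?_⟩
      have := congrArg (S.act g) hb
      simp only [map_sum, _root_.map_mul, map_star, map_add, map_smul, _root_.map_one] at this
      exact this
    set p : ∀ M, Fin r × Fin (M + 1) → B :=
      fun M s => ∑ i, star (a g i M s) * a g i M s - (1 / 4 : ℂ) • 1 with hpd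
    have hpm : ∀ M s, p M s ∈ S.alg {site M s} := fun M s =>
      sub_mem (sum_mem fun i _ => mul_mem (star_mem (ham g i M s)) (ham g i M s))
        (SMulMemClass.smul_mem _ (one_mem _))
    have hpp : ∀ M s, IsPos (p M s) := fun M s => by
      obtain ⟨b, hb⟩ := hp M s
      exact ⟨b, by rw [hpd]; simp only; rw [hb, add_sub_cancel_left]⟩
    choose w hw using fun M => isPos_weighted (hωp M) (hpp M)
      fun s => ((hW M).starCommute_site (hpm M) s s).1
    refine ⟨w, ⟨7, fun M => ?_⟩, squeeze_zero (fun M => (hτ M).trace.l2_nonneg _) (fun M => ?_)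
      (tendsto_div_sqrt 12)⟩
    · have h1 : ‖∑ s, ω M s * p M s‖ ≤ 7 := (hW M).norm_le (hpm M) (by norm_num) fun s => by
        refine (norm_sub_le _ _).trans ?_
        have h6 : ‖∑ i, star (a g i M s) * a g i M s‖ ≤ ∑ _i : Fin 6, (1 : ℝ) :=
          (norm_sum_le _ _).trans (Finset.sum_le_sum fun i _ => by
            rw [CStarRing.norm_star_mul_self]
            exact mul_le_one₀ (han g i M s) (norm_nonneg _) (han g i M s))
        have h4 : ‖(1 / 4 : ℂ) • (1 : B)‖ ≤ 1 := by
          rw [norm_smul]; norm_num; linarith [norm_one_le (B := B)]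
        simp at h6
        linarith
      rw [hw M, CStarRing.norm_star_mul_self] at h1
      nlinarith [norm_nonneg (w M)]
    · have e : ∑ i, star (x g i M) * x g i M - ((1 / 4 : ℂ) • 1 + star (w M) * w M) =
          ∑ i, ((∑ s, ω M s * star (a g i M s)) * (∑ s, ω M s * a g i M s) -
            ∑ s, ω M s * (star (a g i M s) * a g i M s)) := by
        rw [Finset.sum_sub_distrib, Finset.sum_comm (f := fun i s =>
          ω M s * (star (a g i M s) * a g i M s)), ← hw M, hpd]
        congr 1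
        · refine Finset.sum_congr rfl fun i _ => ?_
          rw [hxe, star_sum]
          congr 1
          refine Finset.sum_congr rfl fun s _ => ?_
          rw [star_mul, star_eq_of_isPos (hωp M s)]
          exact ((hW M).starCommute_site (ham g i M) s s).2.eq.symm
        · simp only [mul_sub, Finset.sum_sub_distrib, ← Finset.mul_sum]
          rw [← Finset.sum_mul, hωs M, one_mul]
          abel
      rw [e]
      refine ((hτ M).trace.l2_sum_le _ _).trans ((Finset.sum_le_sum fun i _ =>
        ((hW M).l2_mul_sub_le (b := a g i M) (fun s => star_mem (ham g i M s)) zero_le_one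
          (fun s => (norm_star (a g i M s)).trans_le (han g i M s)) (han g i M)).trans
          (div_sqrt_card_le (by norm_num) hr M)).trans (le_of_eq ?_))
      simp; ring
  · -- independence
    obtain ⟨C, hC⟩ := hcb
    have hC0 : 0 ≤ C := (norm_nonneg _).trans (hC 0)
    refine squeeze_zero_norm (fun M => ?_) (tendsto_div_sqrt (40 * C))
    rw [hdx]
    set A := fun s => a g i M s - a g' i M s
    set q := ((r * (M + 1) : ℕ) : ℂ)⁻¹ * ∑ s, τ M (star (A s) * A s)
    have hA : ∀ s, A s ∈ S.alg {site M s} := fun s => sub_mem (ham g i M s) (ham g' i M s)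
    have h1 := (hW M).map_sq_le hmom hA zero_le_two (hdn g g' i M) (hcm M) (hC M)
    have h2 := (hW M).map_sq_le hmom hA zero_le_two (hdn g g' i M) (one_mem _) norm_one_le
    rw [one_mul, (hτ M).trace.map_one, one_mul] at h2
    set X := τ M (star (∑ s, ω M s * A s) * ∑ s, ω M s * A s)
    set Y := τ M (c M * (star (∑ s, ω M s * A s) * ∑ s, ω M s * A s))
    have h3 := mul_le_mul (((hτ M).trace.norm_map_le_norm (c M)).trans (hC M)) h2 (norm_nonneg _)
      hC0
    calc ‖Y - τ M (c M) * X‖ = ‖(Y - τ M (c M) * q) - τ M (c M) * (X - q)‖ := by ring_nf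
      _ ≤ 5 * C * 2 ^ 2 / Real.sqrt ((r * (M + 1) : ℕ) : ℝ) +
          C * (5 * 1 * 2 ^ 2 / Real.sqrt ((r * (M + 1) : ℕ) : ℝ)) :=
          (norm_sub_le _ _).trans (add_le_add h1 (by rw [norm_mul]; exact h3))
      _ = 40 * C / Real.sqrt ((r * (M + 1) : ℕ) : ℝ) := by ring
      _ ≤ _ := div_sqrt_card_le (by positivity) hr M
  · -- distances
    filter_upwards [(tendsto_div_sqrt ((r : ℝ) * 60)).eventually_le_const hε] with M hM
    set Xi : Fin 6 → ℂ := fun i =>
      τ M (star (x g i M - x g' i M) * (x g i M - x g' i M))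
    set qi : Fin 6 → ℂ := fun i => ((r * (M + 1) : ℕ) : ℂ)⁻¹ *
      ∑ s, τ M (star (a g i M s - a g' i M s) * (a g i M s - a g' i M s)) with hqi
    have hq : ∀ i, (Xi i).re ≤ (qi i).re + 20 / Real.sqrt ((M + 1 : ℕ) : ℝ) := by
      intro i
      have h2 := (hW M).map_sq_le hmom (fun s => sub_mem (ham g i M s) (ham g' i M s)) zero_le_two
        (hdn g g' i M) (one_mem _) norm_one_le
      rw [one_mul, (hτ M).trace.map_one, one_mul, ← hdx] at h2
      have h5 := (Complex.re_le_norm _).trans (h2.trans (div_sqrt_card_le (by norm_num) hr M))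
      rw [Complex.sub_re, show (5 : ℝ) * 1 * 2 ^ 2 = 20 by norm_num] at h5
      simp only [Xi, qi]
      linarith
    have hk := Finset.sum_le_sum fun k (_ : k ∈ (Finset.univ : Finset (Fin r))) =>
      phi_gap (hτ M) hrat hmom t (bp k) M.succ_pos g g'
    rw [← Complex.re_sum, Finset.sum_sub_distrib, ← Finset.mul_sum, ← Complex.re_sum,
      ← Finset.mul_sum, Finset.sum_const, Finset.card_univ, Fintype.card_fin, nsmul_eq_mul] at hk
    simp only [hφ]
    have e : (∑ i, qi i) * (r : ℂ) = ((M + 1 : ℕ) : ℂ)⁻¹ * ∑ k : Fin r, ∑ m : Fin (M + 1), ∑ i,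
        τ M (star (S.act g (S.z (bp k, m) i) - S.act g' (S.z (bp k, m) i)) *
          (S.act g (S.z (bp k, m) i) - S.act g' (S.z (bp k, m) i))) := by
      have hr' : (r : ℂ) ≠ 0 := Nat.cast_ne_zero.2 hr.ne'
      simp only [hqi, ha, hsite]
      rw [← Finset.mul_sum, Finset.sum_comm, Fintype.sum_prod_type]
      push_cast
      field_simp
    have e' := congrArg Complex.re e
    rw [mul_comm, ← Complex.ofReal_natCast, Complex.re_ofReal_mul] at e'
    push_cast at hk e'
    rw [← e', Complex.re_sum] at hk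
    have hs := Finset.sum_le_sum fun i (_ : i ∈ (Finset.univ : Finset (Fin 6))) => hq i
    rw [Finset.sum_add_distrib, Finset.sum_const, Finset.card_univ, Fintype.card_fin,
      nsmul_eq_mul] at hs
    rw [Complex.re_sum (f := fun i => τ M (star (x g i M - x g' i M) * (x g i M - x g' i M)))]
    push_cast at hs hM
    simp only [Xi] at hs
    have hr0 : (0 : ℝ) ≤ r := r.cast_nonneg
    have ht2 : t ^ 2 / 2 ≤ 1 / 2 := by nlinarith
    have h6 := mul_le_mul_of_nonneg_left hs (show (0 : ℝ) ≤ r * (t ^ 2 / 2) by positivity)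
    have h7 : r * (t ^ 2 / 2) * (6 * (20 / Real.sqrt ((M : ℝ) + 1))) ≤ ε := by
      refine le_trans ?_ hM
      calc _ ≤ (r : ℝ) * (1 / 2) * (6 * (20 / Real.sqrt ((M : ℝ) + 1))) := by gcongr
        _ = r * 60 / Real.sqrt ((M : ℝ) + 1) := by ring
    nlinarith [h6, h7, hk, mul_nonneg hr0 (pow_nonneg ht.le 4)]
  · -- variances
    simp only [hφ]
    have hk := Finset.sum_le_sum fun k (_ : k ∈ (Finset.univ : Finset (Fin r))) =>
      phi_var (hτ M) hrat hmom t (bp k) M.succ_pos g
    rw [Finset.sum_const, Finset.card_univ, Fintype.card_fin, nsmul_eq_mul, ← Complex.re_sum] at hk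
    exact le_trans (mul_le_mul_of_nonneg_left (by nlinarith [pow_nonneg ht.le 4]) r.cast_nonneg) hk

end Vale.Agent.P095.Full.Tracial
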