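import Vale.Agent.P095.Full.Tracial.Core
import Vale.Agent.P095.Full.Tracial.Fam
import Vale.Agent.P095.Full.Tracial.Factor
import Vale.Agent.P095.Full.Tracial.Replica
import Vale.Agent.P095.Full.Tracial.Ladder
import Vale.Agent.P095.Full.Tracial.Limit
import Vale.Agent.P095.Full.Tracial.Rat
import Vale.Agent.P095.Full.Tracial.Moments
import Vale.Agent.P095.Full.Tracial.Select

/-!
# P095, all amenable groups: the core of the tracial half, from the proved modules
-/

noncomputable section

namespace Vale.Agent.P095.Full.Tracial

universe u v

theorem coreStatement : CoreStatement.{u, v} :=
  coreStatement_of famPartitionStatement (selectStatement_of ratStatement momentStatement)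
    limitStatement factorStatement replicaStatement ladderStatement

end Vale.Agent.P095.Full.Tracial
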