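import Vale.Agent.P095.Gamma.L2
import Vale.Agent.P095.Full.Defs
import Vale.Agent.P101.Quotient

/-!
# P095, all amenable groups: objects of the tracial half

Translation stable commuting sites, each carrying a square-zero family, the elements built from
them, and the weights of a replica and of the ladder of replicas.
-/

noncomputable section

namespace Vale.Agent.P095.Full.Tracial

universe u v w

open Filter Topology BoundedContinuousFunction Vale.Agent.P101 Vale.Agent.P095.Gamma

/-- The label of a bank of sites. -/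
abbrev Bank : Type := ℕ × ℕ × ℕ

/-- A member of a bank. -/
abbrev Site : Type := Bank × ℕ

/-- The sites of a bank. -/
def bankSet (b : Bank) : Set Site := {s | s.1 = b}

variable {B : Type u} [CStarAlgebra B] {G : Type v} [Group G]

variable (B G) in
/-- Commuting translation stable sites with a square-zero family and a distinguished self-adjoint
contraction. -/
structure Fam where
  /-- The action. -/
  act : G → B →⋆ₐ[ℂ] B
  act_one : ∀ x, act 1 x = x
  act_mul : ∀ g k x, act (g * k) x = act g (act k x)
  /-- The distinguished element of a site. -/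
  h : Site → B
  /-- The square-zero family of a site. -/
  z : Site → Fin 6 → B
  h_sa : ∀ s, star (h s) = h s
  h_norm : ∀ s, ‖h s‖ ≤ 1
  z_sq : ∀ s i, z s i * z s i = 0
  z_norm : ∀ s i, ‖z s i‖ ≤ 1
  z_lower : ∀ s, ∃ b : B, ∑ i, star (z s i) * z s i = (1 / 4 : ℂ) • 1 + star b * b
  comm : ∀ s t, s ≠ t → ∀ g k : G,
    StarCommute (act g (h s)) (act k (h t)) ∧
    (∀ i, StarCommute (act g (h s)) (act k (z t i))) ∧
    ∀ i j, StarCommute (act g (z s i)) (act k (z t j))

namespace Fam

variable (S : Fam B G)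

/-- The translates of the elements of the sites in `P`. -/
def genSet (P : Set Site) : Set B :=
  {x | ∃ g, ∃ s ∈ P, S.act g (S.h s) = x ∨ ∃ i, S.act g (S.z s i) = x}

/-- The closed algebra of the sites in `P`. -/
def alg (P : Set Site) : StarSubalgebra ℂ B := (StarAlgebra.adjoin ℂ (S.genSet P)).topologicalClosure

/-- A trace in which disjoint sets of sites are independent and the distinguished elements have
mean zero and second moment at least `2/9`. -/
structure Good (τ : B →ₗ[ℂ] ℂ) : Prop where
  trace : IsTrace B τ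
  indep : ∀ P : Set Site, ∀ d ∈ S.alg P, ∀ e ∈ S.alg Pᶜ, τ (d * e) = τ d * τ e
  mean : ∀ g s, τ (S.act g (S.h s)) = 0
  var : ∀ g s, (2 / 9 : ℝ) ≤ (τ (S.act g (S.h s) * S.act g (S.h s))).re

/-- A real or imaginary part of a member of the family of a site. -/
def feature (g : G) (s : Site) (j : Fin 6 × Bool) : B :=
  if j.2 then (1 / 2 : ℂ) • (S.act g (S.z s j.1) + star (S.act g (S.z s j.1)))
  else (-(Complex.I) / 2) • (S.act g (S.z s j.1) - star (S.act g (S.z s j.1)))

end Fam

/-- The error of a family of elements as square-zero, invariant, uniformly large elements. -/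
def errElem (act : G → B →⋆ₐ[ℂ] B) (T : Finset G) (Y : Fin 6 → B) : B :=
  (∑ g ∈ T, ∑ i, star (act g (Y i) - Y i) * (act g (Y i) - Y i)) +
    (∑ i, star (Y i * Y i) * (Y i * Y i)) +
    cfc (posCut 0) (algebraMap ℝ B (1 / 4) - ∑ i, (star (Y i) * Y i + Y i * star (Y i)))

/-- `t / (1 + t ^ 2)`, the bounded substitute for `t`. -/
def ratFn (t : ℝ) : ℝ := t / (1 + t ^ 2)

/-- The real functional calculus, for algebras of arbitrary universe. -/
def rcalc {D : Type w} [CStarAlgebra D] (f : ℝ → ℝ) (a : D) : D := cfc f a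

/-- The bounded substitute for `t` times the normalised sum of a feature over `M` sites. -/
def Fam.phi (S : Fam B G) (t : ℝ) (b : Bank) (M : ℕ) (g : G) (j : Fin 6 × Bool) : B :=
  rcalc ratFn (((t / Real.sqrt M : ℝ) : ℂ) • ∑ s ∈ Finset.range M, S.feature g (b, s) j)

/-- The member of the family selected by weights over `r` banks of `M` sites. -/
def Fam.sel (S : Fam B G) {r : ℕ} (b : Fin r → Bank) (M : ℕ) (ω : Fin r × Fin M → B) (g : G)
    (i : Fin 6) : B :=
  ∑ s : Fin r × Fin M, ω s * S.act g (S.z (b s.1, (s.2 : ℕ)) i)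

/-- The closed star algebra generated by a set. -/
def closedGen {D : Type w} [CStarAlgebra D] (s : Set D) : StarSubalgebra ℂ D :=
  (StarAlgebra.adjoin ℂ s).topologicalClosure

/-- The density of a factor from a partition into signed features and their bounded sums. -/
def factorQ {D : Type w} [CStarAlgebra D] (π : (Fin 6 × Bool) × Bool → D)
    (φ : Fin 6 × Bool → D) : D :=
  1 + ∑ j, (π (j, true) - π (j, false)) * φ j

/-- `min 1 (t - a)₊`. -/
def levelRamp (a t : ℝ) : ℝ := max 0 (min 1 (t - a))

/-- The weight of a level above the base level `K`. -/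
def levelWeight (K a : ℕ) (t : ℝ) : ℝ := levelRamp (K + a : ℕ) t / max t K

/-- The average of the densities over a finite set. -/
def meanDensity {D : Type w} [CStarAlgebra D] {ι : Type v} (R : ι → D) (F : Finset ι) : D :=
  (F.card : ℂ)⁻¹ • ∑ g ∈ F, R g * R g

/-- The weights of a replica: the densities over their average, gated by random levels. -/
def levelP {D : Type w} [CStarAlgebra D] {ι : Type v} [DecidableEq ι] (K : ℕ) {m : ℕ}
    (p : Fin m → D) (R : ι → D) (F : Finset ι) (g : ι) : D :=
  if g ∈ F then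
    (F.card : ℂ)⁻¹ •
      ((∑ a : Fin m, p a * rcalc (levelWeight K a) (meanDensity R F)) * (R g * R g))
  else 0

/-- The product of `1 - E m` over `m < l`. -/
def ladderZ {D : Type w} [CStarAlgebra D] {L : ℕ} (E : Fin L → D) (l : Fin L) : D :=
  (List.ofFn fun m => if m < l then 1 - E m else 1).prod

/-- The product of all `1 - E m`. -/
def ladderRest {D : Type w} [CStarAlgebra D] {L : ℕ} (E : Fin L → D) : D :=
  (List.ofFn fun m => 1 - E m).prod

/-- The weights of the ladder of replicas applied to the selected elements. -/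
def ladderY {D : Type w} [CStarAlgebra D] {ι : Type v} {L : ℕ} (U : Finset ι)
    (P : Fin L → ι → D) (x : Fin L → ι → Fin 6 → D) (i : Fin 6) : D :=
  ∑ l, ∑ g ∈ U, ladderZ (fun m => ∑ k ∈ U, P m k) l * P l g * x l g i

section Limit

variable {τ : ℕ → B →ₗ[ℂ] ℂ}

/-- Bounded sequences whose `L²` seminorms in the traces tend to zero along `U`. -/
def limIdeal (hτ : ∀ M, IsTrace B (τ M)) (U : Ultrafilter ℕ) : Ideal (ℕ →ᵇ B) where
  carrier := {f | Tendsto (fun M => l2 (τ M) (f M)) U (𝓝 0)}
  zero_mem' := by simp [l2, tendsto_const_nhds]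
  add_mem' {f g} hf hg := by
    refine squeeze_zero (fun M => (hτ M).l2_nonneg _) (fun M => (hτ M).l2_add_le (f M) (g M)) ?_
    simpa using hf.add hg
  smul_mem' c f hf := by
    refine squeeze_zero (fun M => (hτ M).l2_nonneg _)
      (fun M => ((hτ M).l2_mul_le (c M) (f M)).trans
        (mul_le_mul_of_nonneg_right (c.norm_coe_le_norm M) ((hτ M).l2_nonneg _))) ?_
    simpa using hf.const_mul ‖c‖

variable (hτ : ∀ M, IsTrace B (τ M)) (U : Ultrafilter ℕ)

instance limIdeal.isTwoSided : (limIdeal hτ U).IsTwoSided where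
  mul_mem_of_left {f} c hf := by
    refine squeeze_zero (fun M => (hτ M).l2_nonneg _)
      (fun M => ((hτ M).l2_mul_le' (f M) (c M)).trans
        (mul_le_mul_of_nonneg_left (c.norm_coe_le_norm M) ((hτ M).l2_nonneg _))) ?_
    simpa using (show Tendsto (fun M => l2 (τ M) (f M)) U (𝓝 0) from hf).mul_const ‖c‖

instance limIdeal.isClosed : IsClosed (limIdeal hτ U : Set (ℕ →ᵇ B)) := by
  rw [← closure_subset_iff_isClosed]
  intro f hf
  show Tendsto (fun M => l2 (τ M) (f M)) U (𝓝 0)
  rw [Metric.tendsto_nhds]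
  intro ε hε
  obtain ⟨g, hg, hfg⟩ := Metric.mem_closure_iff.1 hf (ε / 2) (half_pos hε)
  filter_upwards [(Metric.tendsto_nhds.1
    (show Tendsto (fun M => l2 (τ M) (g M)) U (𝓝 0) from hg)) (ε / 2) (half_pos hε)] with M hM
  rw [Real.dist_eq, sub_zero, abs_of_nonneg ((hτ M).l2_nonneg _)] at hM ⊢
  have h1 : l2 (τ M) (f M - g M) ≤ ‖f - g‖ :=
    ((hτ M).l2_le_norm _).trans ((f - g).norm_coe_le_norm M)
  have h2 : l2 (τ M) (f M) ≤ l2 (τ M) (f M - g M) + l2 (τ M) (g M) := by
    simpa using (hτ M).l2_add_le (f M - g M) (g M)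
  rw [dist_eq_norm] at hfg
  linarith

/-- The limit of the `L²`-completions along `U`, on bounded sequences. -/
abbrev LimQuot : Type u := (ℕ →ᵇ B) ⧸ limIdeal hτ U

/-- The quotient map. -/
def limMk : (ℕ →ᵇ B) →⋆ₐ[ℂ] LimQuot hτ U := quotStar (limIdeal hτ U)

/-- The sequences lying at every level in the algebra of the given sites. -/
def Fam.seqAlg (S : Fam B G) (P : ℕ → Set Site) : StarSubalgebra ℂ (ℕ →ᵇ B) where
  carrier := {f | ∀ M, f M ∈ S.alg (P M)}
  mul_mem' hf hg M := mul_mem (hf M) (hg M)
  add_mem' hf hg M := add_mem (hf M) (hg M)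
  one_mem' _ := one_mem _
  zero_mem' _ := zero_mem _
  algebraMap_mem' c _ := StarSubalgebra.algebraMap_mem _ c
  star_mem' hf M := star_mem (hf M)

end Limit

end Vale.Agent.P095.Full.Tracial
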