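import Vale.Agent.P095.Full.Tracial.Setup

/-!
# P095, all amenable groups: working in the limit

Images of the algebras of sites in the limit quotient, their independence, and the limits of
partitions.
-/

noncomputable section

namespace Vale.Agent.P095.Full.Tracial

universe u v w

open Filter Topology BoundedContinuousFunction Vale.Agent.P101 Vale.Agent.P095.Gamma

section ClosedGen

variable {D : Type w} [CStarAlgebra D]

theorem subset_closedGen (s : Set D) : s ⊆ closedGen s := fun _ hx =>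
  StarSubalgebra.le_topologicalClosure _ (StarAlgebra.subset_adjoin ℂ _ hx)

theorem isClosed_closedGen (s : Set D) : IsClosed (closedGen s : Set D) :=
  StarSubalgebra.isClosed_topologicalClosure _

instance instIsClosedClosedGen (s : Set D) : IsClosed (closedGen s : Set D) := isClosed_closedGen s

theorem closedGen_le {s : Set D} {K : StarSubalgebra ℂ D} (hK : IsClosed (K : Set D))
    (h : s ⊆ K) : closedGen s ≤ K :=
  StarSubalgebra.topologicalClosure_minimal (StarAlgebra.adjoin_le h) hK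

theorem closedGen_mono {s t : Set D} (h : s ⊆ t) : closedGen s ≤ closedGen t :=
  closedGen_le (isClosed_closedGen t) (h.trans (subset_closedGen t))

theorem rcalc_mem_closed {K : StarSubalgebra ℂ D} [IsClosed (K : Set D)] (f : ℝ → ℝ) {a : D}
    (ha : a ∈ K) : rcalc f a ∈ K := cfc_mem (𝕜' := ℂ) f ha

/-- An element *-commuting with generators commutes with the closed algebra they generate. -/
theorem commute_closedGen {s : Set D} {a : D} (h : ∀ z ∈ s, StarCommute z a) {z : D}
    (hz : z ∈ closedGen s) : Commute z a :=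
  (starCommute_of_mem_centralizer (closedGen_le (Vale.Agent.P101.isClosed_centralizer {a})
    (fun y hy => mem_centralizer_of_starCommute fun b hb => by
      rw [Set.mem_singleton_iff.1 hb]; exact h y hy) hz) (Set.mem_singleton a)).1

/-- Commuting self-adjoint generators generate a commutative algebra. -/
theorem commute_of_mem_closedGen {s : Set D} (hsa : ∀ z ∈ s, IsSelfAdjoint z)
    (hc : ∀ z ∈ s, ∀ z' ∈ s, Commute z z') {z z' : D} (hz : z ∈ closedGen s)
    (hz' : z' ∈ closedGen s) : Commute z z' := by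
  refine commute_closedGen (fun y hy => ?_) hz
  have h1 : Commute z' y :=
    commute_closedGen (fun x hx => ⟨hc x hx y hy, by rw [(hsa y hy).star_eq]; exact hc x hx y hy⟩)
      hz'
  have h2 : Commute (star z') y :=
    commute_closedGen (fun x hx => ⟨hc x hx y hy, by rw [(hsa y hy).star_eq]; exact hc x hx y hy⟩)
      (star_mem hz')
  exact ⟨h1.symm, h2.symm⟩

/-- The closed algebra generated by the image of a subalgebra is the closure of the image. -/
theorem closedGen_image_subset {C : Type w} [CStarAlgebra C] (f : C →⋆ₐ[ℂ] D)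
    (K : StarSubalgebra ℂ C) : (closedGen (f '' K) : Set D) ⊆ closure (f '' K) := by
  have h : StarAlgebra.adjoin ℂ (f '' (K : Set C)) ≤ K.map f :=
    StarAlgebra.adjoin_le fun _ ⟨x, hx, e⟩ => ⟨x, hx, e⟩
  exact closure_mono h

end ClosedGen

theorem isSelfAdjoint_of_le_zero {D : Type w} [CStarAlgebra D] [PartialOrder D] [StarOrderedRing D]
    {a : D} (h : 0 ≤ a) : IsSelfAdjoint a := IsSelfAdjoint.of_nonneg h

/-- The trace of a nonnegative element is real and nonnegative. -/
theorem IsTraceMap.real_nonneg {D : Type w} [CStarAlgebra D] [PartialOrder D] [StarOrderedRing D]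
    {σ : D →ₗ[ℂ] ℂ} (hσ : IsTrace D σ) {a : D} (h : 0 ≤ a) :
    0 ≤ (σ a).re ∧ σ a = ((σ a).re : ℂ) := by
  obtain ⟨w, rfl⟩ := CStarAlgebra.nonneg_iff_eq_star_mul_self.1 h
  exact ⟨hσ.re_nonneg w, Complex.ext rfl (by simp [hσ.im_eq_zero w])⟩

/-- The trace is monotone. -/
theorem IsTraceMap.re_mono {D : Type w} [CStarAlgebra D] [PartialOrder D] [StarOrderedRing D]
    {σ : D →ₗ[ℂ] ℂ} (hσ : IsTrace D σ) {a b : D} (h : a ≤ b) : (σ a).re ≤ (σ b).re := by
  have := (IsTraceMap.real_nonneg hσ (sub_nonneg.2 h)).1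
  rw [map_sub, Complex.sub_re] at this
  linarith

theorem norm_prod_ofFn_le {D : Type w} [CStarAlgebra D] {c : ℝ} (hc : 0 ≤ c) :
    ∀ {n : ℕ} (f : Fin n → D), (∀ i, ‖f i‖ ≤ c) → ‖(List.ofFn f).prod‖ ≤ c ^ n
  | 0, f, _ => by simpa using norm_one_le' (B := D)
  | n + 1, f, h => by
    rw [List.ofFn_succ, List.prod_cons, pow_succ']
    exact (norm_mul_le _ _).trans
      (mul_le_mul (h 0) (norm_prod_ofFn_le hc _ fun i => h _) (norm_nonneg _) hc)

variable {B : Type u} [CStarAlgebra B] {G : Type v} [Group G] {S : Fam B G}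
  {τ : ℕ → B →ₗ[ℂ] ℂ}

/-- The limit trace of a sequence of good traces. -/
structure IsLim (hτ : ∀ M, S.Good (τ M)) (U : Ultrafilter ℕ)
    (σ : LimQuot (fun M => (hτ M).trace) U →ₗ[ℂ] ℂ) : Prop where
  trace : IsTrace _ σ
  le_top : (U : Filter ℕ) ≤ atTop
  tendsto : ∀ f : ℕ →ᵇ B, Tendsto (fun M => τ M (f M)) U
    (𝓝 (σ (limMk (fun M => (hτ M).trace) U f)))
  indep : ∀ P Q : ℕ → Set Site, (∀ M, Disjoint (P M) (Q M)) →
    ∀ d ∈ closedGen (limMk (fun M => (hτ M).trace) U '' (S.seqAlg P : Set (ℕ →ᵇ B))),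
      ∀ e ∈ closedGen (limMk (fun M => (hτ M).trace) U '' (S.seqAlg Q : Set (ℕ →ᵇ B))),
        σ (d * e) = σ d * σ e

variable (hτ : ∀ M, S.Good (τ M)) (U : Ultrafilter ℕ)

/-- The image of the sequences in the sites `X`. -/
def img (X : Set Site) : StarSubalgebra ℂ (LimQuot (fun M => (hτ M).trace) U) :=
  closedGen (limMk (fun M => (hτ M).trace) U '' (S.seqAlg fun _ => X : Set (ℕ →ᵇ B)))

instance instIsClosedImg (X : Set Site) :
    IsClosed (img hτ U X : Set (LimQuot (fun M => (hτ M).trace) U)) := isClosed_closedGen _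

theorem mem_img {X : Set Site} {f : ℕ →ᵇ B} (hf : f ∈ S.seqAlg fun _ => X) :
    limMk (fun M => (hτ M).trace) U f ∈ img hτ U X :=
  subset_closedGen _ ⟨f, hf, rfl⟩

theorem img_mono {X Y : Set Site} (h : X ⊆ Y) : img hτ U X ≤ img hτ U Y :=
  closedGen_mono (Set.image_mono fun _ hf M => S.alg_mono h (hf M))

variable {hτ U}

theorem limMk_eq_zero {f : ℕ →ᵇ B} (hU : (U : Filter ℕ) ≤ atTop)
    (h : Tendsto (fun M => l2 (τ M) (f M)) atTop (𝓝 0)) :
    limMk (fun M => (hτ M).trace) U f = 0 :=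
  (quotStar_eq_zero _).2 (h.mono_left hU)

theorem limMk_eq_zero_of_norm {f : ℕ →ᵇ B} (hU : (U : Filter ℕ) ≤ atTop)
    (h : Tendsto (fun M => ‖f M‖) atTop (𝓝 0)) : limMk (fun M => (hτ M).trace) U f = 0 :=
  limMk_eq_zero (hτ := hτ) hU
    (squeeze_zero (fun M => (hτ M).trace.l2_nonneg _) (fun M => (hτ M).trace.l2_le_norm _) h)

variable {σ : LimQuot (fun M => (hτ M).trace) U →ₗ[ℂ] ℂ} (hσ : IsLim hτ U σ)
include hσ

theorem IsLim.map_eq_of_tendsto {f : ℕ →ᵇ B} {c : ℂ}
    (h : Tendsto (fun M => τ M (f M)) atTop (𝓝 c)) :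
    σ (limMk (fun M => (hτ M).trace) U f) = c :=
  tendsto_nhds_unique (hσ.tendsto f) (h.mono_left hσ.le_top)

theorem IsLim.map_mul {X Y : Set Site} (h : Disjoint X Y)
    {d e : LimQuot (fun M => (hτ M).trace) U} (hd : d ∈ img hτ U X) (he : e ∈ img hτ U Y) :
    σ (d * e) = σ d * σ e :=
  hσ.indep (fun _ => X) (fun _ => Y) (fun _ => h) d hd e he

/-- Products over disjoint sets of sites. -/
theorem IsLim.map_prod : ∀ {n : ℕ} (X : Fin n → Set Site)
    (f : Fin n → LimQuot (fun M => (hτ M).trace) U), (∀ i, f i ∈ img hτ U (X i)) →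
      (∀ i j, i ≠ j → Disjoint (X i) (X j)) → σ (List.ofFn f).prod = ∏ i, σ (f i)
  | 0, X, f, _, _ => by simp [hσ.trace.map_one]
  | n + 1, X, f, hf, hX => by
    rw [List.ofFn_succ, List.prod_cons, Fin.prod_univ_succ,
      ← IsLim.map_prod (fun i => X i.succ) (fun i => f i.succ) (fun i => hf _) fun i j h =>
        hX _ _ fun e => h (Fin.succ_injective n e)]
    refine hσ.map_mul (Y := ⋃ i : Fin n, X i.succ) ?_ (hf 0) (list_prod_mem fun x hx => ?_)
    · exact Set.disjoint_iUnion_right.2 fun i => hX _ _ (Fin.succ_ne_zero i).symm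
    · obtain ⟨i, rfl⟩ := List.mem_ofFn.1 hx
      exact img_mono hτ U (Set.subset_iUnion (fun i : Fin n => X i.succ) i) (hf i.succ)

/-- A factorisation on a subalgebra of sequences passes to the closed algebra of its image. -/
theorem IsLim.factor_of_image {X : Set Site} (z : LimQuot (fun M => (hτ M).trace) U)
    (h : ∀ f ∈ S.seqAlg (fun _ => X),
      σ (limMk (fun M => (hτ M).trace) U f * z) = σ (limMk (fun M => (hτ M).trace) U f) * σ z)
    {c : LimQuot (fun M => (hτ M).trace) U} (hc : c ∈ img hτ U X) :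
    σ (c * z) = σ c * σ z := by
  refine closure_minimal ?_ (isClosed_eq (hσ.trace.continuous.comp (continuous_id.mul continuous_const))
    (hσ.trace.continuous.mul continuous_const)) (closedGen_image_subset _ _ hc)
  rintro _ ⟨f, hf, rfl⟩
  exact h f hf

variable {T : Finset G} {κ : Type} [Fintype κ] {b : Bank} {ε : ℕ → ℝ} {p : ∀ _ : ℕ, κ → B}
  (hp : ∀ M, IsPart S T b (ε M) (p M)) (hε : Tendsto ε atTop (𝓝 0))
include hp hε

theorem IsLim.part_mean (a : κ) (f : ℕ →ᵇ B) (hf : ∀ M, f M = p M a) :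
    σ (limMk (fun M => (hτ M).trace) U f) = 1 / (Fintype.card κ : ℂ) := by
  refine hσ.map_eq_of_tendsto ?_
  rw [tendsto_iff_norm_sub_tendsto_zero]
  exact squeeze_zero (fun M => norm_nonneg _)
    (fun M => by rw [hf]; exact (hp M).mean _ (hτ M) a) hε

theorem IsLim.part_orth {a a' : κ} (hne : a ≠ a') (f f' : ℕ →ᵇ B) (hf : ∀ M, f M = p M a)
    (hf' : ∀ M, f' M = p M a') :
    limMk (fun M => (hτ M).trace) U f * limMk (fun M => (hτ M).trace) U f' = 0 := by
  rw [← _root_.map_mul]
  refine limMk_eq_zero (hτ := hτ) hσ.le_top (squeeze_zero (fun M => (hτ M).trace.l2_nonneg _) (fun M => ?_)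
    (g := fun M => Real.sqrt (ε M)) ?_)
  · let _ : PartialOrder B := CStarAlgebra.spectralOrder B
    let _ : StarOrderedRing B := CStarAlgebra.spectralOrderedRing B
    have h0 : ∀ c, 0 ≤ p M c := fun c => by
      obtain ⟨w, hw⟩ := (hp M).pos c
      rw [hw]; exact star_mul_self_nonneg w
    have hc := (hp M).comm a a'
    have hz0 : 0 ≤ p M a * p M a' := hc.mul_nonneg (h0 a) (h0 a')
    have hz1 : p M a * p M a' ≤ 1 := by
      refine (CStarAlgebra.norm_le_one_iff_of_nonneg _ hz0).1 ((norm_mul_le _ _).trans ?_)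
      nlinarith [(hp M).norm_le a, (hp M).norm_le a', norm_nonneg (p M a), norm_nonneg (p M a')]
    have hle : p M a * p M a' * (p M a * p M a') ≤ p M a * p M a' := by
      have := ((Commute.one_right (p M a * p M a')).sub_right (Commute.refl _)).mul_nonneg hz0
        (sub_nonneg.2 hz1)
      rwa [mul_sub, mul_one, sub_nonneg] at this
    show l2 (τ M) (f M * f' M) ≤ _
    rw [hf, hf', l2, (IsSelfAdjoint.of_nonneg hz0).star_eq]
    refine Real.sqrt_le_sqrt ((IsTraceMap.re_mono (hτ M).trace hle).trans ?_)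
    exact (Complex.re_le_norm _).trans ((hp M).orth _ (hτ M) a a' hne)
  · simpa using hε.sqrt

end Vale.Agent.P095.Full.Tracial
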