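import Vale.Agent.P095.Gamma.Outer
import Vale.Agent.P095.Full.Tracial.LimAux

/-!
# P095, all amenable groups: the estimates in the limit

In the limit of a sequence of good traces the atoms commute, a factor of two far translates has
affinity below one, every replica has small weights, and the ladder of replicas gives the bound on
the error element.
-/

noncomputable section

namespace Vale.Agent.P095.Full.Tracial

universe u v

open Filter Topology BoundedContinuousFunction Vale.Agent.P101 Vale.Agent.P095.Gamma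
open scoped symmDiff

/-- The relations that hold exactly are preserved by star homomorphisms. -/
theorem Atoms.Exact.map {D D' : Type u} [CStarAlgebra D] [CStarAlgebra D'] {G : Type v}
    {L r m : ℕ} {A : Atoms D G L r m} (h : A.Exact) (ψ : D →⋆ₐ[ℂ] D') : (A.map ψ).Exact where
  p_pos l a := by
    obtain ⟨w, hw⟩ := h.p_pos l a
    exact ⟨ψ w, by simp [Atoms.map, hw, map_star]⟩
  p_sum l := by
    show ∑ a, ψ (A.p l a) = 1
    rw [← map_sum, h.p_sum, map_one]
  p_comm l a l' a' := (h.p_comm l a l' a').map ψ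
  π_sa l k s := (h.π_sa l k s).map ψ
  φ_sa l k g j := (h.φ_sa l k g j).map ψ
  fac l k s g j := (h.fac l k s g j).map ψ
  cross l k l' k' hne :=
    ⟨fun s s' => ((h.cross l k l' k' hne).1 s s').map ψ,
      fun s g j => ((h.cross l k l' k' hne).2.1 s g j).map ψ,
      fun g j g' j' => ((h.cross l k l' k' hne).2.2 g j g' j').map ψ⟩
  p_fac l a l' k := ⟨fun s => ((h.p_fac l a l' k).1 s).map ψ,
    fun g j => ((h.p_fac l a l' k).2 g j).map ψ⟩
  x_norm l g i := (NonUnitalStarAlgHom.norm_apply_le ψ _).trans (h.x_norm l g i)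

theorem map_algebraMap_real {D D' : Type u} [CStarAlgebra D] [CStarAlgebra D']
    (ψ : D →⋆ₐ[ℂ] D') (c : ℝ) : ψ (algebraMap ℝ D c) = algebraMap ℝ D' c := by
  rw [Algebra.algebraMap_eq_smul_one, Algebra.algebraMap_eq_smul_one, ← Complex.coe_smul,
    map_smul, map_one, Complex.coe_smul]

theorem map_errElem {D D' : Type u} [CStarAlgebra D] [CStarAlgebra D'] {G : Type v} [Group G]
    (ψ : D →⋆ₐ[ℂ] D') (act : G → D →⋆ₐ[ℂ] D) (T : Finset G) (Y : Fin 6 → D) :
    ψ (errElem act T Y) =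
      (∑ g ∈ T, ∑ i, star (ψ (act g (Y i)) - ψ (Y i)) * (ψ (act g (Y i)) - ψ (Y i))) +
        (∑ i, star (ψ (Y i) * ψ (Y i)) * (ψ (Y i) * ψ (Y i))) +
        cfc (posCut 0) (algebraMap ℝ D' (1 / 4) -
          ∑ i, (star (ψ (Y i)) * ψ (Y i) + ψ (Y i) * star (ψ (Y i)))) := by
  have hc : Continuous (posCut 0) := by unfold posCut; fun_prop
  have hsa : IsSelfAdjoint (algebraMap ℝ D (1 / 4) - ∑ i, (star (Y i) * Y i + Y i * star (Y i))) :=
    (IsSelfAdjoint.algebraMap D (IsSelfAdjoint.all _)).sub (isSelfAdjoint_sum _ fun i _ =>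
      (IsSelfAdjoint.star_mul_self _).add (IsSelfAdjoint.mul_star_self _))
  have h := map_rcalc ψ (posCut 0) hc hsa
  simp only [rcalc] at h
  simp only [errElem, map_add, map_sum, map_mul, map_star, map_sub, h, map_algebraMap_real]

/-- The sites of one factor. -/
def facSet (l k : ℕ) : Set Site := {s | (s.1.1 = 0 ∨ s.1.1 = 1) ∧ s.1.2.1 = l ∧ s.1.2.2 = k}

/-- The sites of all factors of a replica. -/
def facAll (l : ℕ) : Set Site := {s | (s.1.1 = 0 ∨ s.1.1 = 1) ∧ s.1.2.1 = l}

/-- The sites of a replica apart from its selection. -/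
def repSet (l : ℕ) : Set Site := {s | s.1.1 ≠ 2 ∧ s.1.2.1 = l}

theorem poolBank_subset (l k : ℕ) : bankSet (poolBank l k) ⊆ facSet l k := by
  rintro ⟨b, n⟩ rfl
  exact ⟨Or.inl rfl, rfl, rfl⟩

theorem signBank_subset (l k : ℕ) : bankSet (signBank l k) ⊆ facSet l k := by
  rintro ⟨b, n⟩ rfl
  exact ⟨Or.inr rfl, rfl, rfl⟩

theorem facSet_subset (l k : ℕ) : facSet l k ⊆ facAll l := fun _ h => ⟨h.1, h.2.1⟩

theorem facAll_subset (l : ℕ) : facAll l ⊆ repSet l := fun s h => by
  refine ⟨?_, h.2⟩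
  rcases h.1 with e | e <;> simp [e]

theorem levelBank_subset (l : ℕ) : bankSet (levelBank l) ⊆ repSet l := by
  rintro ⟨b, n⟩ rfl
  exact ⟨show (3 : ℕ) ≠ 2 by norm_num, rfl⟩

theorem facAll_disjoint_levelBank (l : ℕ) : Disjoint (bankSet (levelBank l)) (facAll l) :=
  Set.disjoint_left.2 fun s hs hs' => by
    have e : s.1.1 = 3 := by rw [show s.1 = levelBank l from hs]; rfl
    rcases hs'.1 with e' | e' <;> omega

theorem repSet_disjoint {l l' : ℕ} (h : l ≠ l') : Disjoint (repSet l) (repSet l') :=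
  Set.disjoint_left.2 fun _ hs hs' => h (hs.2.symm.trans hs'.2)

theorem repSet_subset_compl (l : ℕ) : repSet l ⊆ (bankSet (selBank l))ᶜ := fun s hs hs' =>
  hs.1 (by rw [show s.1 = selBank l from hs']; rfl)

local instance limOrder {B : Type u} [CStarAlgebra B] {τ : ℕ → B →ₗ[ℂ] ℂ}
    (hτ : ∀ M, IsTrace B (τ M)) (U : Ultrafilter ℕ) : PartialOrder (LimQuot hτ U) :=
  CStarAlgebra.spectralOrder _

local instance limOrdered {B : Type u} [CStarAlgebra B] {τ : ℕ → B →ₗ[ℂ] ℂ}
    (hτ : ∀ M, IsTrace B (τ M)) (U : Ultrafilter ℕ) : StarOrderedRing (LimQuot hτ U) :=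
  CStarAlgebra.spectralOrderedRing _

variable {B : Type u} [CStarAlgebra B] {G : Type v} [Group G] {S : Fam B G} {T : Finset G}
  {L r m : ℕ} {τ : ℕ → B →ₗ[ℂ] ℂ} {hτ : ∀ M, S.Good (τ M)} {U : Ultrafilter ℕ}
  {σ : LimQuot (fun M => (hτ M).trace) U →ₗ[ℂ] ℂ}

/-- The atoms in the limit. -/
abbrev Parts.lim (P : Parts S T L r m) (hτ : ∀ M, S.Good (τ M)) (U : Ultrafilter ℕ) (t : ℝ) :
    Atoms (LimQuot (fun M => (hτ M).trace) U) G L r m :=
  (P.atoms t).map (limMk (fun M => (hτ M).trace) U)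

namespace Parts

variable (P : Parts S T L r m) {t : ℝ}

/-- The distance of the selected families of two translates in the limit. -/
def dist (hτ : ∀ M, S.Good (τ M)) (U : Ultrafilter ℕ)
    (σ : LimQuot (fun M => (hτ M).trace) U →ₗ[ℂ] ℂ) (t : ℝ) (l : Fin L) (g k : G) : ℝ :=
  (∑ i, σ (star ((P.lim hτ U t).x l g i - (P.lim hτ U t).x l k i) *
    ((P.lim hτ U t).x l g i - (P.lim hτ U t).x l k i))).re

theorem q_mem_img (l : Fin L) (k : Fin r) (g : G) :
    (P.lim hτ U t).q l k g ∈ img hτ U (facSet l k) := by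
  refine add_mem (one_mem _) (sum_mem fun j _ => mul_mem (sub_mem ?_ ?_) ?_)
  · exact img_mono hτ U (signBank_subset _ _) (mem_img hτ U (P.atoms_π_mem t l k _))
  · exact img_mono hτ U (signBank_subset _ _) (mem_img hτ U (P.atoms_π_mem t l k _))
  · exact img_mono hτ U (poolBank_subset _ _) (mem_img hτ U (P.atoms_φ_mem t l k g j))

theorem R_mem_img (l : Fin L) (g : G) : (P.lim hτ U t).R l g ∈ img hτ U (facAll l) :=
  list_prod_mem fun x hx => by
    obtain ⟨k, rfl⟩ := List.mem_ofFn.1 hx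
    exact img_mono hτ U (facSet_subset _ _) (rcalc_mem_closed _ (P.q_mem_img l k g))

variable (hr : 0 < r) (ht : 0 < t) (ht1 : t ≤ 1) (hsel : SelectStatement.{u, v})
  (hσ : IsLim hτ U σ)
include hr ht ht1 hsel hσ

/-- Everything obtained from the selection in the limit. -/
theorem limit_rel :
    (P.lim hτ U t).Limit ∧ (P.lim hτ U t).PartComm ∧
      (∀ l a, σ ((P.lim hτ U t).p l a) = 1 / (m : ℂ)) ∧
      (∀ l k s, σ ((P.lim hτ U t).π l k s) = 1 / 24) ∧
      (∀ l k s s', s ≠ s' → (P.lim hτ U t).π l k s * (P.lim hτ U t).π l k s' = 0) ∧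
      (∀ l g i, (P.lim hτ U t).x l g i * (P.lim hτ U t).x l g i = 0) ∧
      (∀ l g, algebraMap ℝ (LimQuot (fun M => (hτ M).trace) U) (1 / 4) ≤
        ∑ i, (star ((P.lim hτ U t).x l g i) * (P.lim hτ U t).x l g i +
          (P.lim hτ U t).x l g i * star ((P.lim hτ U t).x l g i))) ∧
      (∀ (l : Fin L) g g' i, ∀ c ∈ img hτ U (repSet l),
        σ (c * (star ((P.lim hτ U t).x l g i - (P.lim hτ U t).x l g' i) *
            ((P.lim hτ U t).x l g i - (P.lim hτ U t).x l g' i))) =
          σ c * σ (star ((P.lim hτ U t).x l g i - (P.lim hτ U t).x l g' i) *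
            ((P.lim hτ U t).x l g i - (P.lim hτ U t).x l g' i))) ∧
      (∀ l g g', (r : ℝ) * (t ^ 2 / 2 * P.dist hτ U σ t l g g' - 400 * t ^ 4) ≤
        (∑ k, ∑ j, σ (((P.lim hτ U t).φ l k g j - (P.lim hτ U t).φ l k g' j) *
          ((P.lim hτ U t).φ l k g j - (P.lim hτ U t).φ l k g' j))).re) ∧
      ∀ l g, (r : ℝ) * (t ^ 2 / 8 - 400 * t ^ 4) ≤
        (∑ k, ∑ j, σ ((P.lim hτ U t).φ l k g j * (P.lim hτ U t).φ l k g j)).re := by
  let A := P.atoms t
  have hε : Tendsto (fun M : ℕ => 1 / ((M : ℝ) + 1)) atTop (𝓝 0) :=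
    tendsto_one_div_add_atTop_nhds_zero_nat
  have hcard : Fintype.card Signed = 24 := by simp [Signed]
  have hs := fun l : Fin L => hsel B G S τ hτ r hr (fun k => poolBank l k) (selBank l)
    (fun a b h => Fin.ext (by simpa [poolBank] using h)) (fun k => by simp [poolBank, selBank])
    (fun M => P.pick M l) (fun M s => (P.pick_part M l).mem s) (fun M s => (P.pick_part M l).pos s)
    (fun M => (P.pick_part M l).sum) (fun M s s' => (P.pick_part M l).comm s s')
    (fun M s => by simpa using (P.pick_part M l).mean _ (hτ M) s)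
    (fun M s s' h => (P.pick_part M l).orth _ (hτ M) s s' h) t ht ht1
    (fun g i M => A.x l g i M) (fun _ _ _ => rfl) (fun k g j M => A.φ l k g j M) (fun _ _ _ _ => rfl)
  have h0 : ∀ f : ℕ →ᵇ B, Tendsto (fun M => l2 (τ M) (f M)) atTop (𝓝 0) →
      limMk (fun M => (hτ M).trace) U f = 0 := fun f => limMk_eq_zero (hτ := hτ) hσ.le_top
  have h0' : ∀ f : ℕ →ᵇ B, Tendsto (fun M => ‖f M‖) atTop (𝓝 0) →
      limMk (fun M => (hτ M).trace) U f = 0 := fun f => limMk_eq_zero_of_norm (hτ := hτ) hσ.le_top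
  have hπorth : ∀ l k s s', s ≠ s' →
      (P.lim hτ U t).π l k s * (P.lim hτ U t).π l k s' = 0 := fun l k s s' h =>
    hσ.part_orth (fun M => P.sgn_part M l k) hε h _ _ (fun _ => rfl) fun _ => rfl
  refine ⟨⟨fun l a b h => hσ.part_orth (fun M => P.lev_part M l) hε h _ _ (fun _ => rfl) fun _ => rfl,
    fun l k g j g' j' => ?_, fun l g i l' => ⟨fun a => ?_, fun k s => ?_, fun k g' j => ?_⟩⟩,
    fun l k s s' => ?_, fun l a => ?_, fun l k s => ?_, hπorth, fun l g i => ?_, fun l g => ?_,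
    fun l g g' i c hc => ?_, fun l g g' => ?_, fun l g => ?_⟩
  · obtain ⟨-, -, -, h4, -⟩ := hs l
    show limMk _ U (A.φ l k g j) * limMk _ U (A.φ l k g' j') =
      limMk _ U (A.φ l k g' j') * limMk _ U (A.φ l k g j)
    rw [← sub_eq_zero, ← map_mul, ← map_mul, ← map_sub]
    exact h0 _ (h4 k g j k g' j')
  · exact (Parts.commute_of_mem (Set.disjoint_left.2 fun s hs hs' => by
      have e : s.1.1 = 3 := by rw [show s.1 = levelBank l' from hs]; rfl
      rcases hs' with h | ⟨k, h⟩ <;> rw [h] at e <;> simp [selBank, poolBank] at e)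
      (P.atoms_p_mem t l' a) (P.atoms_x_mem t l g i)).map _
  · exact (Parts.commute_of_mem (Set.disjoint_left.2 fun s' hs hs' => by
      have e : s'.1.1 = 1 := by rw [show s'.1 = signBank l' k from hs]; rfl
      rcases hs' with h | ⟨k', h⟩ <;> rw [h] at e <;> simp [selBank, poolBank] at e)
      (P.atoms_π_mem t l' k s) (P.atoms_x_mem t l g i)).map _
  · rcases eq_or_ne l' l with rfl | hl
    · obtain ⟨-, -, h3, -⟩ := hs l'
      show limMk _ U (A.φ l' k g' j) * limMk _ U (A.x l' g i) =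
        limMk _ U (A.x l' g i) * limMk _ U (A.φ l' k g' j)
      refine (Eq.symm ?_)
      rw [← sub_eq_zero, ← map_mul, ← map_mul, ← map_sub]
      exact h0' _ (h3 g i k g' j)
    · exact (Parts.commute_of_mem (Set.disjoint_left.2 fun s hs hs' => by
        have e : s.1 = poolBank l' k := hs
        rcases hs' with h | ⟨k', h⟩ <;> rw [h] at e <;>
          simp [selBank, poolBank, Fin.val_inj, hl.symm] at e)
        (P.atoms_φ_mem t l' k g' j) (P.atoms_x_mem t l g i)).map _
  · rcases eq_or_ne s s' with rfl | h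
    · exact Commute.refl _
    · exact (hπorth l k s s' h).trans (hπorth l k s' s h.symm).symm
  · show σ (limMk _ U (A.p l a)) = _
    simpa using hσ.part_mean (fun M => P.lev_part M l) hε a (A.p l a) fun _ => rfl
  · show σ (limMk _ U (A.π l k s)) = _
    have := hσ.part_mean (fun M => P.sgn_part M l k) hε s (A.π l k s) fun _ => rfl
    rw [hcard] at this
    simpa using this
  · obtain ⟨-, -, -, -, h5, -⟩ := hs l
    show limMk _ U (A.x l g i) * limMk _ U (A.x l g i) = 0
    rw [← map_mul]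
    exact h0 _ (h5 g i)
  · obtain ⟨-, -, -, -, -, h6, -⟩ := hs l
    obtain ⟨w, ⟨C, hC⟩, hw⟩ := h6 g
    let W : ℕ →ᵇ B := bseq w C hC
    have e : ∑ i, star (A.x l g i) * A.x l g i - ((1 / 4 : ℂ) • 1 + star W * W) = ∑ i,
        star (A.x l g i) * A.x l g i - ((1 / 4 : ℂ) • 1 + star W * W) := rfl
    have hz : limMk (fun M => (hτ M).trace) U
        (∑ i, star (A.x l g i) * A.x l g i - ((1 / 4 : ℂ) • 1 + star W * W)) = 0 := by
      refine h0 _ (hw.congr fun M => ?_)
      simp [W]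
    rw [map_sub, sub_eq_zero] at hz
    simp only [map_sum, map_add, map_mul, map_star, map_smul, map_one] at hz
    rw [Finset.sum_add_distrib]
    refine le_add_of_le_of_nonneg ?_ (Finset.sum_nonneg fun i _ => mul_star_self_nonneg _)
    show _ ≤ ∑ i, star (limMk _ U (A.x l g i)) * limMk _ U (A.x l g i)
    rw [hz, Algebra.algebraMap_eq_smul_one, ← Complex.coe_smul]
    refine le_trans (le_of_eq ?_) (le_add_of_nonneg_right (star_mul_self_nonneg _))
    push_cast
    rfl
  · obtain ⟨-, -, -, -, -, -, h7, -⟩ := hs l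
    let z : ℕ →ᵇ B := star (A.x l g i - A.x l g' i) * (A.x l g i - A.x l g' i)
    have hz : limMk (fun M => (hτ M).trace) U z = star ((P.lim hτ U t).x l g i -
        (P.lim hτ U t).x l g' i) * ((P.lim hτ U t).x l g i - (P.lim hτ U t).x l g' i) := by
      simp only [z, map_mul, map_star, map_sub]
      rfl
    rw [← hz]
    refine hσ.factor_of_image _ (fun f hf => ?_) hc
    have hlim := h7 (fun M => f M) ⟨‖f‖, f.norm_coe_le_norm⟩
      (fun M => S.alg_mono (repSet_subset_compl l) (hf M)) g g' i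
    rw [← map_mul, ← sub_eq_zero]
    exact tendsto_nhds_unique ((hσ.tendsto (f * z)).sub ((hσ.tendsto f).mul (hσ.tendsto z)))
      (hlim.mono_left hσ.le_top)
  · obtain ⟨-, -, -, -, -, -, -, h8, -⟩ := hs l
    refine le_of_forall_pos_le_add fun ε hε0 => ?_
    have hev : ∀ᶠ M in (U : Filter ℕ), _ := (h8 g g' ε hε0).filter_mono hσ.le_top
    have hl : Tendsto (fun M => (r : ℝ) * (t ^ 2 / 2 * (∑ i, τ M (star (A.x l g i M - A.x l g' i M) *
        (A.x l g i M - A.x l g' i M))).re - 400 * t ^ 4)) U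
        (𝓝 ((r : ℝ) * (t ^ 2 / 2 * P.dist hτ U σ t l g g' - 400 * t ^ 4))) := by
      refine ((((Complex.continuous_re.tendsto _).comp (tendsto_finsetSum _ fun i _ => ?_)).const_mul
        _).sub_const _).const_mul _
      have := hσ.tendsto (star (A.x l g i - A.x l g' i) * (A.x l g i - A.x l g' i))
      simp only [map_mul, map_star, map_sub] at this
      simpa [A, Atoms.map] using this
    have hr' : Tendsto (fun M => (∑ k, ∑ j, τ M ((A.φ l k g j M - A.φ l k g' j M) *
        (A.φ l k g j M - A.φ l k g' j M))).re + ε) U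
        (𝓝 ((∑ k, ∑ j, σ (((P.lim hτ U t).φ l k g j - (P.lim hτ U t).φ l k g' j) *
          ((P.lim hτ U t).φ l k g j - (P.lim hτ U t).φ l k g' j))).re + ε)) := by
      refine ((Complex.continuous_re.tendsto _).comp (tendsto_finsetSum _ fun k _ =>
        tendsto_finsetSum _ fun j _ => ?_)).add_const _
      have := hσ.tendsto ((A.φ l k g j - A.φ l k g' j) * (A.φ l k g j - A.φ l k g' j))
      simp only [map_mul, map_sub] at this
      simpa [Atoms.map] using this
    exact le_of_tendsto_of_tendsto hl hr' hev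
  · obtain ⟨-, -, -, -, -, -, -, -, h9⟩ := hs l
    refine ge_of_tendsto (x := (U : Filter ℕ)) ((Complex.continuous_re.tendsto _).comp (tendsto_finsetSum _ fun k _ =>
      tendsto_finsetSum _ fun j _ => ?_)) (Eventually.of_forall fun M => h9 g M)
    have := hσ.tendsto (A.φ l k g j * A.φ l k g j)
    simp only [map_mul] at this
    simpa [Atoms.map] using this

variable (hfac : FactorStatement.{u})
include hfac

/-- The affinity and the size of the densities of one factor. -/
theorem factor_le (l : Fin L) (k : Fin r) (g : G)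
    (ψ : Fin 6 × Bool → LimQuot (fun M => (hτ M).trace) U)
    (hψ : ∀ j, star (ψ j) = ψ j ∧ ‖ψ j‖ ≤ 1 / 2 ∧ ψ j ∈ img hτ U (bankSet (poolBank l k)) ∧
      (∀ s, Commute ((P.lim hτ U t).π l k s) (ψ j)) ∧
      (∀ j', Commute ((P.lim hτ U t).φ l k g j') (ψ j)) ∧ ∀ j', Commute (ψ j) (ψ j')) :
    0 ≤ (P.lim hτ U t).q l k g ∧ ‖(P.lim hτ U t).q l k g‖ ≤ 3 / 2 ∧
      rcalc Real.sqrt ((P.lim hτ U t).q l k g) * rcalc Real.sqrt ((P.lim hτ U t).q l k g) =
        (P.lim hτ U t).q l k g ∧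
      σ ((P.lim hτ U t).q l k g) = 1 ∧
      (σ (rcalc Real.sqrt ((P.lim hτ U t).q l k g) *
          rcalc Real.sqrt (factorQ ((P.lim hτ U t).π l k) ψ))).re ≤
        1 - 1 / 144 * (∑ j, σ (((P.lim hτ U t).φ l k g j - ψ j) *
          ((P.lim hτ U t).φ l k g j - ψ j))).re := by
  obtain ⟨hlim, hπc, -, hπm, hπo, -⟩ := P.limit_rel hr ht ht1 hsel hσ
  have hex := (P.exact t).map (limMk (fun M => (hτ M).trace) U)
  have hpos : ∀ s, 0 ≤ (P.lim hτ U t).π l k s := by
    intro s
    let _ : PartialOrder B := CStarAlgebra.spectralOrder B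
    let _ : StarOrderedRing B := CStarAlgebra.spectralOrderedRing B
    let f : ℕ →ᵇ B := bseq (fun M => rcalc Real.sqrt (P.sgn M l k s)) 1 fun M =>
      norm_cfc_le zero_le_one fun x hx => by
        rw [Real.norm_eq_abs, abs_of_nonneg (Real.sqrt_nonneg _), Real.sqrt_le_one]
        refine (le_abs_self x).trans ((spectrum.norm_le_norm_mul_of_mem hx).trans ?_)
        nlinarith [norm_one_le' (B := B), (P.sgn_part M l k).norm_le s, norm_nonneg (P.sgn M l k s)]
    have e : (P.atoms t).π l k s = star f * f := BoundedContinuousFunction.ext fun M => by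
      show P.sgn M l k s = star (rcalc Real.sqrt (P.sgn M l k s)) * rcalc Real.sqrt (P.sgn M l k s)
      obtain ⟨w, hw⟩ := (P.sgn_part M l k).pos s
      have h0 : (0 : B) ≤ P.sgn M l k s := hw ▸ star_mul_self_nonneg w
      rw [(isSelfAdjoint_rcalc _ _).star_eq, rcalc, ← cfc_mul _ _ _ (by fun_prop) (by fun_prop)]
      conv_lhs => rw [← cfc_id' ℝ (P.sgn M l k s) (IsSelfAdjoint.of_nonneg h0)]
      exact cfc_congr fun x hx => (Real.mul_self_sqrt (spectrum_nonneg_of_nonneg h0 hx)).symm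
    show 0 ≤ limMk _ U ((P.atoms t).π l k s)
    rw [e, map_mul, map_star]
    exact star_mul_self_nonneg _
  have hsum : ∑ s, (P.lim hτ U t).π l k s = 1 := by
    show ∑ s, limMk _ U ((P.atoms t).π l k s) = 1
    rw [← map_sum, ← map_one (limMk (fun M => (hτ M).trace) U)]
    congr 1
    exact BoundedContinuousFunction.ext fun M => by
      simpa [Parts.atoms] using (P.sgn_part M l k).sum
  have hnorm : ∀ j, ‖(P.lim hτ U t).φ l k g j‖ ≤ 1 / 2 := by
    intro j
    refine (NonUnitalStarAlgHom.norm_apply_le _ _).trans ?_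
    exact (BoundedContinuousFunction.norm_le (by norm_num)).2 fun M => S.norm_phi_le t _ _ g j
  have hind : ∀ s, ∀ c ∈ closedGen (Set.range ((P.lim hτ U t).φ l k g) ∪ Set.range ψ),
      σ ((P.lim hτ U t).π l k s * c) = σ c / 24 := by
    intro s c hc
    have hmem : (P.lim hτ U t).π l k s ∈ img hτ U (bankSet (signBank l k)) :=
      mem_img hτ U (P.atoms_π_mem t l k s)
    rw [hσ.map_mul (bankSet_disjoint (b := signBank l k) (b' := poolBank l k)
      (by simp [signBank, poolBank])) hmem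
      (closedGen_le (isClosed_closedGen _) ?_ hc), hπm l k s]
    · ring
    · rintro _ (⟨j, rfl⟩ | ⟨j, rfl⟩)
      · exact mem_img hτ U (P.atoms_φ_mem t l k g j)
      · exact (hψ j).2.2.1
  obtain ⟨h1, h2, h3, h4, h5⟩ := hfac _ σ hσ.trace ((P.lim hτ U t).π l k)
    ((P.lim hτ U t).φ l k g) ψ hpos (hπo l k) hsum
    (fun j => ⟨(hex.φ_sa l k g j).star_eq, (hψ j).1, hnorm j, (hψ j).2.1⟩)
    (fun s j => ⟨hex.fac l k s g j, (hψ j).2.2.2.1 s⟩)
    (fun j j' => ⟨hlim.φ_comm l k g j g j', (hψ j').2.2.2.2.1 j, (hψ j).2.2.2.2.2 j'⟩) hind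
  refine ⟨h1, ?_, h3, h4, h5⟩
  refine (CStarAlgebra.norm_le_norm_of_nonneg_of_le h1 h2).trans ?_
  rw [norm_smul, Real.norm_eq_abs, abs_of_nonneg (by norm_num)]
  nlinarith [norm_one_le' (B := LimQuot (fun M => (hτ M).trace) U)]

end Parts

end Vale.Agent.P095.Full.Tracial
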