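import Vale.Agent.P095.Full.Tracial.Defs
import Vale.Agent.P095.Gamma.Pool

/-!
# P095, all amenable groups: the formula of the tracial half

The candidate elements as sums `∑ c* x c` built by products and functional calculus from atoms
(level and factor partitions, bounded feature sums, selected families): they are contractions and
natural in star homomorphisms, and when the atoms commute they are the ladder of replicas.
-/

noncomputable section

namespace Vale.Agent.P095.Full.Tracial

universe u v

open Vale.Agent.P095.Gamma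

/-- The square root of the weight of a level. -/
def levelRoot (K a : ℕ) (t : ℝ) : ℝ := Real.sqrt (levelWeight K a t)

theorem ramp_weight_nonneg (a t : ℝ) : 0 ≤ levelRamp a t := le_max_left _ _

theorem ramp_weight_le_one (a t : ℝ) : levelRamp a t ≤ 1 := max_le zero_le_one (min_le_left _ _)

theorem continuous_ramp_level (a : ℝ) : Continuous (levelRamp a) := by unfold levelRamp; fun_prop

theorem max_base_pos {K : ℕ} (hK : 0 < K) (t : ℝ) : 0 < max t (K : ℝ) :=
  lt_max_of_lt_right (Nat.cast_pos.2 hK)

theorem weight_level_nonneg {K : ℕ} (hK : 0 < K) (a : ℕ) (t : ℝ) : 0 ≤ levelWeight K a t :=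
  div_nonneg (ramp_weight_nonneg _ _) (max_base_pos hK t).le

theorem continuous_weight_level {K : ℕ} (hK : 0 < K) (a : ℕ) : Continuous (levelWeight K a) :=
  (continuous_ramp_level _).div (by fun_prop) fun t => (max_base_pos hK t).ne'

theorem continuous_levelRoot {K : ℕ} (hK : 0 < K) (a : ℕ) : Continuous (levelRoot K a) :=
  Real.continuous_sqrt.comp (continuous_weight_level hK a)

/-- A weight times the identity is the gate of its level. -/
theorem levelWeight_mul {K : ℕ} (hK : 0 < K) (a : ℕ) (t : ℝ) :
    levelWeight K a t * t = levelRamp (K + a : ℕ) t := by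
  rcases le_or_gt t ((K + a : ℕ) : ℝ) with h | h
  · have : levelRamp (K + a : ℕ) t = 0 :=
      max_eq_left ((min_le_right _ _).trans (by linarith))
    push_cast at this
    simp [levelWeight, this]
  · have hKt : (K : ℝ) ≤ t := le_trans (by exact_mod_cast Nat.le_add_right K a) h.le
    rw [levelWeight, max_eq_left hKt,
      div_mul_cancel₀ _ (((Nat.cast_pos.2 hK : (0 : ℝ) < K).trans_le hKt).ne')]

/-- The ladder telescopes. -/
theorem sum_ladder_telescope {D : Type u} [CStarAlgebra D] : ∀ {L : ℕ} (E : Fin L → D),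
    ∑ l, ladderZ E l * E l = 1 - ladderRest E
  | 0, E => by simp [ladderRest]
  | L + 1, E => by
    have h0 : ladderZ E 0 = 1 := by
      refine List.prod_eq_one fun x hx => ?_
      obtain ⟨m, rfl⟩ := List.mem_ofFn.1 hx
      simp
    have hs : ∀ l : Fin L, ladderZ E l.succ = (1 - E 0) * ladderZ (fun m => E m.succ) l := fun l => by
      simp [ladderZ, List.ofFn_succ, Fin.succ_lt_succ_iff]
    have hr : ladderRest E = (1 - E 0) * ladderRest (fun m => E m.succ) := by
      simp [ladderRest, List.ofFn_succ]
    rw [Fin.sum_univ_succ, h0, hr]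
    simp only [hs, mul_assoc, ← Finset.mul_sum, one_mul, sum_ladder_telescope, mul_sub, mul_one]
    abel

/-- A weighted mean of contractions is a contraction. -/
theorem norm_sum_conj_le {D : Type u} [CStarAlgebra D] [PartialOrder D] [StarOrderedRing D]
    {ι : Type*} (s : Finset ι) (c x : ι → D) (hc : ∑ i ∈ s, star (c i) * c i ≤ 1)
    (hx : ∀ i ∈ s, ‖x i‖ ≤ 1) : ‖∑ i ∈ s, star (c i) * x i * c i‖ ≤ 1 := by
  set v := ∑ i ∈ s, star (c i) * x i * c i with hv
  have hb : ∑ i ∈ s, star (x i * c i) * (x i * c i) ≤ 1 := by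
    refine le_trans (Finset.sum_le_sum fun i hi => ?_) hc
    have h1 : star (x i) * x i ≤ 1 := by
      refine (CStarAlgebra.norm_le_one_iff_of_nonneg _ (star_mul_self_nonneg _)).1 ?_
      rw [CStarRing.norm_star_mul_self]
      nlinarith [hx i hi, norm_nonneg (x i)]
    rw [star_mul, show star (c i) * star (x i) * (x i * c i) = star (c i) * (star (x i) * x i) * c i by
      simp only [mul_assoc]]
    simpa using star_left_conjugate_le_conjugate h1 (c i)
  have key : 0 ≤ ∑ i ∈ s, star (x i * c i - c i * v) * (x i * c i - c i * v) :=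
    Finset.sum_nonneg fun i _ => star_mul_self_nonneg _
  have e1 : ∑ i ∈ s, star (c i) * (x i * c i) = v :=
    Finset.sum_congr rfl fun i _ => (mul_assoc _ _ _).symm
  have e2 : ∑ i ∈ s, star (x i * c i) * c i = star v := by
    rw [hv, star_sum]
    exact Finset.sum_congr rfl fun i _ => by simp [mul_assoc]
  have e : ∑ i ∈ s, star (x i * c i - c i * v) * (x i * c i - c i * v) =
      ∑ i ∈ s, star (x i * c i) * (x i * c i) -
        (∑ i ∈ s, star (x i * c i) * c i) * v -
        star v * (∑ i ∈ s, star (c i) * (x i * c i)) +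
        star v * (∑ i ∈ s, star (c i) * c i) * v := by
    simp only [Finset.sum_mul, Finset.mul_sum, ← Finset.sum_sub_distrib, ← Finset.sum_add_distrib]
    refine Finset.sum_congr rfl fun i _ => ?_
    simp only [star_sub, star_mul, sub_mul, mul_sub, mul_assoc]
    abel
  rw [e, e1, e2] at key
  have h3 : star v * (∑ i ∈ s, star (c i) * c i) * v ≤ star v * v := by
    simpa using star_left_conjugate_le_conjugate hc v
  have hvv : star v * v ≤ 1 := by
    have h4 := le_trans key (add_le_add_right h3 _)
    rw [sub_add_cancel, sub_nonneg] at h4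
    exact h4.trans hb
  have h5 := (CStarAlgebra.norm_le_one_iff_of_nonneg _ (star_mul_self_nonneg v)).2 hvv
  rw [CStarRing.norm_star_mul_self] at h5
  nlinarith [norm_nonneg v]

/-- A product of commuting self-adjoint elements is self-adjoint. -/
theorem isSelfAdjoint_prod {D : Type u} [CStarAlgebra D] : ∀ {n : ℕ} (f : Fin n → D),
    (∀ i, IsSelfAdjoint (f i)) → (∀ i j, i ≠ j → Commute (f i) (f j)) →
      IsSelfAdjoint (List.ofFn f).prod
  | 0, f, _, _ => by simp
  | n + 1, f, hsa, hc => by
    rw [List.ofFn_succ, List.prod_cons]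
    refine ((hsa 0).commute_iff (isSelfAdjoint_prod _ (fun i => hsa _) fun i j h =>
      hc _ _ fun e => h (Fin.succ_injective n e))).1 ?_
    exact Commute.list_prod_right _ _ fun x hx => by
      obtain ⟨i, rfl⟩ := List.mem_ofFn.1 hx
      exact hc _ _ (Fin.succ_ne_zero i).symm

/-- A product of commuting nonnegative elements is nonnegative. -/
theorem prod_nonneg_of_commute {D : Type u} [CStarAlgebra D] [PartialOrder D] [StarOrderedRing D] :
    ∀ {n : ℕ} (f : Fin n → D), (∀ i, 0 ≤ f i) → (∀ i j, Commute (f i) (f j)) →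
      0 ≤ (List.ofFn f).prod
  | 0, f, _, _ => by simp
  | n + 1, f, h0, hc => by
    rw [List.ofFn_succ, List.prod_cons]
    refine (?_ : Commute _ _).mul_nonneg (h0 0)
      (prod_nonneg_of_commute _ (fun i => h0 _) fun i j => hc _ _)
    exact Commute.list_prod_right _ _ fun x hx => by
      obtain ⟨i, rfl⟩ := List.mem_ofFn.1 hx
      exact hc _ _

/-- Elements commuting with all factors commute with an ordered product. -/
theorem commute_ofFn_prod {D : Type u} [CStarAlgebra D] {n : ℕ} {a : D} (f : Fin n → D)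
    (h : ∀ i, Commute a (f i)) : Commute a (List.ofFn f).prod :=
  Commute.list_prod_right _ _ fun x hx => by
    obtain ⟨i, rfl⟩ := List.mem_ofFn.1 hx
    exact h i

/-- Functional calculus commutes with everything commuting with the element. -/
theorem commute_rcalc {D : Type u} [CStarAlgebra D] {a b : D} (f : ℝ → ℝ) (h : Commute b a) :
    Commute b (rcalc f a) := (h.symm.cfc_real f).symm

theorem isSelfAdjoint_rcalc {D : Type u} [CStarAlgebra D] (f : ℝ → ℝ) (a : D) :
    IsSelfAdjoint (rcalc f a) := cfc_predicate f a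

/-- The calculus is natural. -/
theorem map_rcalc {D D' : Type u} [CStarAlgebra D] [CStarAlgebra D'] (ψ : D →⋆ₐ[ℂ] D') (f : ℝ → ℝ)
    (hf : Continuous f) {a : D} (ha : IsSelfAdjoint a) : ψ (rcalc f a) = rcalc f (ψ a) :=
  StarAlgHom.map_cfc (ψ.restrictScalars ℝ) f a hf.continuousOn
    (AddMonoidHomClass.continuous_of_bound ψ 1 fun x => by
      simpa only [one_mul] using NonUnitalStarAlgHom.norm_apply_le ψ x) ha (ha.map ψ)

/-- The atoms of the formula for `L` replicas of `r` factors and `m` levels. -/
structure Atoms (D : Type u) (G : Type v) (L r m : ℕ) where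
  /-- The levels. -/
  p : Fin L → Fin m → D
  /-- The signed feature partitions. -/
  π : Fin L → Fin r → (Fin 6 × Bool) × Bool → D
  /-- The bounded feature sums. -/
  φ : Fin L → Fin r → G → Fin 6 × Bool → D
  /-- The selected families. -/
  x : Fin L → G → Fin 6 → D

namespace Atoms

variable {D D' : Type u} [CStarAlgebra D] [CStarAlgebra D'] {G : Type v} {L r m : ℕ}
  (A : Atoms D G L r m)

/-- The atoms transported by a star homomorphism. -/
def map (ψ : D →⋆ₐ[ℂ] D') : Atoms D' G L r m :=
  ⟨fun l a => ψ (A.p l a), fun l k s => ψ (A.π l k s), fun l k g j => ψ (A.φ l k g j),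
    fun l g i => ψ (A.x l g i)⟩

/-- The atoms with relabelled translates. -/
def comap {G' : Type v} (e : G' → G) : Atoms D G' L r m :=
  ⟨A.p, A.π, fun l k g => A.φ l k (e g), fun l g => A.x l (e g)⟩

/-- The density of a factor. -/
def q (l : Fin L) (k : Fin r) (g : G) : D := factorQ (A.π l k) (A.φ l k g)

/-- The root of the density of a replica. -/
def R (l : Fin L) (g : G) : D := (List.ofFn fun k => rcalc Real.sqrt (A.q l k g)).prod

/-- The average density of a replica. -/
def mean (F : Finset G) (l : Fin L) : D := meanDensity (A.R l) F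

/-- The gate of a replica. -/
def gate (K : ℕ) (F : Finset G) (l : Fin L) : D :=
  ∑ a : Fin m, A.p l a * rcalc (levelRamp (K + a : ℕ)) (A.mean F l)

/-- The root of the weight of a replica. -/
def root (K : ℕ) (F : Finset G) (l : Fin L) : D :=
  ∑ a : Fin m, A.p l a * rcalc (levelRoot K a) (A.mean F l)

/-- The root of the ladder weight of a replica. -/
def rung (K : ℕ) (F : Finset G) (l : Fin L) : D :=
  (List.ofFn fun k => if k < l then rcalc Real.sqrt (1 - A.gate K F k) else 1).prod

/-- The coefficient of a translate in a replica. -/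
def coef (K : ℕ) (F : Finset G) (l : Fin L) (g : G) : D :=
  (((Real.sqrt F.card)⁻¹ : ℝ) : ℂ) • (A.R l g * (A.root K F l * A.rung K F l))

/-- The formula. -/
def value (K : ℕ) (F : Finset G) (i : Fin 6) : D :=
  ∑ l, ∑ g ∈ F, star (A.coef K F l g) * A.x l g i * A.coef K F l g

/-- The relations holding exactly before the limit. -/
structure Exact : Prop where
  p_pos : ∀ l a, IsPos (A.p l a)
  p_sum : ∀ l, ∑ a, A.p l a = 1
  p_comm : ∀ l a l' a', Commute (A.p l a) (A.p l' a')
  π_sa : ∀ l k s, IsSelfAdjoint (A.π l k s)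
  φ_sa : ∀ l k g j, IsSelfAdjoint (A.φ l k g j)
  fac : ∀ l k s g j, Commute (A.π l k s) (A.φ l k g j)
  cross : ∀ l k l' k', (l, k) ≠ (l', k') →
    (∀ s s', Commute (A.π l k s) (A.π l' k' s')) ∧
      (∀ s g j, Commute (A.π l k s) (A.φ l' k' g j)) ∧
      ∀ g j g' j', Commute (A.φ l k g j) (A.φ l' k' g' j')
  p_fac : ∀ l a l' k, (∀ s, Commute (A.p l a) (A.π l' k s)) ∧
    ∀ g j, Commute (A.p l a) (A.φ l' k g j)
  x_norm : ∀ l g i, ‖A.x l g i‖ ≤ 1

variable {A}

theorem Exact.q_sa (h : A.Exact) (l : Fin L) (k : Fin r) (g : G) : IsSelfAdjoint (A.q l k g) :=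
  (IsSelfAdjoint.one D).add (isSelfAdjoint_sum _ fun j _ =>
    (((h.π_sa l k _).sub (h.π_sa l k _)).commute_iff (h.φ_sa l k g j)).1
      ((h.fac l k _ g j).sub_left (h.fac l k _ g j)))

theorem commute_q {a : D} {l : Fin L} {k : Fin r} {g : G} (hπ : ∀ s, Commute a (A.π l k s))
    (hφ : ∀ j, Commute a (A.φ l k g j)) : Commute a (A.q l k g) :=
  (Commute.one_right a).add_right (Commute.sum_right _ _ _ fun j _ =>
    ((hπ _).sub_right (hπ _)).mul_right (hφ j))

theorem Exact.q_comm (h : A.Exact) {l l' : Fin L} {k k' : Fin r} (hne : (l, k) ≠ (l', k'))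
    (g g' : G) : Commute (A.q l k g) (A.q l' k' g') := by
  obtain ⟨h1, h2, h3⟩ := h.cross l k l' k' hne
  obtain ⟨-, h2', -⟩ := h.cross l' k' l k hne.symm
  exact commute_q (fun s' => (commute_q (fun s => (h1 s s').symm)
      fun j => h2' s' g j).symm)
    fun j' => (commute_q (fun s => (h2 s g' j').symm) fun j => (h3 g j g' j').symm).symm

theorem Exact.R_sa (h : A.Exact) (l : Fin L) (g : G) : IsSelfAdjoint (A.R l g) :=
  isSelfAdjoint_prod _ (fun _ => isSelfAdjoint_rcalc _ _) fun k k' hne =>
    commute_rcalc _ (commute_rcalc _ (h.q_comm (fun e => hne (Prod.ext_iff.1 e).2) g g).symm).symm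

theorem commute_R {a : D} {l : Fin L} {g : G} (hq : ∀ k, Commute a (A.q l k g)) :
    Commute a (A.R l g) :=
  commute_ofFn_prod _ fun k => commute_rcalc _ (hq k)

theorem Exact.R_comm (h : A.Exact) {l l' : Fin L} (hne : l ≠ l') (g g' : G) :
    Commute (A.R l g) (A.R l' g') :=
  commute_R fun k' => (commute_R fun k =>
    h.q_comm (fun e => hne (Prod.ext_iff.1 e).1.symm) g' g).symm

theorem Exact.p_R (h : A.Exact) (l : Fin L) (a : Fin m) (l' : Fin L) (g : G) :
    Commute (A.p l a) (A.R l' g) :=
  commute_R fun k => commute_q (h.p_fac l a l' k).1 ((h.p_fac l a l' k).2 g)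

theorem commute_mean {a : D} {F : Finset G} {l : Fin L} (hR : ∀ g ∈ F, Commute a (A.R l g)) :
    Commute a (A.mean F l) :=
  (Commute.sum_right _ _ _ fun g hg => (hR g hg).mul_right (hR g hg)).smul_right _

theorem Exact.mean_sa (h : A.Exact) (F : Finset G) (l : Fin L) : IsSelfAdjoint (A.mean F l) := by
  refine IsSelfAdjoint.smul ?_ (isSelfAdjoint_sum _ fun g _ => ?_)
  · simp [isSelfAdjoint_iff]
  · exact ((h.R_sa l g).commute_iff (h.R_sa l g)).1 (Commute.refl _)

theorem Exact.p_mean (h : A.Exact) (F : Finset G) (l : Fin L) (a : Fin m) (l' : Fin L) :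
    Commute (A.p l a) (A.mean F l') := commute_mean fun g _ => h.p_R l a l' g

theorem commute_gate {a : D} {K : ℕ} {F : Finset G} {l : Fin L} (hp : ∀ b, Commute a (A.p l b))
    (hN : Commute a (A.mean F l)) : Commute a (A.gate K F l) :=
  Commute.sum_right _ _ _ fun b _ => (hp b).mul_right (commute_rcalc _ hN)

theorem commute_root {a : D} {K : ℕ} {F : Finset G} {l : Fin L} (hp : ∀ b, Commute a (A.p l b))
    (hN : Commute a (A.mean F l)) : Commute a (A.root K F l) :=
  Commute.sum_right _ _ _ fun b _ => (hp b).mul_right (commute_rcalc _ hN)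

theorem commute_rung {a : D} {K : ℕ} {F : Finset G} {l : Fin L}
    (hE : ∀ k, k < l → Commute a (A.gate K F k)) : Commute a (A.rung K F l) :=
  commute_ofFn_prod _ fun k => by
    split_ifs with hk
    · exact commute_rcalc _ ((Commute.one_right a).sub_right (hE k hk))
    · exact Commute.one_right a

theorem Exact.p_sa (h : A.Exact) (l : Fin L) (a : Fin m) : IsSelfAdjoint (A.p l a) := by
  obtain ⟨w, hw⟩ := h.p_pos l a
  rw [hw]
  exact IsSelfAdjoint.star_mul_self w

theorem Exact.gate_sa (h : A.Exact) (K : ℕ) (F : Finset G) (l : Fin L) :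
    IsSelfAdjoint (A.gate K F l) :=
  isSelfAdjoint_sum _ fun a _ => ((h.p_sa l a).commute_iff (isSelfAdjoint_rcalc _ _)).1
    (commute_rcalc _ (h.p_mean F l a l))

theorem Exact.root_sa (h : A.Exact) (K : ℕ) (F : Finset G) (l : Fin L) :
    IsSelfAdjoint (A.root K F l) :=
  isSelfAdjoint_sum _ fun a _ => ((h.p_sa l a).commute_iff (isSelfAdjoint_rcalc _ _)).1
    (commute_rcalc _ (h.p_mean F l a l))

theorem Exact.gate_comm (h : A.Exact) (K : ℕ) (F : Finset G) (l l' : Fin L) :
    Commute (A.gate K F l) (A.gate K F l') := by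
  rcases eq_or_ne l l' with rfl | hne
  · exact Commute.refl _
  refine commute_gate (fun b => (commute_gate (fun c => h.p_comm l' b l c)
    (h.p_mean F l' b l)).symm) ?_
  refine (commute_gate (fun c => (h.p_mean F l c l').symm) ?_).symm
  exact (commute_mean fun g _ => (commute_mean fun g' _ => h.R_comm hne.symm g g').symm).symm

theorem Exact.rung_sa (h : A.Exact) (K : ℕ) (F : Finset G) (l : Fin L) :
    IsSelfAdjoint (A.rung K F l) := by
  refine isSelfAdjoint_prod _ (fun k => ?_) fun k k' _ => ?_
  · split_ifs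
    · exact isSelfAdjoint_rcalc _ _
    · exact IsSelfAdjoint.one D
  · have hc : Commute (1 - A.gate K F k) (1 - A.gate K F k') :=
      (Commute.one_left _).sub_left ((Commute.one_right _).sub_right (h.gate_comm K F k k'))
    split_ifs
    · exact commute_rcalc _ (commute_rcalc _ hc.symm).symm
    all_goals first | exact Commute.one_right _ | exact Commute.one_left _

/-- The relations holding in the limit. -/
structure Limit (A : Atoms D G L r m) : Prop where
  p_orth : ∀ l a b, a ≠ b → A.p l a * A.p l b = 0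
  φ_comm : ∀ l k g j g' j', Commute (A.φ l k g j) (A.φ l k g' j')
  x_comm : ∀ l g i l', (∀ a, Commute (A.p l' a) (A.x l g i)) ∧
    (∀ k s, Commute (A.π l' k s) (A.x l g i)) ∧ ∀ k g' j, Commute (A.φ l' k g' j) (A.x l g i)

/-- The signed partitions of one factor commute. -/
def PartComm (A : Atoms D G L r m) : Prop := ∀ l k s s', Commute (A.π l k s) (A.π l k s')

variable [PartialOrder D] [StarOrderedRing D]

theorem Exact.gate_nonneg_le (h : A.Exact) (K : ℕ) (F : Finset G) (l : Fin L) :
    0 ≤ A.gate K F l ∧ A.gate K F l ≤ 1 := by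
  have hp : ∀ a, 0 ≤ A.p l a := fun a => by
    obtain ⟨w, hw⟩ := h.p_pos l a
    rw [hw]; exact star_mul_self_nonneg w
  have hc : ∀ a : Fin m, 0 ≤ rcalc (levelRamp (K + a : ℕ)) (A.mean F l) ∧
      rcalc (levelRamp (K + a : ℕ)) (A.mean F l) ≤ 1 := fun a =>
    ⟨cfc_nonneg fun t _ => ramp_weight_nonneg _ t, cfc_le_one _ _ fun t _ => ramp_weight_le_one _ t⟩
  refine ⟨Finset.sum_nonneg fun a _ => (commute_rcalc _ (h.p_mean F l a l)).mul_nonneg (hp a)
    (hc a).1, ?_⟩
  rw [← h.p_sum l]
  refine Finset.sum_le_sum fun a _ => ?_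
  have := ((Commute.one_right (A.p l a)).sub_right (commute_rcalc (levelRamp (K + a : ℕ))
    (h.p_mean F l a l))).mul_nonneg (hp a) (sub_nonneg.2 (hc a).2)
  rwa [mul_sub, mul_one, sub_nonneg] at this

theorem Exact.rung_sq (h : A.Exact) (K : ℕ) (F : Finset G) (l : Fin L) :
    A.rung K F l * A.rung K F l = ladderZ (A.gate K F) l := by
  rw [Atoms.rung, ← prod_ofFn_mul]
  · refine congrArg List.prod (congrArg List.ofFn (funext fun k => ?_))
    split_ifs
    · have h0 : 0 ≤ 1 - A.gate K F k := sub_nonneg.2 (h.gate_nonneg_le K F k).2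
      rw [rcalc, ← cfc_mul _ _ _ (by fun_prop) (by fun_prop)]
      conv_rhs => rw [← cfc_id' ℝ (1 - A.gate K F k) (IsSelfAdjoint.of_nonneg h0)]
      exact cfc_congr fun t ht => Real.mul_self_sqrt (spectrum_nonneg_of_nonneg h0 ht)
    · exact one_mul 1
  · intro k k'
    have hc : Commute (1 - A.gate K F k) (1 - A.gate K F k') :=
      (Commute.one_left _).sub_left ((Commute.one_right _).sub_right (h.gate_comm K F k k'))
    split_ifs
    · exact commute_rcalc _ (commute_rcalc _ hc.symm).symm
    all_goals first | exact Commute.one_right _ | exact Commute.one_left _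

theorem Exact.sum_star_coef_mul (h : A.Exact) {K : ℕ} (hK : 0 < K) (F : Finset G) :
    ∑ l, ∑ g ∈ F, star (A.coef K F l g) * A.coef K F l g ≤ 1 := by
  have hrow : ∀ l, ∑ g ∈ F, star (A.coef K F l g) * A.coef K F l g =
      A.rung K F l * (A.root K F l * A.mean F l * A.root K F l) * A.rung K F l := by
    intro l
    simp only [Atoms.coef, Atoms.mean, meanDensity, star_smul, star_mul,
      (h.R_sa l _).star_eq, (h.root_sa K F l).star_eq, (h.rung_sa K F l).star_eq, smul_mul_assoc,
      mul_smul_comm, smul_smul, Finset.mul_sum, Finset.sum_mul, Finset.smul_sum]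
    refine Finset.sum_congr rfl fun g _ => ?_
    congr 1
    · rw [Complex.star_def, Complex.conj_ofReal, ← Complex.ofReal_mul, ← mul_inv,
        Real.mul_self_sqrt (Nat.cast_nonneg _)]
      simp
    · simp only [mul_assoc]
  have hle : ∀ l, A.root K F l * A.mean F l * A.root K F l ≤ A.gate K F l := by
    intro l
    set N := A.mean F l with hN
    have hNsa : IsSelfAdjoint N := h.mean_sa F l
    have hN0 : 0 ≤ N := by
      rw [hN, Atoms.mean, meanDensity, show ((F.card : ℂ))⁻¹ = (((F.card : ℝ)⁻¹ : ℝ) : ℂ) by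
        simp, Complex.coe_smul]
      refine smul_nonneg (by positivity) (Finset.sum_nonneg fun g _ => ?_)
      have := star_mul_self_nonneg (A.R l g)
      rwa [(h.R_sa l g).star_eq] at this
    set f : Fin m → D := fun a => rcalc (levelRoot K a) N with hf
    have hpf : ∀ a b, Commute (A.p l a) (f b) := fun a b => commute_rcalc _ (h.p_mean F l a l)
    have hff : ∀ a b, Commute (f a) (f b) := fun a b => cfc_commute_cfc _ _ N
    have hfN : ∀ a, Commute (f a) N := fun a => (commute_rcalc _ (Commute.refl N)).symm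
    have hgate : A.gate K F l = ∑ a, A.p l a * (f a * f a) * N := by
      refine Finset.sum_congr rfl fun a _ => ?_
      rw [mul_assoc]
      congr 1
      simp only [hf, rcalc]
      conv_rhs => arg 2; rw [← cfc_id' ℝ N hNsa]
      rw [← cfc_mul _ _ N (continuous_levelRoot hK _).continuousOn
          (continuous_levelRoot hK _).continuousOn,
        ← cfc_mul (fun t => levelRoot K a t * levelRoot K a t) (fun t : ℝ => t) N
          ((continuous_levelRoot hK _).mul (continuous_levelRoot hK _)).continuousOn
          continuousOn_id]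
      refine cfc_congr fun t _ => ?_
      simp only [levelRoot, Real.mul_self_sqrt (weight_level_nonneg hK _ t), levelWeight_mul hK]
    have hroot : A.root K F l * N * A.root K F l = (A.root K F l * A.root K F l) * N := by
      rw [mul_assoc, (commute_root (a := N) (fun b => (h.p_mean F l b l).symm)
        (Commute.refl N)).eq, ← mul_assoc]
    have hswap : ∀ a b, A.p l a * f a * (A.p l b * f b) = A.p l a * A.p l b * (f a * f b) :=
      fun a b => (hpf b a).symm.mul_mul_mul_comm _ _
    have hid : ∑ a, A.p l a * (f a * f a) - A.root K F l * A.root K F l =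
        (2⁻¹ : ℂ) • ∑ a, ∑ b, A.p l a * A.p l b * ((f a - f b) * (f a - f b)) := by
      have e1 : ∑ a, ∑ b, A.p l a * A.p l b * (f a * f a) = ∑ a, A.p l a * (f a * f a) := by
        refine Finset.sum_congr rfl fun a _ => ?_
        rw [← Finset.sum_mul, ← Finset.mul_sum, h.p_sum, mul_one]
      have e2 : ∑ a, ∑ b, A.p l a * A.p l b * (f b * f b) = ∑ a, A.p l a * (f a * f a) := by
        rw [Finset.sum_comm]
        refine Finset.sum_congr rfl fun b _ => ?_
        rw [← Finset.sum_mul, ← Finset.sum_mul, h.p_sum, one_mul]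
      have e3 : ∑ a, ∑ b, A.p l a * A.p l b * (f a * f b) = A.root K F l * A.root K F l := by
        rw [Atoms.root, Finset.sum_mul_sum]
        exact Finset.sum_congr rfl fun a _ => Finset.sum_congr rfl fun b _ => (hswap a b).symm
      simp only [sub_mul, mul_sub, (hff _ _).eq, Finset.sum_sub_distrib]
      simp only [e1, e2, e3]
      rw [show ∀ S T : D, S - T - (T - S) = (S - T) + (S - T) from fun S T => by abel,
        ← two_smul ℂ (∑ a, A.p l a * (f a * f a) - _), smul_smul]
      norm_num
    rw [hroot, hgate, ← Finset.sum_mul, ← sub_nonneg, ← sub_mul, hid]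
    have hpp : ∀ a, 0 ≤ A.p l a := fun a => by
      obtain ⟨w, hw⟩ := h.p_pos l a
      rw [hw]; exact star_mul_self_nonneg w
    refine (?_ : Commute _ N).mul_nonneg ?_ hN0
    · refine Commute.smul_left (Commute.sum_left _ _ _ fun a _ => Commute.sum_left _ _ _
        fun b _ => ?_) _
      exact ((h.p_mean F l a l).mul_left (h.p_mean F l b l)).mul_left
        (((hfN a).sub_left (hfN b)).mul_left ((hfN a).sub_left (hfN b)))
    · rw [show (2⁻¹ : ℂ) = ((2⁻¹ : ℝ) : ℂ) by simp, Complex.coe_smul]
      refine smul_nonneg (by norm_num) (Finset.sum_nonneg fun a _ => Finset.sum_nonneg fun b _ => ?_)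
      refine (?_ : Commute _ _).mul_nonneg ((h.p_comm l a l b).mul_nonneg (hpp a) (hpp b)) ?_
      · exact ((((hpf a a).mul_left (hpf b a)).sub_right ((hpf a b).mul_left (hpf b b)))).mul_right
          (((hpf a a).mul_left (hpf b a)).sub_right ((hpf a b).mul_left (hpf b b)))
      · have hsa : IsSelfAdjoint (f a - f b) :=
          (isSelfAdjoint_rcalc _ _).sub (isSelfAdjoint_rcalc _ _)
        have := star_mul_self_nonneg (f a - f b)
        rwa [hsa.star_eq] at this
  calc ∑ l, ∑ g ∈ F, star (A.coef K F l g) * A.coef K F l g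
      ≤ ∑ l, A.rung K F l * A.gate K F l * A.rung K F l := Finset.sum_le_sum fun l _ => by
        rw [hrow]
        exact (h.rung_sa K F l).conjugate_le_conjugate (hle l)
    _ = ∑ l, ladderZ (A.gate K F) l * A.gate K F l := Finset.sum_congr rfl fun l _ => by
        rw [mul_assoc, (commute_rung (a := A.gate K F l) fun k _ => h.gate_comm K F l k).eq,
          ← mul_assoc, h.rung_sq]
    _ ≤ 1 := by
      rw [sum_ladder_telescope, sub_le_self_iff]
      refine prod_nonneg_of_commute _ (fun k => sub_nonneg.2 (h.gate_nonneg_le K F k).2) fun k k' => ?_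
      exact (Commute.one_left _).sub_left ((Commute.one_right _).sub_right (h.gate_comm K F k k'))

/-- The formula is a contraction. -/
theorem Exact.norm_value_le (h : A.Exact) {K : ℕ} (hK : 0 < K) (F : Finset G) (i : Fin 6) :
    ‖A.value K F i‖ ≤ 1 := by
  have h1 := norm_sum_conj_le (Finset.univ ×ˢ F) (fun s => A.coef K F s.1 s.2)
    (fun s => A.x s.1 s.2 i) (by
      rw [Finset.sum_product]
      exact h.sum_star_coef_mul hK F) fun s _ => h.x_norm _ _ _
  rwa [Finset.sum_product] at h1

omit [PartialOrder D] [StarOrderedRing D] in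
theorem Exact.one_sub_gate_sa (h : A.Exact) (K : ℕ) (F : Finset G) (l : Fin L) :
    IsSelfAdjoint (1 - A.gate K F l) :=
  (IsSelfAdjoint.one D).sub (h.gate_sa K F l)

omit [PartialOrder D] [StarOrderedRing D] in
theorem comap_value {G' : Type v} [DecidableEq G] (e : G' → G) (he : Function.Injective e)
    (K : ℕ) (F : Finset G') (i : Fin 6) :
    (A.comap e).value K F i = A.value K (F.image e) i := by
  have hm : ∀ l, (A.comap e).mean F l = A.mean (F.image e) l := fun l => by
    simp only [Atoms.mean, meanDensity, Finset.card_image_of_injective _ he,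
      Finset.sum_image fun a _ b _ hab => he hab]
    rfl
  have hc : ∀ l g, (A.comap e).coef K F l g = A.coef K (F.image e) l (e g) := fun l g => by
    simp only [Atoms.coef, Atoms.root, Atoms.rung, Atoms.gate, hm,
      Finset.card_image_of_injective _ he]
    rfl
  simp only [Atoms.value, Finset.sum_image fun a _ b _ hab => he hab, hc]
  rfl

omit [PartialOrder D] [StarOrderedRing D] in
theorem Exact.map_R (h : A.Exact) (ψ : D →⋆ₐ[ℂ] D') (l : Fin L) (g : G) :
    ψ (A.R l g) = (A.map ψ).R l g := by
  rw [Atoms.R, map_list_prod, List.map_ofFn]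
  refine congrArg List.prod (congrArg List.ofFn (funext fun k => ?_))
  show ψ (rcalc Real.sqrt (A.q l k g)) = _
  rw [map_rcalc ψ _ Real.continuous_sqrt (h.q_sa l k g)]
  simp [Atoms.q, factorQ, Atoms.map, map_sum]

omit [PartialOrder D] [StarOrderedRing D] in
theorem Exact.map_mean (h : A.Exact) (ψ : D →⋆ₐ[ℂ] D') (F : Finset G) (l : Fin L) :
    ψ (A.mean F l) = (A.map ψ).mean F l := by
  simp [Atoms.mean, meanDensity, map_sum, h.map_R ψ]

omit [PartialOrder D] [StarOrderedRing D] in
theorem Exact.map_gate (h : A.Exact) (ψ : D →⋆ₐ[ℂ] D') (K : ℕ) (F : Finset G) (l : Fin L) :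
    ψ (A.gate K F l) = (A.map ψ).gate K F l := by
  simp only [Atoms.gate, map_sum, map_mul]
  refine Finset.sum_congr rfl fun a _ => ?_
  rw [map_rcalc ψ _ (continuous_ramp_level _) (h.mean_sa F l), h.map_mean ψ]
  rfl

omit [PartialOrder D] [StarOrderedRing D] in
/-- The formula is natural. -/
theorem Exact.map_value (h : A.Exact) (ψ : D →⋆ₐ[ℂ] D') {K : ℕ} (hK : 0 < K) (F : Finset G)
    (i : Fin 6) : ψ (A.value K F i) = (A.map ψ).value K F i := by
  have hroot : ∀ l, ψ (A.root K F l) = (A.map ψ).root K F l := fun l => by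
    simp only [Atoms.root, map_sum, map_mul]
    refine Finset.sum_congr rfl fun a _ => ?_
    rw [map_rcalc ψ _ (continuous_levelRoot hK _) (h.mean_sa F l), h.map_mean ψ]
    rfl
  have hrung : ∀ l, ψ (A.rung K F l) = (A.map ψ).rung K F l := fun l => by
    rw [Atoms.rung, map_list_prod, List.map_ofFn]
    refine congrArg List.prod (congrArg List.ofFn (funext fun k => ?_))
    simp only [Function.comp_apply]
    split_ifs
    · rw [map_rcalc ψ _ Real.continuous_sqrt (h.one_sub_gate_sa K F k), map_sub, map_one,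
        h.map_gate ψ]
    · exact map_one ψ
  simp only [Atoms.value, Atoms.coef, map_sum, map_mul, map_star, map_smul, h.map_R ψ, hroot,
    hrung]
  rfl

omit [PartialOrder D] [StarOrderedRing D] in
theorem Exact.R_comm_all (h : A.Exact) (h' : A.Limit) (hπ : A.PartComm) (l l' : Fin L) (g g' : G) :
    Commute (A.R l g) (A.R l' g') := by
  rcases eq_or_ne l l' with rfl | hne
  · refine commute_R fun k' => (commute_R fun k => ?_).symm
    rcases eq_or_ne k' k with rfl | hk
    · exact commute_q (fun s => (commute_q (fun s' => hπ l k' s s')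
          fun j => h.fac l k' s g' j).symm)
        fun j => (commute_q (fun s => (h.fac l k' s g j).symm)
          fun j' => h'.φ_comm l k' g j g' j').symm
    · exact h.q_comm (fun e => hk (Prod.ext_iff.1 e).2) g' g
  · exact h.R_comm hne g g'

omit [PartialOrder D] [StarOrderedRing D] in
theorem Exact.sum_levelP (h : A.Exact) [DecidableEq G] {K : ℕ} (hK : 0 < K) (F : Finset G)
    (l : Fin L) {U : Finset G} (hU : F ⊆ U) :
    ∑ g ∈ U, levelP K (A.p l) (A.R l) F g = A.gate K F l := by
  rw [← Finset.sum_subset hU fun g _ hg => by rw [levelP, if_neg hg]]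
  rw [Finset.sum_congr rfl fun g hg => show levelP K (A.p l) (A.R l) F g = _ by
    rw [levelP, if_pos hg], ← Finset.smul_sum, ← Finset.mul_sum, ← mul_smul_comm,
    show (F.card : ℂ)⁻¹ • ∑ g ∈ F, A.R l g * A.R l g = A.mean F l from rfl, Finset.sum_mul]
  refine Finset.sum_congr rfl fun a _ => ?_
  rw [mul_assoc]
  congr 1
  rw [show meanDensity (A.R l) F = A.mean F l from rfl]
  simp only [rcalc]
  conv_lhs => arg 2; rw [← cfc_id' ℝ (A.mean F l) (h.mean_sa F l)]
  rw [← cfc_mul _ (fun t : ℝ => t) (A.mean F l) (continuous_weight_level hK _).continuousOn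
    continuousOn_id]
  exact cfc_congr fun t _ => levelWeight_mul hK _ t

omit [PartialOrder D] [StarOrderedRing D] in
theorem Exact.root_mul_root (h : A.Exact) (h' : A.Limit) {K : ℕ} (hK : 0 < K) (F : Finset G)
    (l : Fin L) :
    A.root K F l * A.root K F l =
      ∑ a, A.p l a * rcalc (levelWeight K a) (A.mean F l) := by
  have hpp : ∀ a, A.p l a * A.p l a = A.p l a := fun a => by
    have e : A.p l a * ∑ b, A.p l b = A.p l a := by rw [h.p_sum, mul_one]
    rwa [Finset.mul_sum, Finset.sum_eq_single a (fun b _ hb => h'.p_orth l a b hb.symm)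
      (fun hh => absurd (Finset.mem_univ a) hh)] at e
  rw [Atoms.root, Finset.sum_mul_sum]
  refine Finset.sum_congr rfl fun a _ => ?_
  rw [Finset.sum_eq_single a (fun b _ hb => ?_) fun hh => absurd (Finset.mem_univ a) hh]
  · rw [(commute_rcalc _ (h.p_mean F l a l)).symm.mul_mul_mul_comm, hpp]
    congr 1
    simp only [rcalc]
    rw [← cfc_mul _ _ (A.mean F l) (continuous_levelRoot hK _).continuousOn
      (continuous_levelRoot hK _).continuousOn]
    exact cfc_congr fun t _ => Real.mul_self_sqrt (weight_level_nonneg hK _ t)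
  · rw [(commute_rcalc _ (h.p_mean F l b l)).symm.mul_mul_mul_comm, h'.p_orth l a b hb.symm,
      zero_mul]

/-- In the limit the formula is the ladder of the replicas. -/
theorem Exact.value_eq_ladderY (h : A.Exact) (h' : A.Limit) (hπ : A.PartComm) [DecidableEq G]
    {K : ℕ} (hK : 0 < K) (F : Finset G) {U : Finset G} (hU : F ⊆ U) (i : Fin 6) :
    A.value K F i = ladderY U (fun l => levelP K (A.p l) (A.R l) F) A.x i := by
  have hE : (fun m => ∑ k ∈ U, levelP K (A.p m) (A.R m) F k) = A.gate K F :=
    funext fun m => h.sum_levelP hK F m hU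
  rw [Atoms.value, ladderY, hE]
  refine Finset.sum_congr rfl fun l _ => ?_
  rw [← Finset.sum_subset hU fun g _ hg => by rw [levelP, if_neg hg, mul_zero, zero_mul]]
  refine Finset.sum_congr rfl fun g hg => ?_
  have hxR : ∀ l' g', Commute (A.x l g i) (A.R l' g') := fun l' g' =>
    commute_R fun k => commute_q (fun s => ((h'.x_comm l g i l').2.1 k s).symm)
      fun j => ((h'.x_comm l g i l').2.2 k g' j).symm
  have hxN : ∀ l', Commute (A.x l g i) (A.mean F l') := fun l' =>
    commute_mean fun g' _ => hxR l' g'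
  have hxp : ∀ l' b, Commute (A.x l g i) (A.p l' b) := fun l' b => ((h'.x_comm l g i l').1 b).symm
  have hxW : Commute (A.x l g i) (A.root K F l) := commute_root (hxp l) (hxN l)
  have hxZ : Commute (A.x l g i) (A.rung K F l) :=
    commute_rung fun k _ => commute_gate (hxp k) (hxN k)
  have hRN : ∀ l', Commute (A.R l g) (A.mean F l') := fun l' =>
    commute_mean fun g' _ => h.R_comm_all h' hπ l l' g g'
  have hRW : Commute (A.R l g) (A.root K F l) :=
    commute_root (fun b => (h.p_R l b l g).symm) (hRN l)
  have hRZ : Commute (A.R l g) (A.rung K F l) :=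
    commute_rung fun k _ => commute_gate (fun b => (h.p_R k b l g).symm) (hRN k)
  have hWN : ∀ l', Commute (A.root K F l) (A.mean F l') := fun l' =>
    (commute_root (fun b => (h.p_mean F l b l').symm)
      (commute_mean fun g' _ => (commute_mean fun g'' _ =>
        h.R_comm_all h' hπ l' l g' g'').symm).symm).symm
  have hWp : ∀ l' b, Commute (A.root K F l) (A.p l' b) := fun l' b =>
    (commute_root (fun c => h.p_comm l' b l c) (h.p_mean F l' b l)).symm
  have hWZ : Commute (A.root K F l) (A.rung K F l) :=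
    commute_rung fun k _ => commute_gate (hWp k) (hWN k)
  have hxc : Commute (A.x l g i) (A.coef K F l g) :=
    ((hxR l g).mul_right (hxW.mul_right hxZ)).smul_right _
  rw [mul_assoc, hxc.eq, ← mul_assoc]
  congr 1
  rw [levelP, if_pos hg, Atoms.coef]
  simp only [star_smul, star_mul, (h.R_sa l g).star_eq, (h.root_sa K F l).star_eq,
    (h.rung_sa K F l).star_eq, smul_mul_assoc, mul_smul_comm, smul_smul]
  congr 1
  · rw [Complex.star_def, Complex.conj_ofReal, ← Complex.ofReal_mul, ← mul_inv,
      Real.mul_self_sqrt (Nat.cast_nonneg _)]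
    simp
  · rw [← h.rung_sq, show ∑ a, A.p l a * rcalc (levelWeight K a) (meanDensity (A.R l) F) =
      A.root K F l * A.root K F l from (h.root_mul_root h' hK F l).symm]
    set R := A.R l g
    set W := A.root K F l
    set Z := A.rung K F l
    calc Z * W * R * (R * (W * Z)) = Z * W * (R * R) * (W * Z) := by simp only [mul_assoc]
      _ = Z * W * ((R * R) * (W * Z)) := by rw [mul_assoc]
      _ = Z * W * ((W * Z) * (R * R)) := by
        rw [(((hRW.mul_left hRW).mul_right (hRZ.mul_left hRZ))).eq]
      _ = Z * (W * W) * Z * (R * R) := by simp only [mul_assoc]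
      _ = Z * Z * (W * W) * (R * R) := by
        rw [mul_assoc Z (W * W) Z, (hWZ.mul_left hWZ).eq, ← mul_assoc Z Z (W * W)]
      _ = Z * Z * (W * W * (R * R)) := mul_assoc _ _ _


end Atoms

end Vale.Agent.P095.Full.Tracial
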