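import Vale.Agent.P095.Full.Tracial.Specs

/-!
# P095, all amenable groups: inequalities used for the ladder of replicas

Products of commuting elements between `0` and `1`, squares of weighted sums, and two inequalities
for traces.
-/

noncomputable section

namespace Vale.Agent.P095.Full.Tracial

universe u v

open Vale.Agent.P095.Gamma

/-- The telescoping sum of the ladder. -/
theorem sum_ladderZ_mul {C : Type u} [CStarAlgebra C] :
    ∀ {L : ℕ} (E : Fin L → C), ∑ l, ladderZ E l * E l = 1 - ladderRest E := by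
  intro L
  induction L with
  | zero => intro E; simp [ladderRest]
  | succ L ih =>
    intro E
    have h0 : ladderZ E 0 = 1 := by
      refine List.prod_eq_one fun a ha => ?_
      obtain ⟨m, rfl⟩ := List.mem_ofFn.1 ha
      exact ite_eq_right_iff.2 fun h => absurd h (not_lt.2 (Fin.zero_le m))
    have hs : ∀ l : Fin L, ladderZ E l.succ = (1 - E 0) * ladderZ (fun m => E m.succ) l := by
      intro l
      simp only [ladderZ, List.ofFn_succ, List.prod_cons, Fin.succ_pos, if_true,
        Fin.succ_lt_succ_iff]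
    have hr : ladderRest E = (1 - E 0) * ladderRest (fun m => E m.succ) := by
      simp only [ladderRest, List.ofFn_succ, List.prod_cons]
    rw [Fin.sum_univ_succ, h0, one_mul, hr]
    simp only [hs, mul_assoc, ← Finset.mul_sum, ih fun m => E m.succ]
    noncomm_ring

section Algebra

variable {D : Type u} [Ring D] [StarRing D] {κ : Type*} (s : Finset κ) (w y : κ → D)

/-- The square of a weighted sum and the spread of the family. -/
theorem gram_identity (hw : ∀ p ∈ s, star (w p) = w p)
    (hww : ∀ p ∈ s, ∀ q ∈ s, Commute (w p) (w q))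
    (hwy : ∀ p ∈ s, ∀ q ∈ s, Commute (w p) (star (y q))) :
    (∑ p ∈ s, ∑ q ∈ s, w p * w q * (star (y p - y q) * (y p - y q))) +
        (star (∑ p ∈ s, w p * y p) * ∑ p ∈ s, w p * y p +
          star (∑ p ∈ s, w p * y p) * ∑ p ∈ s, w p * y p) =
      (∑ p ∈ s, w p) * (∑ p ∈ s, w p * (star (y p) * y p)) +
        (∑ p ∈ s, w p) * (∑ p ∈ s, w p * (star (y p) * y p)) := by
  have e2 : ∑ p ∈ s, ∑ q ∈ s, w p * w q * (star (y q) * y q) =
      (∑ p ∈ s, w p) * (∑ p ∈ s, w p * (star (y p) * y p)) := by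
    simp only [Finset.sum_mul_sum, mul_assoc]
  have e1 : ∑ p ∈ s, ∑ q ∈ s, w p * w q * (star (y p) * y p) =
      (∑ p ∈ s, w p) * (∑ p ∈ s, w p * (star (y p) * y p)) := by
    rw [← e2, Finset.sum_comm]
    exact Finset.sum_congr rfl fun p hp => Finset.sum_congr rfl fun q hq => by
      rw [(hww q hq p hp).eq]
  have e3 : ∑ p ∈ s, ∑ q ∈ s, w p * w q * (star (y p) * y q) =
      star (∑ p ∈ s, w p * y p) * ∑ p ∈ s, w p * y p := by
    rw [star_sum, Finset.sum_mul_sum]
    refine Finset.sum_congr rfl fun p hp => Finset.sum_congr rfl fun q hq => ?_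
    have h : Commute (w p * w q) (star (y p)) := (hwy p hp p hp).mul_left (hwy q hq p hp)
    rw [star_mul, hw p hp, ← mul_assoc, h.eq]
    simp only [mul_assoc]
  have e4 : ∑ p ∈ s, ∑ q ∈ s, w p * w q * (star (y q) * y p) =
      star (∑ p ∈ s, w p * y p) * ∑ p ∈ s, w p * y p := by
    rw [← e3, Finset.sum_comm]
    exact Finset.sum_congr rfl fun p hp => Finset.sum_congr rfl fun q hq => by
      rw [(hww q hq p hp).eq]
  simp only [star_sub, sub_mul, mul_sub, Finset.sum_sub_distrib, e1, e2, e3, e4]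
  abel

omit [StarRing D] in
/-- The square of a weighted sum of square-zero elements. -/
theorem square_identity (hww : ∀ p ∈ s, ∀ q ∈ s, Commute (w p) (w q))
    (hwy : ∀ p ∈ s, ∀ q ∈ s, Commute (w p) (y q)) (hy : ∀ p ∈ s, y p * y p = 0) :
    (∑ p ∈ s, ∑ q ∈ s, w p * w q * ((y p - y q) * (y p - y q))) +
        ((∑ p ∈ s, w p * y p) * ∑ p ∈ s, w p * y p +
          (∑ p ∈ s, w p * y p) * ∑ p ∈ s, w p * y p) = 0 := by
  have e1 : ∑ p ∈ s, ∑ q ∈ s, w p * w q * (y p * y p) = 0 :=
    Finset.sum_eq_zero fun p hp => Finset.sum_eq_zero fun q _ => by rw [hy p hp, mul_zero]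
  have e2 : ∑ p ∈ s, ∑ q ∈ s, w p * w q * (y q * y q) = 0 :=
    Finset.sum_eq_zero fun p _ => Finset.sum_eq_zero fun q hq => by rw [hy q hq, mul_zero]
  have e3 : ∑ p ∈ s, ∑ q ∈ s, w p * w q * (y p * y q) =
      (∑ p ∈ s, w p * y p) * ∑ p ∈ s, w p * y p := by
    rw [Finset.sum_mul_sum]
    exact Finset.sum_congr rfl fun p hp => Finset.sum_congr rfl fun q hq =>
      (hwy q hq p hp).mul_mul_mul_comm (w p) (y q)
  have e4 : ∑ p ∈ s, ∑ q ∈ s, w p * w q * (y q * y p) =
      (∑ p ∈ s, w p * y p) * ∑ p ∈ s, w p * y p := by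
    rw [← e3, Finset.sum_comm]
    exact Finset.sum_congr rfl fun p hp => Finset.sum_congr rfl fun q hq => by
      rw [(hww q hq p hp).eq]
  simp only [sub_mul, mul_sub, Finset.sum_sub_distrib, e1, e2, e3, e4]
  abel

end Algebra

variable {D : Type u} [CStarAlgebra D] [PartialOrder D] [StarOrderedRing D]

theorem mul_le_mul_left_comm {c a b : D} (hc : 0 ≤ c) (h : a ≤ b) (hca : Commute c a)
    (hcb : Commute c b) : c * a ≤ c * b := by
  have h0 := Commute.mul_nonneg hc (sub_nonneg.2 h) (hcb.sub_right hca)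
  rwa [mul_sub, sub_nonneg] at h0

theorem mul_le_mul_right_comm {c a b : D} (hc : 0 ≤ c) (h : a ≤ b) (hca : Commute c a)
    (hcb : Commute c b) : a * c ≤ b * c := by
  rw [← hca.eq, ← hcb.eq]
  exact mul_le_mul_left_comm hc h hca hcb

theorem mul_le_of_le_one_comm {a b : D} (ha : a ≤ 1) (hb : 0 ≤ b) (h : Commute a b) :
    a * b ≤ b := by
  simpa using mul_le_mul_right_comm hb ha h.symm (Commute.one_right b)

/-- Products in a commutative algebra of elements between `0` and `1`. -/
theorem prod_ofFn_bounds (A : Subalgebra ℝ D) (hA : ∀ a ∈ A, ∀ b ∈ A, Commute a b) :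
    ∀ {n : ℕ} (f : Fin n → D), (∀ i, f i ∈ A ∧ 0 ≤ f i ∧ f i ≤ 1) →
      (List.ofFn f).prod ∈ A ∧ 0 ≤ (List.ofFn f).prod ∧ (List.ofFn f).prod ≤ 1 ∧
        ∀ j, (List.ofFn f).prod ≤ f j := by
  intro n
  induction n with
  | zero => intro f _; simp
  | succ n ih =>
    intro f hf
    obtain ⟨h1, h2, h3, h4⟩ := ih (fun i => f i.succ) fun i => hf i.succ
    obtain ⟨g1, g2, g3⟩ := hf 0
    rw [List.ofFn_succ, List.prod_cons]
    have hc := hA _ g1 _ h1
    have hle0 : f 0 * (List.ofFn fun i => f i.succ).prod ≤ f 0 := by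
      rw [hc.eq]
      exact mul_le_of_le_one_comm h3 g2 hc.symm
    refine ⟨A.mul_mem g1 h1, hc.mul_nonneg g2 h2, hle0.trans g3, Fin.cases hle0 fun j => ?_⟩
    exact (mul_le_of_le_one_comm g3 h2 hc).trans (h4 j)

/-- Products of nearby elements between `0` and `1` are nearby. -/
theorem prod_ofFn_sub_le (A : Subalgebra ℝ D) (hA : ∀ a ∈ A, ∀ b ∈ A, Commute a b) :
    ∀ {n : ℕ} (f f' h : Fin n → D), (∀ i, f i ∈ A ∧ 0 ≤ f i ∧ f i ≤ 1) →
      (∀ i, f' i ∈ A ∧ 0 ≤ f' i ∧ f' i ≤ 1) →
      (∀ i, h i ∈ A ∧ 0 ≤ h i ∧ f i - f' i ≤ h i) →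
      (List.ofFn f).prod - (List.ofFn f').prod ≤ ∑ i, h i := by
  intro n
  induction n with
  | zero => intro f f' h _ _ _; simp
  | succ n ih =>
    intro f f' h hf hf' hh
    obtain ⟨a1, a2, a3⟩ := hf 0
    obtain ⟨b1, b2, b3⟩ := hf' 0
    obtain ⟨c1, c2, c3⟩ := hh 0
    obtain ⟨p1, p2, p3, -⟩ := prod_ofFn_bounds A hA (fun i => f i.succ) fun i => hf i.succ
    obtain ⟨q1, -, -, -⟩ := prod_ofFn_bounds A hA (fun i => f' i.succ) fun i => hf' i.succ
    have ih' := ih (fun i => f i.succ) (fun i => f' i.succ) (fun i => h i.succ)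
      (fun i => hf i.succ) (fun i => hf' i.succ) fun i => hh i.succ
    rw [List.ofFn_succ, List.ofFn_succ, List.prod_cons, List.prod_cons, Fin.sum_univ_succ]
    set p := (List.ofFn fun i => f i.succ).prod
    set q := (List.ofFn fun i => f' i.succ).prod
    have hs : ∑ i : Fin n, h i.succ ∈ A := A.sum_mem fun i _ => (hh i.succ).1
    have hs0 : 0 ≤ ∑ i : Fin n, h i.succ := Finset.sum_nonneg fun i _ => (hh i.succ).2.1
    rw [show f 0 * p - f' 0 * q = (f 0 - f' 0) * p + f' 0 * (p - q) by noncomm_ring]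
    refine add_le_add ?_ ?_
    · refine (mul_le_mul_right_comm p2 c3 (hA _ p1 _ (A.sub_mem a1 b1)) (hA _ p1 _ c1)).trans ?_
      rw [(hA _ c1 _ p1).eq]
      exact mul_le_of_le_one_comm p3 c2 (hA _ p1 _ c1)
    · exact (mul_le_mul_left_comm b2 ih' (hA _ b1 _ (A.sub_mem p1 q1)) (hA _ b1 _ hs)).trans
        (mul_le_of_le_one_comm b3 hs0 (hA _ b1 _ hs))

theorem star_mul_self_le_algebraMap {z : D} {r : ℝ} (h : ‖z‖ ≤ r) :
    star z * z ≤ algebraMap ℝ D (r * r) := by
  refine (IsSelfAdjoint.le_algebraMap_norm_self (IsSelfAdjoint.star_mul_self z)).trans ?_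
  refine algebraMap_mono D ?_
  rw [CStarRing.norm_star_mul_self]
  exact mul_le_mul h h (norm_nonneg z) ((norm_nonneg z).trans h)

variable {σ : D →ₗ[ℂ] ℂ} (hσ : IsTrace D σ)
include hσ

theorem trace_re_nonneg {a : D} (ha : 0 ≤ a) : 0 ≤ (σ a).re := by
  obtain ⟨w, rfl⟩ := CStarAlgebra.nonneg_iff_eq_star_mul_self.1 ha
  exact hσ.re_nonneg w

theorem trace_re_mono {a b : D} (h : a ≤ b) : (σ a).re ≤ (σ b).re := by
  have h0 := trace_re_nonneg hσ (sub_nonneg.2 h)
  rw [map_sub, Complex.sub_re] at h0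
  linarith

omit [PartialOrder D] [StarOrderedRing D] hσ in
theorem trace_re_smul (r : ℝ) (a : D) : (σ (r • a)).re = r * (σ a).re := by
  rw [← Complex.coe_smul, map_smul, smul_eq_mul, Complex.re_ofReal_mul]

omit [PartialOrder D] [StarOrderedRing D] in
theorem trace_re_algebraMap (r : ℝ) : (σ (algebraMap ℝ D r)).re = r := by
  rw [Algebra.algebraMap_eq_smul_one, trace_re_smul, hσ.map_one, Complex.one_re, mul_one]

/-- Bounded factors cost their bound. -/
theorem trace_re_mul_le {c X : D} {r : ℝ} (hc : 0 ≤ c) (hX : X ≤ algebraMap ℝ D r)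
    (h : Commute c X) : (σ (c * X)).re ≤ r * (σ c).re := by
  refine (trace_re_mono hσ (mul_le_mul_left_comm hc hX h
    (Algebra.commute_algebraMap_right r c))).trans_eq ?_
  rw [← Algebra.commutes, ← Algebra.smul_def, trace_re_smul]

/-- Compressions by contractions decrease traces of positive elements. -/
theorem trace_re_conj_le {K V : D} (hK : 0 ≤ K) (hV : ‖V‖ ≤ 1) :
    (σ (star V * K * V)).re ≤ (σ K).re := by
  obtain ⟨k, rfl⟩ := CStarAlgebra.nonneg_iff_eq_star_mul_self.1 hK
  rw [show star V * (star k * k) * V = star (k * V) * (k * V) by simp [mul_assoc],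
    ← hσ.l2_sq, ← hσ.l2_sq]
  exact pow_le_pow_left₀ (hσ.l2_nonneg _) ((hσ.l2_mul_le' k V).trans
    (mul_le_of_le_one_right (hσ.l2_nonneg k) hV)) 2

/-- Polarisation inside a positive weight. -/
theorem abs_trace_re_weight_le {c A B : D} (hc : 0 ≤ c) (hA : Commute c A) (hB : Commute c B) :
    2 * |(σ (c * (A * B))).re| ≤ (σ (c * (A * star A))).re + (σ (c * (star B * B))).re := by
  have hcs : star c = c := (IsSelfAdjoint.of_nonneg hc).star_eq
  have hB' : Commute c (star B) := by
    have := congrArg star hB.eq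
    rw [star_mul, star_mul, hcs] at this
    exact this.symm
  have key : ∀ u : D, Commute c u → Commute c (star u) →
      -(2 * (σ (c * (A * u))).re) ≤
        (σ (c * (A * star A))).re + (σ (c * (star u * u))).re := by
    intro u hu hu'
    have h0 := trace_re_nonneg hσ (star_left_conjugate_nonneg hc (star A + u))
    have e1 : A * c * star A = c * (A * star A) := by rw [← hA.eq, mul_assoc]
    have e2 : A * c * u = c * (A * u) := by rw [← hA.eq, mul_assoc]
    have e3 : star u * c * u = c * (star u * u) := by rw [← hu'.eq, mul_assoc]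
    have e4 : star u * c * star A = star (A * c * u) := by
      rw [star_mul, star_mul, hcs, mul_assoc]
    rw [star_add, star_star, add_mul, add_mul, mul_add, mul_add, e4, e1, e2, e3] at h0
    simp only [map_add, Complex.add_re, hσ.map_star, Complex.conj_re] at h0
    linarith
  have h1 := key B hB hB'
  have h2 := key (-B) hB.neg_right (by simpa using hB'.neg_right)
  simp only [mul_neg, star_neg, neg_mul, neg_neg, map_neg, Complex.neg_re] at h2
  rcases abs_cases (σ (c * (A * B))).re with ⟨e, -⟩ | ⟨e, -⟩ <;> rw [e] <;> linarith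

/-- The trace of the positive part is monotone. -/
theorem trace_re_posCut_le {a T : D} (ha : IsSelfAdjoint a) (hT : 0 ≤ T) (h : a ≤ T) :
    (σ (cfc (posCut 0) a)).re ≤ (σ T).re := by
  refine le_of_forall_pos_le_add fun ε hε => ?_
  set f : ℝ → ℝ := fun t => min 1 (max 0 (t / ε)) with hf
  have hfc : Continuous f := by fun_prop
  set F := cfc f a with hF
  have hFs : star F = F := (cfc_predicate f a : IsSelfAdjoint _).star_eq
  have hF1 : ‖F‖ ≤ 1 := norm_cfc_le zero_le_one fun t _ => by
    rw [Real.norm_eq_abs, abs_le]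
    exact ⟨by linarith [le_min (zero_le_one (α := ℝ)) (le_max_left 0 (t / ε))], min_le_left _ _⟩
  have hFaF : F * a * F = cfc (fun t => f t * t * f t) a := by
    rw [cfc_mul (fun t => f t * t) f a (hfc.mul continuous_id).continuousOn hfc.continuousOn,
      cfc_mul f (fun t => t) a hfc.continuousOn continuous_id.continuousOn, cfc_id' ℝ a ha]
  have hle : cfc (posCut 0) a ≤ F * a * F + algebraMap ℝ D ε := by
    rw [hFaF, ← cfc_add_const ε (fun t => f t * t * f t) a
      ((hfc.mul continuous_id).mul hfc).continuousOn ha]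
    refine cfc_mono (fun t _ => ?_) (by unfold posCut; fun_prop)
      (((hfc.mul continuous_id).mul hfc).add continuous_const).continuousOn
    simp only [posCut, sub_zero, hf]
    rcases le_total t 0 with ht | ht
    · rw [max_eq_right ht, max_eq_left (div_nonpos_of_nonpos_of_nonneg ht hε.le),
        min_eq_right zero_le_one]
      linarith
    · rw [max_eq_left ht]
      rcases le_total ε t with hεt | hεt
      · rw [min_eq_left (((one_le_div hε).2 hεt).trans (le_max_right _ _))]
        linarith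
      · have : (0 : ℝ) ≤ min 1 (max 0 (t / ε)) * t * min 1 (max 0 (t / ε)) := by
          have h0 := le_min (zero_le_one (α := ℝ)) (le_max_left 0 (t / ε))
          positivity
        linarith
  refine (trace_re_mono hσ hle).trans ?_
  rw [map_add, Complex.add_re, trace_re_algebraMap hσ]
  refine add_le_add ?_ le_rfl
  have h1 := trace_re_mono hσ (star_left_conjugate_le_conjugate h F)
  have h2 := trace_re_conj_le hσ hT hF1
  rw [hFs] at h1 h2
  linarith

end Vale.Agent.P095.Full.Tracial
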