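import Vale.Agent.P095.Full.Tracial.Bound

/-!
# P095, all amenable groups: the error element in the limit

The formula in the limit is the ladder of the replicas, both for a Følner set and for its
translates; this bounds the limit of the trace of the error element.
-/

noncomputable section

namespace Vale.Agent.P095.Full.Tracial

universe u v

open Filter Topology BoundedContinuousFunction Vale.Agent.P101 Vale.Agent.P095.Gamma
open scoped symmDiff

local instance laddersOrder {B : Type u} [CStarAlgebra B] {τ : ℕ → B →ₗ[ℂ] ℂ}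
    (hτ : ∀ M, IsTrace B (τ M)) (U : Ultrafilter ℕ) : PartialOrder (LimQuot hτ U) :=
  CStarAlgebra.spectralOrder _

local instance laddersOrdered {B : Type u} [CStarAlgebra B] {τ : ℕ → B →ₗ[ℂ] ℂ}
    (hτ : ∀ M, IsTrace B (τ M)) (U : Ultrafilter ℕ) : StarOrderedRing (LimQuot hτ U) :=
  CStarAlgebra.spectralOrderedRing _

/-- A finite sum of a nonnegative and real-valued trace has norm equal to its real part. -/
theorem norm_map_nonneg {D : Type u} [CStarAlgebra D] [PartialOrder D] [StarOrderedRing D]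
    {σ : D →ₗ[ℂ] ℂ} (hσ : IsTrace D σ) {a : D} (h : 0 ≤ a) : ‖σ a‖ = (σ a).re := by
  obtain ⟨h0, he⟩ := IsTraceMap.real_nonneg hσ h
  conv_lhs => rw [he]
  rw [Complex.norm_real, Real.norm_eq_abs, abs_of_nonneg h0]

variable {B : Type u} [CStarAlgebra B] {G : Type v} [Group G] {S : Fam B G} {T : Finset G}
  {L r m : ℕ} {τ : ℕ → B →ₗ[ℂ] ℂ} {hτ : ∀ M, S.Good (τ M)} {U : Ultrafilter ℕ}
  {σ : LimQuot (fun M => (hτ M).trace) U →ₗ[ℂ] ℂ}

namespace Parts

variable (P : Parts S T L r m) {t : ℝ}

theorem phi_translate (b : Bank) (M : ℕ) (g₀ g : G) (j : Fin 6 × Bool) :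
    S.act g₀ (S.phi t b M g j) = S.phi t b M (g₀ * g) j := by
  have hf : ∀ s, S.act g₀ (S.feature g s j) = S.feature (g₀ * g) s j := fun s => by
    simp only [Fam.feature]
    split_ifs <;> simp [map_smul, map_add, map_sub, map_star, S.act_mul]
  rw [Fam.phi, Fam.phi, map_rcalc (S.act g₀) ratFn continuous_ratFn]
  · simp only [map_smul, map_sum, hf]
  · exact IsSelfAdjoint.smul (Complex.conj_ofReal _) (isSelfAdjoint_sum _ fun s _ => S.star_feature g _ j)

/-- The atoms translated by `g₀` are, in the limit, the relabelled atoms. -/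
theorem lim_translate (hr : 0 < r) (hσ : IsLim hτ U σ) {g₀ : G} (hg : g₀ ∈ T) :
    (P.atoms t).map ((limMk (fun M => (hτ M).trace) U).comp (seqComp (S.act g₀))) =
      (P.lim hτ U t).comap (g₀ * ·) := by
  have key : ∀ f f' : ℕ →ᵇ B, Tendsto (fun M => ‖S.act g₀ (f M) - f' M‖) atTop (𝓝 0) →
      limMk (fun M => (hτ M).trace) U (seqComp (S.act g₀) f) =
        limMk (fun M => (hτ M).trace) U f' := fun f f' h => by
    rw [← sub_eq_zero, ← map_sub]
    exact limMk_eq_zero_of_norm (hτ := hτ) hσ.le_top h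
  have hε : Tendsto (fun M : ℕ => 1 / ((M : ℝ) + 1)) atTop (𝓝 0) :=
    tendsto_one_div_add_atTop_nhds_zero_nat
  simp only [Atoms.map, Atoms.comap, Atoms.mk.injEq]
  refine ⟨funext fun l => funext fun a => key _ _ ?_, funext fun l => funext fun k =>
    funext fun s => key _ _ ?_, funext fun l => funext fun k => funext fun g => funext fun j => ?_,
    funext fun l => funext fun g => funext fun i => key _ _ ?_⟩
  · exact squeeze_zero (fun M => norm_nonneg _) (fun M => (P.lev_part M l).inv g₀ hg a) hε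
  · exact squeeze_zero (fun M => norm_nonneg _) (fun M => (P.sgn_part M l k).inv g₀ hg s) hε
  · show limMk _ U (seqComp (S.act g₀) _) = _
    congr 1
    exact BoundedContinuousFunction.ext fun M => phi_translate (S := S) _ _ g₀ g j
  · refine squeeze_zero (fun M => norm_nonneg _) (fun M => ?_) hε
    show ‖S.act g₀ (S.sel (fun k : Fin r => poolBank l k) (M + 1) (P.pick M l) g i) -
      S.sel (fun k : Fin r => poolBank l k) (M + 1) (P.pick M l) (g₀ * g) i‖ ≤ 1 / ((M : ℝ) + 1)
    rw [Fam.sel, Fam.sel, map_sum, ← Finset.sum_sub_distrib]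
    refine (norm_sum_le _ _).trans ((Finset.sum_le_card_nsmul _ _
      ((1 / ((r * (M + 1) : ℕ) : ℝ)) ^ 8) fun s _ => ?_).trans ?_)
    · rw [_root_.map_mul, ← S.act_mul, ← sub_mul]
      calc _ ≤ ‖S.act g₀ (P.pick M l s) - P.pick M l s‖ *
            ‖S.act (g₀ * g) (S.z (poolBank l s.1, (s.2 : ℕ)) i)‖ := norm_mul_le _ _
        _ ≤ _ * 1 := mul_le_mul ((P.pick_part M l).inv g₀ hg s) (S.norm_z_le _ _ _)
            (norm_nonneg _) (by positivity)
        _ = _ := mul_one _
    · rw [Finset.card_univ, Fintype.card_prod, Fintype.card_fin, Fintype.card_fin, nsmul_eq_mul]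
      set N : ℝ := ((r * (M + 1) : ℕ) : ℝ) with hN
      have hM : (M : ℝ) + 1 ≤ N := by
        rw [hN]; push_cast
        exact le_mul_of_one_le_left (by positivity) (by exact_mod_cast hr)
      have h1 : 1 ≤ N := le_trans (by linarith [Nat.cast_nonneg (α := ℝ) M]) hM
      have hN0 : 0 < N := by linarith
      calc N * (1 / N) ^ 8 ≤ N * (1 / N) ^ 2 := by
            refine mul_le_mul_of_nonneg_left ?_ hN0.le
            exact pow_le_pow_of_le_one (by positivity) ((div_le_one hN0).2 h1) (by norm_num)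
        _ = 1 / N := by field_simp
        _ ≤ 1 / ((M : ℝ) + 1) := one_div_le_one_div_of_le (by positivity) hM

variable (hs : Setting S r t) (hσ : IsLim hτ U σ) [DecidableEq G]
  (hrep : ReplicaStatement.{u, v}) (hlad : LadderStatement.{u, v}) {K : ℕ} (hK : 0 < K) (hm : 0 < m)
  (hmr : (3 / 2 : ℝ) ^ r ≤ m) {κ η s : ℝ} (hκ : 0 ≤ κ) (hη : 0 ≤ η) (hs0 : 0 ≤ s)
  (hfar : Real.exp (-(r * (t ^ 2 / 2 * κ - 400 * t ^ 4)) / 144) ≤ η)
  (hself : Real.exp (-(r * (t ^ 2 / 8 - 400 * t ^ 4)) / 144) ≤ η)
include hs hσ hrep hlad hK hm hmr hκ hη hs0 hfar hself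

/-- The ladder in the limit, for two sets of the same size with small symmetric difference. -/
theorem ladder_bound (F F' : Finset G) (hF : F.Nonempty) (hcard : F.card = F'.card)
    (hsd : ((F ∆ F').card : ℝ) ≤ s * F.card) (hhalf : Real.sqrt (K * F.card) * η ≤ 1 / 2) :
    (∀ i, (σ (star ((P.lim hτ U t).value K F i - (P.lim hτ U t).value K F' i) *
        ((P.lim hτ U t).value K F i - (P.lim hτ U t).value K F' i))).re ≤
        8 * (L * (4 * s / m) + L ^ 2 * (1 / m * (4 * s / m))) ∧
      (σ (star ((P.lim hτ U t).value K F i * (P.lim hτ U t).value K F i) *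
          ((P.lim hτ U t).value K F i * (P.lim hτ U t).value K F i))).re ≤
        4 * (L * ((κ + 24 * F.card * η) / m) + 48 * L ^ 2 * (1 / (K * m) * (1 / m)))) ∧
    (σ (rcalc (posCut 0) (algebraMap ℝ (LimQuot (fun M => (hτ M).trace) U) (1 / 4) -
      ∑ i, (star ((P.lim hτ U t).value K F i) * (P.lim hτ U t).value K F i +
        (P.lim hτ U t).value K F i * star ((P.lim hτ U t).value K F i))))).re ≤
      2 * Real.exp (-(L / (2 * m : ℝ))) +
        4 * (L * ((κ + 24 * F.card * η) / m) + 48 * L ^ 2 * (1 / (K * m) * (1 / m))) := by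
  obtain ⟨hlim, hπ, -, -, -, hxsq, hxlow, hlln, -⟩ :=
    P.limit_rel hs.r_pos hs.t_pos hs.t_le hs.sel hσ
  have hex := (P.exact t).map (limMk (fun M => (hτ M).trace) U)
  set A := P.lim hτ U t with hA
  have hrf := fun l => P.replica_facts hs hσ hrep hK hm hmr hκ hη hfar hself l F F' hF hcard
  have hrf' := fun l => P.replica_facts hs hσ hrep hK hm hmr hκ hη hfar hself l F' F
    (Finset.card_pos.1 (hcard ▸ Finset.card_pos.2 hF)) hcard.symm
  choose hP hE1 hEle hEge hEamb hD Mj hMj hMjs using hrf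
  have hmR : (0 : ℝ) < m := Nat.cast_pos.2 hm
  have hgateF : ∀ l, ∑ g ∈ F ∪ F', levelP K (A.p l) (A.R l) F g = A.gate K F l := fun l =>
    hex.sum_levelP hK F l Finset.subset_union_left
  have hsumF : ∀ l, ∑ g ∈ F, levelP K (A.p l) (A.R l) F g = A.gate K F l := fun l =>
    hex.sum_levelP hK F l (subset_refl F)
  have hgateF' : ∀ l, ∑ g ∈ F ∪ F', levelP K (A.p l) (A.R l) F' g = A.gate K F' l := fun l =>
    hex.sum_levelP hK F' l Finset.subset_union_right
  -- membership in the replicas
  have hgen : ∀ l (V : Set G), closedGen (Set.range (A.p l) ∪ A.R l '' V) ≤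
      img hτ U (repSet l) := fun l V => by
    refine closedGen_le (isClosed_closedGen _) ?_
    rintro _ (⟨a, rfl⟩ | ⟨g, -, rfl⟩)
    · exact img_mono hτ U (levelBank_subset l) (mem_img hτ U (P.atoms_p_mem t l a))
    · exact img_mono hτ U (facAll_subset l) (P.R_mem_img l g)
  have hgate_mem : ∀ l : Fin L, A.gate K F l ∈ img hτ U (repSet l) := fun l => by
    rw [← hsumF l]
    exact sum_mem fun g _ => hgen l _ (hP l g).2
  have hdisj : ∀ l l' : Fin L, l ≠ l' → Disjoint (repSet l) (repSet l') := fun l l' h =>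
    repSet_disjoint fun e => h (Fin.ext e)
  -- the commutative algebra of the replicas
  set gens : Set (LimQuot (fun M => (hτ M).trace) U) :=
    Set.range (fun z : Fin L × Fin m => A.p z.1 z.2) ∪ Set.range (fun z : Fin L × G => A.R z.1 z.2)
    with hgens
  have hW : ∀ l (V : Set G), closedGen (Set.range (A.p l) ∪ A.R l '' V) ≤ closedGen gens :=
    fun l V => closedGen_mono (by
      rintro _ (⟨a, rfl⟩ | ⟨g, -, rfl⟩)
      exacts [Or.inl ⟨(l, a), rfl⟩, Or.inr ⟨(l, g), rfl⟩])
  have hgsa : ∀ z ∈ gens, IsSelfAdjoint z := by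
    rintro _ (⟨z, rfl⟩ | ⟨z, rfl⟩)
    exacts [hex.p_sa z.1 z.2, hex.R_sa z.1 z.2]
  have hgc : ∀ z ∈ gens, ∀ z' ∈ gens, Commute z z' := by
    rintro _ (⟨z, rfl⟩ | ⟨z, rfl⟩) _ (⟨z', rfl⟩ | ⟨z', rfl⟩)
    exacts [hex.p_comm _ _ _ _, hex.p_R _ _ _ _, (hex.p_R _ _ _ _).symm,
      hex.R_comm_all hlim hπ _ _ _ _]
  have hgx : ∀ z ∈ gens, ∀ l g i, Commute z (A.x l g i) := by
    rintro _ (⟨z, rfl⟩ | ⟨z, rfl⟩) l g i
    · exact (hlim.x_comm l g i z.1).1 z.2
    · exact (Atoms.commute_R fun k => Atoms.commute_q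
        (fun s => ((hlim.x_comm l g i z.1).2.1 k s).symm)
        fun j => ((hlim.x_comm l g i z.1).2.2 k z.2 j).symm).symm
  have hmain := hlad _ σ hσ.trace G L (F ∪ F')
    (fun l g => levelP K (A.p l) (A.R l) F g) (fun l g => levelP K (A.p l) (A.R l) F' g) Mj A.x
    (closedGen gens : Set (LimQuot (fun M => (hτ M).trace) U))
    ((κ + 24 * F.card * η) / m) (1 / (K * m) * (1 / m)) (4 * s / m) (1 / m * (4 * s / m))
    (Real.exp (-(L / (2 * m : ℝ))))
    (fun l g hg => ⟨hW l _ (hP l g).2, hW l _ ((hrf' l).1 g).2, hW l _ (hMj l g hg).2.1⟩)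
    (fun z hz z' hz' => commute_of_mem_closedGen hgsa hgc hz hz')
    (fun z hz l g _ i => commute_closedGen (fun y hy => ⟨hgx y hy l g i, by
      have := (hgx y hy l g i).star_star
      rwa [(hgsa y hy).star_eq] at this⟩) hz)
    (fun l g hg => ⟨(hP l g).1, ((hrf' l).1 g).1, (hMj l g hg).1, (hMj l g hg).2.2.1,
      (hMj l g hg).2.2.2⟩)
    (fun l => ⟨by rw [hgateF]; exact (hex.gate_nonneg_le K F l).2,
      by rw [hgateF']; exact (hex.gate_nonneg_le K F' l).2⟩)
    (fun l g _ => ⟨fun i => ⟨hex.x_norm l g i, hxsq l g i⟩, hxlow l g⟩)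
    (by positivity) (by positivity) (by positivity) (by positivity)
    (fun l => ?_) (fun l l' hll => ?_) (fun l => ?_) (fun l l' hll => ?_) ?_
  · have hv : ∀ i, A.value K F i =
        ladderY (F ∪ F') (fun l g => levelP K (A.p l) (A.R l) F g) A.x i :=
      fun i => hex.value_eq_ladderY hlim hπ hK F Finset.subset_union_left i
    have hv' : ∀ i, A.value K F' i =
        ladderY (F ∪ F') (fun l g => levelP K (A.p l) (A.R l) F' g) A.x i :=
      fun i => hex.value_eq_ladderY hlim hπ hK F' Finset.subset_union_right i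
    simp only [hv, hv']
    exact ⟨fun i => (hmain.1 i).2, hmain.2⟩
  · -- the spread inside a replica
    have hterm : ∀ g k i, (σ (levelP K (A.p l) (A.R l) F g * levelP K (A.p l) (A.R l) F k *
        (star (A.x l g i - A.x l k i) * (A.x l g i - A.x l k i)))).re =
        (σ (levelP K (A.p l) (A.R l) F g * levelP K (A.p l) (A.R l) F k)).re *
          (σ (star (A.x l g i - A.x l k i) * (A.x l g i - A.x l k i))).re := fun g k i => by
      have h0 : 0 ≤ levelP K (A.p l) (A.R l) F g * levelP K (A.p l) (A.R l) F k :=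
        (commute_of_mem_closedGen hgsa hgc (hW l _ (hP l g).2) (hW l _ (hP l k).2)).mul_nonneg
          (hP l g).1 (hP l k).1
      rw [hlln l g k i _ (mul_mem (hgen l _ (hP l g).2) (hgen l _ (hP l k).2)),
        (IsTraceMap.real_nonneg hσ.trace h0).2, Complex.re_ofReal_mul, Complex.ofReal_re]
    refine le_trans (le_of_eq ?_) (hD l)
    simp only [Complex.re_sum, hterm]
    rw [Finset.sum_comm]
    refine (Finset.sum_subset Finset.subset_union_left ?_).symm.trans ?_
    · intro g _ hg
      simp [levelP, if_neg hg]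
    refine Finset.sum_congr rfl fun g _ => ?_
    rw [Finset.sum_comm]
    refine (Finset.sum_subset Finset.subset_union_left ?_).symm.trans ?_
    · intro k _ hk
      simp [levelP, if_neg hk]
    refine Finset.sum_congr rfl fun k _ => ?_
    rw [← Finset.mul_sum, mul_comm, Parts.dist, Complex.re_sum]
  · simp only [hgateF]
    have h := hEamb l
    rw [hsumF] at h
    rw [hσ.map_mul (hdisj l l' hll.ne) (sub_mem (hgate_mem l)
      (mul_mem (hgate_mem l) (hgate_mem l))) (hgate_mem l'),
      (IsTraceMap.real_nonneg hσ.trace (hex.gate_nonneg_le K F l').1).2, Complex.re_mul_ofReal]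
    have h' := hEle l'
    rw [hsumF] at h'
    exact mul_le_mul h h' (IsTraceMap.real_nonneg hσ.trace (hex.gate_nonneg_le K F l').1).1
      (by positivity)
  · refine (hMjs l).trans ?_
    refine div_le_div_of_nonneg_right ?_ hmR.le
    rw [div_le_iff₀ (by exact_mod_cast Finset.card_pos.2 hF)]
    linarith
  · simp only [hgateF]
    rw [hσ.map_mul (hdisj l l' hll.ne') (hgate_mem l)
      (sum_mem fun g hg => hgen l' _ (hMj l' g hg).2.1),
      (IsTraceMap.real_nonneg hσ.trace (hex.gate_nonneg_le K F l).1).2, Complex.re_ofReal_mul]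
    have h' := hEle l
    rw [hsumF] at h'
    refine mul_le_mul h' ((hMjs l').trans ?_) ?_ (by positivity)
    · refine div_le_div_of_nonneg_right ?_ hmR.le
      rw [div_le_iff₀ (by exact_mod_cast Finset.card_pos.2 hF)]
      linarith
    · exact (IsTraceMap.real_nonneg hσ.trace (Finset.sum_nonneg fun g hg => (hMj l' g hg).1)).1
  · simp only [hgateF]
    have hre : ∀ l, σ (1 - A.gate K F l) = ((1 - (σ (A.gate K F l)).re : ℝ) : ℂ) := fun l => by
      rw [map_sub, hσ.trace.map_one, Complex.ofReal_sub, Complex.ofReal_one,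
        ← (IsTraceMap.real_nonneg hσ.trace (hex.gate_nonneg_le K F l).1).2]
    rw [ladderRest, hσ.map_prod (fun l : Fin L => repSet l) _
      (fun l => sub_mem (one_mem _) (hgate_mem l)) hdisj]
    simp only [hre, ← Complex.ofReal_prod, Complex.ofReal_re]
    refine (prod_le_exp _ (fun _ => 1 / (2 * m : ℝ)) (fun l => ?_) fun l => ?_).trans (le_of_eq ?_)
    · have := IsTraceMap.re_mono hσ.trace (hex.gate_nonneg_le K F l).2
      rw [hσ.trace.map_one, Complex.one_re] at this
      linarith
    · have h := hEge l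
      rw [hsumF] at h
      have h2 : 1 / (2 * (m : ℝ)) ≤ (1 - Real.sqrt (K * F.card) * η) / m := by
        rw [div_le_div_iff₀ (by positivity) hmR]
        nlinarith
      linarith
    · simp only [Finset.sum_const, Finset.card_univ, Fintype.card_fin, nsmul_eq_mul,
        mul_one_div]

/-- The limit of the trace of the error element. -/
theorem error_le (F : Finset G) (hF : F.Nonempty)
    (hsd : ∀ g ∈ T, ((F.image (g * ·) ∆ F).card : ℝ) ≤ s * F.card)
    (hhalf : Real.sqrt (K * F.card) * η ≤ 1 / 2) :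
    ‖σ (limMk (fun M => (hτ M).trace) U
      (errElem (fun g => seqComp (S.act g)) T fun i => (P.atoms t).value K F i))‖ ≤
      T.card * (6 * (8 * (L * (4 * s / m) + L ^ 2 * (1 / m * (4 * s / m))))) +
        6 * (4 * (L * ((κ + 24 * F.card * η) / m) + 48 * L ^ 2 * (1 / (K * m) * (1 / m)))) +
        (2 * Real.exp (-(L / (2 * m : ℝ))) +
          4 * (L * ((κ + 24 * F.card * η) / m) + 48 * L ^ 2 * (1 / (K * m) * (1 / m)))) := by
  have hex := P.exact t
  have hval : ∀ i, limMk (fun M => (hτ M).trace) U ((P.atoms t).value K F i) =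
      (P.lim hτ U t).value K F i := fun i => hex.map_value _ hK F i
  have hact : ∀ g ∈ T, ∀ i, limMk (fun M => (hτ M).trace) U
      (seqComp (S.act g) ((P.atoms t).value K F i)) =
      (P.lim hτ U t).value K (F.image (g * ·)) i := fun g hg i => by
    have h := hex.map_value ((limMk (fun M => (hτ M).trace) U).comp (seqComp (S.act g))) hK F i
    rw [P.lim_translate hs.r_pos hσ hg, Atoms.comap_value _ (mul_right_injective g)] at h
    exact h
  rw [map_errElem]
  simp only [hval]
  rw [Finset.sum_congr rfl fun g hg => Finset.sum_congr rfl fun i _ => by rw [hact g hg i]]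
  obtain ⟨hb, hc⟩ := P.ladder_bound hs hσ hrep hlad hK hm hmr hκ hη hs0 hfar hself F F hF rfl
    (by simpa using mul_nonneg hs0 (Nat.cast_nonneg F.card)) hhalf
  rw [norm_map_nonneg hσ.trace]
  · simp only [map_add, map_sum, Complex.add_re, Complex.re_sum]
    refine add_le_add (add_le_add ?_ ?_) hc
    · refine (Finset.sum_le_card_nsmul _ _
        (6 * (8 * (L * (4 * s / m) + L ^ 2 * (1 / m * (4 * s / m))))) fun g hg => ?_).trans
        (le_of_eq (nsmul_eq_mul _ _))
      refine (Finset.sum_le_card_nsmul _ _ (8 * (L * (4 * s / m) + L ^ 2 * (1 / m * (4 * s / m))))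
        fun i _ => ?_).trans (le_of_eq (by simp))
      have hcard : F.card = (F.image (g * ·)).card :=
        (Finset.card_image_of_injective _ (mul_right_injective g)).symm
      obtain ⟨hb', -⟩ := P.ladder_bound hs hσ hrep hlad hK hm hmr hκ hη hs0 hfar hself F
        (F.image (g * ·)) hF hcard (by rw [symmDiff_comm]; exact hsd g hg) hhalf
      refine le_trans (le_of_eq ?_) (hb' i).1
      have e : star ((P.lim hτ U t).value K (F.image (g * ·)) i - (P.lim hτ U t).value K F i) *
          ((P.lim hτ U t).value K (F.image (g * ·)) i - (P.lim hτ U t).value K F i) =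
          star ((P.lim hτ U t).value K F i - (P.lim hτ U t).value K (F.image (g * ·)) i) *
          ((P.lim hτ U t).value K F i - (P.lim hτ U t).value K (F.image (g * ·)) i) := by
        rw [← neg_sub ((P.lim hτ U t).value K F i), star_neg, neg_mul_neg]
      rw [e]
    · refine (Finset.sum_le_card_nsmul _ _ _ fun i _ => (hb i).2).trans (le_of_eq (by simp))
  · exact add_nonneg (add_nonneg (Finset.sum_nonneg fun g _ => Finset.sum_nonneg fun i _ =>
      star_mul_self_nonneg _) (Finset.sum_nonneg fun i _ => star_mul_self_nonneg _))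
      (cfc_nonneg fun x _ => le_max_right _ _)

end Parts

end Vale.Agent.P095.Full.Tracial
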