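import Vale.Agent.P095.Full.Tracial.Build
import Vale.Agent.P095.Full.Tracial.CoreProof

/-!
# P095, all amenable groups: the tracial half
-/

noncomputable section

namespace Vale.Agent.P095.Full

universe u v

/-- Almost central, almost invariant families which are almost square-zero and uniformly large in
all traces, for every action of a countable amenable group. -/
theorem tracialStatement : TracialStatement.{u, v} :=
  Tracial.buildStatement Tracial.coreStatement

end Vale.Agent.P095.Full
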