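import Vale.Agent.P095.Full.Tracial.Defs

/-!
# P095, all amenable groups: functional models of commuting self-adjoint elements

Commuting self-adjoint elements are the images of real functions on a compact space under an
injective, monotone algebra map, compatible with the functional calculus.
-/

noncomputable section

namespace Vale.Agent.P095.Full.Tracial

universe u

variable {D : Type u} [CStarAlgebra D] [PartialOrder D] [StarOrderedRing D]

/-- A model of a commutative algebra by real functions on a compact space. -/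
structure RealModel (s : Set D) (X : Type u) [TopologicalSpace X] where
  /-- The evaluation map. -/
  J : C(X, ℝ) →ₐ[ℝ] D
  injective : Function.Injective J
  mono : ∀ f g : C(X, ℝ), (∀ x, f x ≤ g x) → J f ≤ J g
  calc_eq : ∀ (h : ℝ → ℝ) (hh : Continuous h) (f : C(X, ℝ)),
    rcalc h (J f) = J ((⟨h, hh⟩ : C(ℝ, ℝ)).comp f)
  mem : ∀ f, J f ∈ closedGen s
  surj : ∀ a ∈ s, ∃ f, J f = a

theorem RealModel.nonneg_iff {s : Set D} {X : Type u} [TopologicalSpace X] (M : RealModel s X)
    {f : C(X, ℝ)} : 0 ≤ M.J f ↔ ∀ x, 0 ≤ f x := by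
  refine ⟨fun h x => ?_, fun h => by simpa using M.mono 0 f h⟩
  have e : rcalc (fun t : ℝ => max t 0) (M.J f) = M.J f := by
    rw [rcalc]
    conv_rhs => rw [← cfc_id' ℝ (M.J f) (IsSelfAdjoint.of_nonneg h)]
    exact cfc_congr fun t ht => max_eq_left (spectrum_nonneg_of_nonneg h ht)
  rw [M.calc_eq _ (by fun_prop)] at e
  have := congrArg (fun q : C(X, ℝ) => q x) (M.injective e)
  simp only [ContinuousMap.comp_apply, ContinuousMap.coe_mk] at this
  exact le_of_le_of_eq (le_max_right _ _) this

theorem exists_realModel (s : Set D) (hsa : ∀ a ∈ s, IsSelfAdjoint a)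
    (hc : ∀ a ∈ s, ∀ b ∈ s, Commute a b) :
    ∃ (X : Type u) (_ : TopologicalSpace X), Nonempty (RealModel s X) := by
  have hmc : IsMulCommutative (StarAlgebra.adjoin ℂ s) :=
    StarAlgebra.isMulCommutative_adjoin ℂ (fun a ha b hb => hc a ha b hb)
      (fun a ha b hb => by rw [(hsa b hb).star_eq]; exact hc a ha b hb)
  let T : StarSubalgebra ℂ D := closedGen s
  have : IsClosed (T : Set D) := StarSubalgebra.isClosed_topologicalClosure _
  have hcomm : ∀ a b : T, a * b = b * a :=
    (StarSubalgebra.commRingTopologicalClosure (StarAlgebra.adjoin ℂ s)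
      (fun a b => mul_comm' a b)).mul_comm
  let _ : CommCStarAlgebra T :=
    { (StarSubalgebra.cstarAlgebra T : CStarAlgebra T) with mul_comm := hcomm }
  let ψ : C(WeakDual.characterSpace ℂ T, ℂ) →⋆ₐ[ℂ] D :=
    T.subtype.comp ((gelfandStarTransform T).symm : C(WeakDual.characterSpace ℂ T, ℂ) →⋆ₐ[ℂ] T)
  let toC : C(WeakDual.characterSpace ℂ T, ℝ) →ₐ[ℝ] C(WeakDual.characterSpace ℂ T, ℂ) :=
    Complex.ofRealAm.compLeftContinuous ℝ Complex.continuous_ofReal
  have hψi : Function.Injective ψ :=
    Subtype.val_injective.comp (gelfandStarTransform T).symm.injective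
  have hψc : Continuous ψ := AddMonoidHomClass.continuous_of_bound ψ 1 fun x => by
    simpa using NonUnitalStarAlgHom.norm_apply_le ψ x
  let J : C(WeakDual.characterSpace ℂ T, ℝ) →ₐ[ℝ] D := (ψ.toAlgHom.restrictScalars ℝ).comp toC
  have hJ : ∀ f, J f = ψ (toC f) := fun f => rfl
  have hev : ∀ (f : C(WeakDual.characterSpace ℂ T, ℝ)) (x : WeakDual.characterSpace ℂ T), toC f x = (f x : ℂ) := fun f x => rfl
  have htC : ∀ f : C(WeakDual.characterSpace ℂ T, ℝ), IsSelfAdjoint (toC f) := fun f => by
    ext x
    simp [hev]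
  have hJsa : ∀ f, star (J f) = J f := fun f => by rw [hJ, ← map_star, (htC f).star_eq]
  refine ⟨WeakDual.characterSpace ℂ T, inferInstance, ⟨⟨J, fun f g h => ?_, fun f g h => ?_, fun h hh f => ?_, fun f => ?_,
    fun a ha => ?_⟩⟩⟩
  · ext x
    have := congrArg (fun F : C(WeakDual.characterSpace ℂ T, ℂ) => F x) (hψi h)
    simpa [hev] using this
  · let q : C(WeakDual.characterSpace ℂ T, ℝ) := ⟨fun x => Real.sqrt (g x - f x), by fun_prop⟩
    have e : g - f = q * q := by
      ext x
      simp [q, Real.mul_self_sqrt (sub_nonneg.2 (h x))]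
    rw [← sub_nonneg, ← map_sub, e, map_mul]
    conv_rhs => arg 1; rw [← hJsa q]
    exact star_mul_self_nonneg _
  · set t := (gelfandStarTransform T).symm (toC f) with ht
    have hts : IsSelfAdjoint t := (htC f).map _
    have h1 : rcalc h (J f) = T.subtype (cfc h t) := by
      rw [rcalc, StarAlgHom.map_cfc T.subtype h t hh.continuousOn continuous_subtype_val hts
        (hts.map _)]
      rfl
    have h2 : cfc h t = (gelfandStarTransform T).symm (toC ((⟨h, hh⟩ : C(ℝ, ℝ)).comp f)) := by
      apply EquivLike.injective (gelfandStarTransform T)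
      refine Eq.trans ?_ ((gelfandStarTransform T).apply_symm_apply _).symm
      ext x
      let χ : T →⋆ₐ[ℂ] ℂ := (ContinuousMap.evalStarAlgHom ℂ ℂ x).comp
        ((gelfandStarTransform T : T ≃⋆ₐ[ℂ] C(WeakDual.characterSpace ℂ T, ℂ)) :
          T →⋆ₐ[ℂ] C(WeakDual.characterSpace ℂ T, ℂ))
      have e : χ (cfc h t) = cfc h (χ t) := StarAlgHom.map_cfc χ h t hh.continuousOn
        (AddMonoidHomClass.continuous_of_bound χ 1 fun y => by
          simpa using NonUnitalStarAlgHom.norm_apply_le χ y) hts (hts.map _)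
      refine e.trans ?_
      rw [show χ t = algebraMap ℝ ℂ (f x) by
        show gelfandStarTransform T t x = _
        rw [ht, StarAlgEquiv.apply_symm_apply]; rfl, cfc_algebraMap]
      rfl
    rw [h1, h2]
    rfl
  · exact ((gelfandStarTransform T).symm (toC f)).2
  · have haT : a ∈ T := StarSubalgebra.le_topologicalClosure _ (StarAlgebra.subset_adjoin ℂ _ ha)
    set F := gelfandStarTransform T ⟨a, haT⟩
    have hF : star F = F := by
      rw [← map_star]
      congr 1
      exact Subtype.ext (hsa a ha).star_eq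
    refine ⟨⟨fun x => (F x).re, Complex.continuous_re.comp F.continuous⟩, ?_⟩
    have : toC ⟨fun x => (F x).re, Complex.continuous_re.comp F.continuous⟩ = F := by
      ext x
      exact Complex.conj_eq_iff_re.1 (congrArg (fun G : C(WeakDual.characterSpace ℂ T, ℂ) => G x) hF)
    rw [hJ, this]
    exact congrArg Subtype.val ((gelfandStarTransform T).symm_apply_apply ⟨a, haT⟩)

end Vale.Agent.P095.Full.Tracial
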