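import Vale.Agent.P095.Base
import Vale.Agent.P095.Full.Tracial.Basic
import Vale.Agent.P095.Full.Tracial.Formula
import Vale.Agent.P095.Full.Tracial.Specs

/-!
# P095, all amenable groups: the atoms of the tracial half in the sequences of the sites

Partitions of growing accuracy in separate banks of sites, bounded sums of features over growing
banks and the selected families, as atoms in the algebra of bounded sequences.
-/

noncomputable section

namespace Vale.Agent.P095.Full.Tracial

universe u v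

open BoundedContinuousFunction Vale.Agent.P101 Vale.Agent.P095.Gamma

/-- The signed features. -/
abbrev Signed : Type := (Fin 6 × Bool) × Bool

/-- The bank of the sites summed in a factor. -/
def poolBank (l k : ℕ) : Bank := (0, l, k)

/-- The bank of the partition of a factor. -/
def signBank (l k : ℕ) : Bank := (1, l, k)

/-- The bank of the selection of a replica. -/
def selBank (l : ℕ) : Bank := (2, l, 0)

/-- The bank of the levels of a replica. -/
def levelBank (l : ℕ) : Bank := (3, l, 0)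

theorem abs_ratFn_le (t : ℝ) : |ratFn t| ≤ 1 / 2 := by
  have h : (0 : ℝ) < 1 + t ^ 2 := by positivity
  rw [ratFn, abs_div, abs_of_pos h, div_le_iff₀ h]
  nlinarith [sq_nonneg (|t| - 1), sq_abs t]

theorem continuous_ratFn : Continuous ratFn :=
  continuous_id.div (by fun_prop) fun t => by positivity

theorem isSelfAdjoint_of_isPos {B : Type u} [CStarAlgebra B] {a : B} (h : IsPos a) :
    IsSelfAdjoint a := by
  obtain ⟨w, rfl⟩ := h
  exact IsSelfAdjoint.star_mul_self w

theorem bankSet_disjoint {b b' : Bank} (h : b ≠ b') : Disjoint (bankSet b) (bankSet b') :=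
  Set.disjoint_left.2 fun _ hs hs' => h (hs.symm.trans hs')

variable {B : Type u} [CStarAlgebra B] {G : Type v} [Group G] (S : Fam B G)

/-- A partition in a bank, almost invariant under `T`, almost uniform and almost orthogonal in
good traces. -/
structure IsPart (T : Finset G) (b : Bank) {κ : Type} [Fintype κ] (ε : ℝ) (p : κ → B) : Prop where
  mem : ∀ a, p a ∈ S.alg (bankSet b)
  pos : ∀ a, IsPos (p a)
  sum : ∑ a, p a = 1
  comm : ∀ a a', Commute (p a) (p a')
  inv : ∀ g ∈ T, ∀ a, ‖S.act g (p a) - p a‖ ≤ ε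
  mean : ∀ τ, S.Good τ → ∀ a, ‖τ (p a) - 1 / (Fintype.card κ : ℂ)‖ ≤ ε
  orth : ∀ τ, S.Good τ → ∀ a a', a ≠ a' → ‖τ (p a * p a')‖ ≤ ε

theorem exists_isPart (hpart : FamPartitionStatement.{u, v}) [DecidableEq G] (hG : IsFolnerGroup G)
    (T : Finset G) (b : Bank) (κ : Type) [Fintype κ] [Nonempty κ] {ε : ℝ} (hε : 0 < ε) :
    ∃ p : κ → B, IsPart S T b ε p := by
  obtain ⟨p, h1, h2, h3, h4, h5, h6⟩ :=
    hpart B G hG S b (Fintype.card κ) Fintype.card_pos ε hε T
  let e := Fintype.equivFin κ
  refine ⟨fun a => p (e a), fun a => h1 _, fun a => h2 _, ?_, fun a a' => h4 _ _,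
    fun g hg a => h5 g hg _, fun τ hτ a => (h6 τ hτ).1 _,
    fun τ hτ a a' h => (h6 τ hτ).2 _ _ (e.injective.ne h)⟩
  rw [← h3]
  exact e.sum_comp p

/-- The partitions at all levels of accuracy, for `L` replicas of `r` factors and `m` levels. -/
structure Parts (T : Finset G) (L r m : ℕ) where
  /-- The levels. -/
  lev : ℕ → Fin L → Fin m → B
  /-- The signed partitions. -/
  sgn : ℕ → Fin L → Fin r → Signed → B
  /-- The selections. -/
  pick : ∀ M : ℕ, Fin L → Fin r × Fin (M + 1) → B
  lev_part : ∀ (M : ℕ) (l : Fin L), IsPart S T (levelBank l) (1 / ((M : ℝ) + 1)) (lev M l)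
  sgn_part : ∀ (M : ℕ) (l : Fin L) (k : Fin r),
    IsPart S T (signBank l k) (1 / ((M : ℝ) + 1)) (sgn M l k)
  pick_part : ∀ (M : ℕ) (l : Fin L),
    IsPart S T (selBank l) ((1 / ((r * (M + 1) : ℕ) : ℝ)) ^ 8) (pick M l)

theorem exists_parts (hpart : FamPartitionStatement.{u, v}) [DecidableEq G] (hG : IsFolnerGroup G)
    (T : Finset G) (L : ℕ) {r m : ℕ} (hr : 0 < r) (hm : 0 < m) :
    Nonempty (Parts S T L r m) := by
  haveI : Nonempty (Fin m) := ⟨⟨0, hm⟩⟩
  haveI : Nonempty (Fin r) := ⟨⟨0, hr⟩⟩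
  choose lev hlev using fun (M : ℕ) (l : Fin L) =>
    exists_isPart S hpart hG T (levelBank l) (Fin m) (show (0 : ℝ) < 1 / ((M : ℝ) + 1) by positivity)
  choose sgn hsgn using fun (M : ℕ) (l : Fin L) (k : Fin r) =>
    exists_isPart S hpart hG T (signBank l k) Signed (show (0 : ℝ) < 1 / ((M : ℝ) + 1) by positivity)
  choose pick hpick using fun (M : ℕ) (l : Fin L) =>
    exists_isPart S hpart hG T (selBank l) (Fin r × Fin (M + 1))
      (show (0 : ℝ) < (1 / ((r * (M + 1) : ℕ) : ℝ)) ^ 8 by positivity)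
  exact ⟨⟨lev, sgn, pick, hlev, hsgn, hpick⟩⟩

variable {S} {T : Finset G}

theorem IsPart.norm_le {b : Bank} {κ : Type} [Fintype κ] {ε : ℝ} {p : κ → B}
    (h : IsPart S T b ε p) (a : κ) : ‖p a‖ ≤ 1 := by
  let _ : PartialOrder B := CStarAlgebra.spectralOrder B
  let _ : StarOrderedRing B := CStarAlgebra.spectralOrderedRing B
  have h0 : ∀ c, 0 ≤ p c := fun c => by
    obtain ⟨w, hw⟩ := h.pos c
    rw [hw]; exact star_mul_self_nonneg w
  refine (CStarAlgebra.norm_le_one_iff_of_nonneg _ (h0 a)).2 ?_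
  rw [← h.sum]
  exact Finset.single_le_sum (fun c _ => h0 c) (Finset.mem_univ a)

/-- A weighted sum of contractions commuting with the weights is a contraction. -/
theorem IsPart.norm_sum_mul_le {b : Bank} {κ : Type} [Fintype κ] {ε : ℝ} {p : κ → B}
    (h : IsPart S T b ε p) (c : κ → B) (hc : ∀ a a', Commute (p a) (c a'))
    (hn : ∀ a, ‖c a‖ ≤ 1) : ‖∑ a, p a * c a‖ ≤ 1 := by
  let _ : PartialOrder B := CStarAlgebra.spectralOrder B
  let _ : StarOrderedRing B := CStarAlgebra.spectralOrderedRing B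
  have h0 : ∀ a, 0 ≤ p a := fun a => by
    obtain ⟨w, hw⟩ := h.pos a
    rw [hw]; exact star_mul_self_nonneg w
  have hsq : ∀ a, rcalc Real.sqrt (p a) * rcalc Real.sqrt (p a) = p a := fun a => by
    rw [rcalc, ← cfc_mul _ _ _ (by fun_prop) (by fun_prop)]
    conv_rhs => rw [← cfc_id' ℝ (p a) (IsSelfAdjoint.of_nonneg (h0 a))]
    exact cfc_congr fun t ht => Real.mul_self_sqrt (spectrum_nonneg_of_nonneg (h0 a) ht)
  have hst : ∀ a, star (rcalc Real.sqrt (p a)) = rcalc Real.sqrt (p a) := fun a =>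
    (isSelfAdjoint_rcalc _ _).star_eq
  have e : ∀ a, p a * c a = star (rcalc Real.sqrt (p a)) * c a * rcalc Real.sqrt (p a) := fun a => by
    rw [hst, mul_assoc, (commute_rcalc Real.sqrt (hc a a).symm).eq, ← mul_assoc, hsq]
  simp only [e]
  refine norm_sum_conj_le _ _ _ ?_ fun a _ => hn a
  simp only [hst, hsq, h.sum, le_refl]

theorem Fam.phi_mem (t : ℝ) (b : Bank) (M : ℕ) (g : G) (j : Fin 6 × Bool) :
    S.phi t b M g j ∈ S.alg (bankSet b) :=
  cfc_mem (𝕜' := ℂ) ratFn
    (SMulMemClass.smul_mem _ (sum_mem fun _ _ => S.feature_mem (P := bankSet b) g rfl j))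

theorem Fam.norm_phi_le (t : ℝ) (b : Bank) (M : ℕ) (g : G) (j : Fin 6 × Bool) :
    ‖S.phi t b M g j‖ ≤ 1 / 2 :=
  norm_cfc_le (by norm_num) fun x _ => by simpa [Real.norm_eq_abs] using abs_ratFn_le x

namespace Parts

variable {L r m : ℕ} (P : Parts S T L r m)

theorem norm_pick_sel_le (M : ℕ) (l : Fin L) (g : G) (i : Fin 6) :
    ‖S.sel (fun k : Fin r => poolBank l k) (M + 1) (P.pick M l) g i‖ ≤ 1 := by
  rw [Fam.sel]
  refine (P.pick_part M l).norm_sum_mul_le
    (fun a : Fin r × Fin (M + 1) => S.act g (S.z (poolBank l a.1, (a.2 : ℕ)) i)) (fun a a' => ?_)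
    fun a => S.norm_z_le g _ i
  have hd : selBank (l : ℕ) ≠ poolBank l a'.1 := by simp [selBank, poolBank]
  exact (S.starCommute_alg (bankSet_disjoint hd) ((P.pick_part M l).mem a)
    (S.z_mem (P := bankSet (poolBank l a'.1)) g rfl i)).1

/-- The atoms as bounded sequences. -/
def atoms (t : ℝ) : Atoms (ℕ →ᵇ B) G L r m where
  p l a := bseq (fun M => P.lev M l a) 1 fun M => (P.lev_part M l).norm_le a
  π l k s := bseq (fun M => P.sgn M l k s) 1 fun M => (P.sgn_part M l k).norm_le s
  φ l k g j := bseq (fun M => S.phi t (poolBank l k) (M + 1) g j) (1 / 2) fun M =>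
    S.norm_phi_le t _ _ g j
  x l g i := bseq (fun M => S.sel (fun k : Fin r => poolBank l k) (M + 1) (P.pick M l) g i) 1
    fun M => P.norm_pick_sel_le M l g i

theorem atoms_p_mem (t : ℝ) (l : Fin L) (a : Fin m) :
    (P.atoms t).p l a ∈ S.seqAlg fun _ => bankSet (levelBank l) :=
  fun M => (P.lev_part M l).mem a

theorem atoms_π_mem (t : ℝ) (l : Fin L) (k : Fin r) (s : Signed) :
    (P.atoms t).π l k s ∈ S.seqAlg fun _ => bankSet (signBank l k) :=
  fun M => (P.sgn_part M l k).mem s

theorem atoms_φ_mem (t : ℝ) (l : Fin L) (k : Fin r) (g : G) (j : Fin 6 × Bool) :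
    (P.atoms t).φ l k g j ∈ S.seqAlg fun _ => bankSet (poolBank l k) :=
  fun M => S.phi_mem t _ _ g j

theorem atoms_x_mem (t : ℝ) (l : Fin L) (g : G) (i : Fin 6) :
    (P.atoms t).x l g i ∈
      S.seqAlg fun _ => {s | s.1 = selBank l ∨ ∃ k : Fin r, s.1 = poolBank l k} := fun M =>
  sum_mem fun a _ => mul_mem
    (S.alg_mono (fun _ hs => Or.inl hs) ((P.pick_part M l).mem a))
    (S.z_mem g (Or.inr ⟨a.1, rfl⟩) i)

theorem commute_of_mem {f f' : ℕ →ᵇ B} {X Y : Set Site} (h : Disjoint X Y)
    (hf : f ∈ S.seqAlg fun _ => X) (hf' : f' ∈ S.seqAlg fun _ => Y) : Commute f f' :=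
  BoundedContinuousFunction.ext fun M => (S.starCommute_alg h (hf M) (hf' M)).1

theorem exact (t : ℝ) : (P.atoms t).Exact where
  p_pos l a := by
    let _ : PartialOrder (ℕ →ᵇ B) := CStarAlgebra.spectralOrder _
    let _ : StarOrderedRing (ℕ →ᵇ B) := CStarAlgebra.spectralOrderedRing _
    refine ⟨bseq (fun M => rcalc Real.sqrt (P.lev M l a)) 1 fun M => ?_,
      BoundedContinuousFunction.ext fun M => ?_⟩
    · refine norm_cfc_le zero_le_one fun x hx => ?_
      rw [Real.norm_eq_abs, abs_of_nonneg (Real.sqrt_nonneg _), Real.sqrt_le_one]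
      exact (le_abs_self x).trans ((spectrum.norm_le_norm_mul_of_mem hx).trans (by
        rcases subsingleton_or_nontrivial B with hB | hB
        · simp [Subsingleton.elim (P.lev M l a) 0]
        · simpa using (P.lev_part M l).norm_le a))
    · show P.lev M l a = star (rcalc Real.sqrt (P.lev M l a)) * rcalc Real.sqrt (P.lev M l a)
      obtain ⟨w, hw⟩ := (P.lev_part M l).pos a
      let _ : PartialOrder B := CStarAlgebra.spectralOrder B
      let _ : StarOrderedRing B := CStarAlgebra.spectralOrderedRing B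
      have h0 : (0 : B) ≤ P.lev M l a := hw ▸ star_mul_self_nonneg w
      rw [(isSelfAdjoint_rcalc _ _).star_eq, rcalc,
        ← cfc_mul _ _ _ (by fun_prop) (by fun_prop)]
      conv_lhs => rw [← cfc_id' ℝ (P.lev M l a) (IsSelfAdjoint.of_nonneg h0)]
      exact cfc_congr fun x hx => (Real.mul_self_sqrt (spectrum_nonneg_of_nonneg h0 hx)).symm
  p_sum l := BoundedContinuousFunction.ext fun M => by
    simpa [Parts.atoms] using (P.lev_part M l).sum
  p_comm l a l' a' := by
    rcases eq_or_ne l l' with rfl | h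
    · exact BoundedContinuousFunction.ext fun M => (P.lev_part M l).comm a a'
    · exact commute_of_mem (bankSet_disjoint (by simp [levelBank, Fin.val_inj, h]))
        (P.atoms_p_mem t l a) (P.atoms_p_mem t l' a')
  π_sa l k s := BoundedContinuousFunction.ext fun M => isSelfAdjoint_of_isPos ((P.sgn_part M l k).pos s)
  φ_sa l k g j := BoundedContinuousFunction.ext fun M => isSelfAdjoint_rcalc _ _
  fac l k s g j := commute_of_mem (bankSet_disjoint (by simp [signBank, poolBank]))
    (P.atoms_π_mem t l k s) (P.atoms_φ_mem t l k g j)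
  cross l k l' k' h := by
    have h' : ¬((l : ℕ) = l' ∧ (k : ℕ) = k') := fun e =>
      h (Prod.ext (Fin.ext e.1) (Fin.ext e.2))
    refine ⟨fun s s' => commute_of_mem (bankSet_disjoint (by simpa [signBank] using h'))
        (P.atoms_π_mem t l k s) (P.atoms_π_mem t l' k' s'),
      fun s g j => commute_of_mem (bankSet_disjoint (by simp [signBank, poolBank]))
        (P.atoms_π_mem t l k s) (P.atoms_φ_mem t l' k' g j),
      fun g j g' j' => commute_of_mem (bankSet_disjoint (by simpa [poolBank] using h'))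
        (P.atoms_φ_mem t l k g j) (P.atoms_φ_mem t l' k' g' j')⟩
  p_fac l a l' k := ⟨fun s => commute_of_mem (bankSet_disjoint (by simp [signBank, levelBank]))
      (P.atoms_p_mem t l a) (P.atoms_π_mem t l' k s),
    fun g j => commute_of_mem (bankSet_disjoint (by simp [poolBank, levelBank]))
      (P.atoms_p_mem t l a) (P.atoms_φ_mem t l' k g j)⟩
  x_norm l g i := (BoundedContinuousFunction.norm_le zero_le_one).2 fun M =>
    P.norm_pick_sel_le M l g i

end Parts

end Vale.Agent.P095.Full.Tracial
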